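import Vale.Agent.P074.MathlibUsed
import Vale.Agent.P074.Defs

set_option linter.all false

section

section

section

open MeasureTheory Set
open scoped ENNReal NNReal RealInnerProductSpace

namespace Vale.Agent.P074

/-- Laguerre cell of index `k` for the atoms `y` and the weights `ψ`. -/
def cell {d : ℕ} {ι : Type*} (K : Set (E d)) (y : ι → E d) (ψ : ι → ℝ) (k : ι) : Set (E d) :=
  {x | x ∈ K ∧ ∀ l, ⟪x, y l⟫ - ψ l ≤ ⟪x, y k⟫ - ψ k}

section

variable {d : ℕ} {ι : Type*} {K : Set (E d)} {y : ι → E d} {ψ φ : ι → ℝ} {k l : ι}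

theorem mem_cell {x : E d} :
    x ∈ cell K y ψ k ↔ x ∈ K ∧ ∀ l, ⟪x, y l⟫ - ψ l ≤ ⟪x, y k⟫ - ψ k := Iff.rfl

theorem cell_subset (K : Set (E d)) (y : ι → E d) (ψ : ι → ℝ) (k : ι) : cell K y ψ k ⊆ K :=
  fun _ hx => hx.1

theorem cell_eq (K : Set (E d)) (y : ι → E d) (ψ : ι → ℝ) (k : ι) :
    cell K y ψ k = K ∩ ⋂ l, {x : E d | ⟪x, y l⟫ - ψ l ≤ ⟪x, y k⟫ - ψ k} := by
  ext x
  simp only [cell, tsub_le_iff_right, mem_ofPred_eq, mem_inter_iff, mem_iInter]

theorem isClosed_cell (hK : IsClosed K) : IsClosed (cell K y ψ k) := by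
  rw [cell_eq]
  refine hK.inter (isClosed_iInter fun l => ?_)
  exact isClosed_le (by (clear * -; fun_prop)) (by fun_prop)

theorem isCompact_cell (hK : IsCompact K) : IsCompact (cell K y ψ k) :=
  hK.of_isClosed_subset (isClosed_cell hK.isClosed) (cell_subset _ _ _ _)

theorem measurableSet_cell (hK : IsClosed K) : MeasurableSet (cell K y ψ k) :=
  (isClosed_cell hK).measurableSet

theorem midpoint_mem_cell (hK : Convex ℝ K) {x z : E d} (hx : x ∈ cell K y ψ k)
    (hz : z ∈ cell K y φ k) :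
    (2 : ℝ)⁻¹ • (x + z) ∈ cell K y (fun i => (ψ i + φ i) / 2) k := by
  refine ⟨?_, fun l => ?_⟩
  · have := hK hx.1 hz.1 (by norm_num : (0 : ℝ) ≤ 2⁻¹) (by norm_num : (0 : ℝ) ≤ 2⁻¹)
      (by norm_num)
    rwa [smul_add]
  · have h1 := hx.2 l
    have h2 := hz.2 l
    simp only [inner_smul_left, inner_add_left, conj_trivial]
    linarith

theorem convex_cell (hK : Convex ℝ K) : Convex ℝ (cell K y ψ k) := by
  intro x hx z hz a b ha hb hab
  refine ⟨hK hx.1 hz.1 ha hb hab, fun l => ?_⟩
  have h1 := mul_le_mul_of_nonneg_left (hx.2 l) ha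
  have h2 := mul_le_mul_of_nonneg_left (hz.2 l) hb
  have e : b = 1 - a := by linarith only [hab]
  simp only [inner_add_left, inner_smul_left, conj_trivial]
  subst e
  linarith only [h1, h2]

theorem iUnion_cell [Finite ι] [Nonempty ι] (K : Set (E d)) (y : ι → E d) (ψ : ι → ℝ) :
    ⋃ k, cell K y ψ k = K := by
  apply Subset.antisymm
  · exact iUnion_subset fun k => cell_subset _ _ _ _
  · intro x hx
    obtain ⟨k, hk⟩ := Finite.exists_max (fun l => ⟪x, y l⟫ - ψ l)
    exact mem_iUnion.2 ⟨k, hx, hk⟩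

theorem volume_hyperplane {v : E d} (hv : v ≠ 0) (c : ℝ) :
    volume {x : E d | ⟪x, v⟫ = c} = 0 := by
  have hne : ‖v‖ ^ 2 ≠ 0 := by
    have := norm_ne_zero_iff.2 hv
    positivity
  let S : AffineSubspace ℝ (E d) :=
    { carrier := {x : E d | ⟪x, v⟫ = c}
      smul_vsub_vadd_mem' := by
        intro t p q r hp hq hr
        simp only [mem_ofPred_eq] at hp hq hr ⊢
        simp only [vsub_eq_sub, vadd_eq_add, inner_add_left, inner_smul_left, inner_sub_left,
          conj_trivial, hp, hq, hr]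
        ring }
  have hS : S ≠ ⊤ := by
    intro h
    have h1 : ((c + 1) / ‖v‖ ^ 2) • v ∈ S := h ▸ AffineSubspace.mem_top ℝ (E d) _
    have h2 : ⟪((c + 1) / ‖v‖ ^ 2) • v, v⟫ = c := h1
    rw [inner_smul_left, real_inner_self_eq_norm_sq] at h2
    simp only [conj_trivial] at h2
    rw [div_mul_cancel₀ _ hne] at h2
    linarith only [h2]
  exact Measure.addHaar_affineSubspace volume S hS

theorem volume_cell_inter (hkl : y k ≠ y l) :
    volume (cell K y ψ k ∩ cell K y ψ l) = 0 := by
  refine measure_mono_null ?_ (volume_hyperplane (sub_ne_zero.2 hkl) (ψ k - ψ l))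
  rintro x ⟨hx, hx'⟩
  have h1 := hx.2 l
  have h2 := hx'.2 k
  simp only [mem_ofPred_eq, inner_sub_right]
  linarith only [h1, h2]

theorem integral_eq_sum_cell [Fintype ι] [Nonempty ι] {F : Type*} [NormedAddCommGroup F]
    [NormedSpace ℝ F] (hK : IsClosed K) (hy : Function.Injective y) {f : E d → F}
    (hf : IntegrableOn f K volume) :
    ∫ x in K, f x = ∑ k, ∫ x in cell K y ψ k, f x := by
  conv_lhs => rw [← iUnion_cell K y ψ]
  rw [integral_iUnion_ae]
  · exact tsum_fintype _
  · intro k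
    exact (measurableSet_cell hK).nullMeasurableSet
  · intro k l hkl
    exact volume_cell_inter (fun h => hkl (hy h))
  · rw [iUnion_cell]
    exact hf

end

end Vale.Agent.P074
end
end
end

section

section

section

open MeasureTheory Set Metric
open scoped ENNReal NNReal

namespace Vale.Agent.P074

/-- The Legendre transform of `ψ` over the closed ball of radius `M`. -/
noncomputable def conj {d : ℕ} (M : ℝ) (ψ : E d → ℝ) (x : E d) : ℝ :=
  ⨆ y : closedBall (0 : E d) M, (inner ℝ x y.1 - ψ y.1)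

/-- The dual functional. -/
noncomputable def dualFun {d : ℕ} (M : ℝ) (ς μ : Measure (E d)) (ψ : E d → ℝ) : ℝ :=
  ∫ x, conj M ψ x ∂ς + ∫ y, ψ y ∂μ

/-- The dual value (maximal correlation of `ς` and `μ`). -/
noncomputable def dualVal {d : ℕ} (R M : ℝ) (ς μ : Measure (E d)) : ℝ :=
  sInf {v | ∃ ψ : E d → ℝ, LipschitzWith R.toNNReal ψ ∧ v = dualFun M ς μ ψ}

/-- The measure with density `σ` with respect to the uniform measure on `K`. -/
noncomputable def src {d : ℕ} (K : Set (E d)) (σ : E d → ℝ) : Measure (E d) :=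
  (unif K).withDensity (fun x => ENNReal.ofReal (σ x))

/-- Densities used for the perturbed sources. -/
structure GoodDensity {d : ℕ} (K : Set (E d)) (σ : E d → ℝ) : Prop where
  meas : Measurable σ
  lower : ∀ x, 1 / 2 ≤ σ x
  upper : ∀ x, σ x ≤ 3 / 2
  total : ∫ x, σ x ∂(unif K) = 1

/-- Stability of the moments of Laguerre cells in terms of their volumes. -/
def CellKey {d : ℕ} (K : Set (E d)) : Prop :=
  ∃ C : ℝ, 0 ≤ C ∧ ∀ (ι : Type) [Fintype ι] (y : ι → E d), Function.Injective y →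
    ∀ (ψ ψ' : ι → ℝ),
    (∀ i, 0 < volume.real (cell K y ψ i)) →
    (∀ i, volume.real (cell K y ψ i) ≤ 2 * volume.real (cell K y ψ' i)) →
    (∀ i, volume.real (cell K y ψ' i) ≤ 2 * volume.real (cell K y ψ i)) →
    ∑ i, ‖(∫ x in cell K y ψ' i, x) - ∫ x in cell K y ψ i, x‖ ^ 2 / volume.real (cell K y ψ i) ≤
      C * ∑ i, (volume.real (cell K y ψ' i) - volume.real (cell K y ψ i)) ^ 2
        / volume.real (cell K y ψ i)

/-- The main inequality for dual values. -/
def MainIneq {d : ℕ} (K : Set (E d)) (R M : ℝ) : Prop :=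
  ∃ C : ℝ, 0 ≤ C ∧ ∀ σ : E d → ℝ, GoodDensity K σ →
    ∀ π : Measure (E d × E d), IsProbabilityMeasure π →
      π (closedBall 0 M ×ˢ closedBall 0 M)ᶜ = 0 →
      (dualVal R M (src K σ) (π.map Prod.snd) - dualVal R M (src K σ) (π.map Prod.fst))
        - (dualVal R M (unif K) (π.map Prod.snd) - dualVal R M (unif K) (π.map Prod.fst))
      ≤ C * √(∫ x, (σ x - 1) ^ 2 ∂(unif K)) * √(∫ z, ‖z.1 - z.2‖ ^ 2 ∂π)

end Vale.Agent.P074
end
end
end

section

section

section

open MeasureTheory Set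
open scoped ENNReal NNReal RealInnerProductSpace

namespace Vale.Agent.P074

/-- Dual certificate of optimality. -/
theorem isOptimalMap_of_dual {d : ℕ} (ρ : Measure (E d)) [IsFiniteMeasure ρ] (T : E d → E d)
    (hT : Measurable T) (F : Set (E d)) (hF : MeasurableSet F) (hTF : ∀ x, T x ∈ F)
    (a b : E d → ℝ) (ha : Measurable a) (hb : Measurable b) (A B : ℝ)
    (hA : ∀ᵐ x ∂ρ, -A ≤ a x) (hB : ∀ y ∈ F, -B ≤ b y)
    (h1 : ∀ x, ∀ y ∈ F, a x + b y ≤ ‖x - y‖ ^ 2)
    (h2 : ∀ᵐ x ∂ρ, ‖x - T x‖ ^ 2 = a x + b (T x)) :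
    IsOptimalMap ρ (ρ.map T) T := by
  refine ⟨hT, rfl, ?_⟩
  intro S hS hmap
  set A' := max A 0 with hA'
  set B' := max B 0 with hB'
  have hA0 : 0 ≤ A' := le_max_right _ _
  have hB0 : 0 ≤ B' := le_max_right _ _
  have hAa : ∀ᵐ x ∂ρ, 0 ≤ a x + A' := by
    filter_upwards [hA] with x hx
    have := le_max_left A 0
    linarith only [hx, this]
  have hBb : ∀ y ∈ F, 0 ≤ b y + B' := by
    intro y hy
    have := hB y hy
    have := le_max_left B 0
    (clear T hT hF hTF a ha hb A hA h1 h2 S hS hmap A' hA' hB' hA0 hB0 hAa; linarith)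
  have hSF : ∀ᵐ x ∂ρ, S x ∈ F := by
    have h3 : ρ.map S Fᶜ = 0 := by
      rw [hmap, Measure.map_apply hT hF.compl]
      have : T ⁻¹' Fᶜ = ∅ := by
        ext x
        simp [hTF x]
      rw [this]
      simp
    rw [Measure.map_apply hS hF.compl] at h3
    rw [ae_iff]
    exact h3
  have key : ∀ U : E d → E d, Measurable U → ρ.map U = ρ.map T → (∀ᵐ x ∂ρ, U x ∈ F) →
      ∫⁻ x, ENNReal.ofReal ((a x + A') + (b (U x) + B')) ∂ρ =
        ∫⁻ x, ENNReal.ofReal (a x + A') ∂ρ + ∫⁻ y, ENNReal.ofReal (b y + B') ∂(ρ.map T) := by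
    intro U hU hUmap hUF
    rw [← hUmap, lintegral_map (by fun_prop) hU, ← lintegral_add_left (by fun_prop)]
    apply lintegral_congr_ae
    filter_upwards [hAa, hUF] with x hx hx2
    rw [ENNReal.ofReal_add hx (hBb _ hx2)]
  have norm_sq : ∀ v : E d, ‖v‖ₑ ^ 2 = ENNReal.ofReal (‖v‖ ^ 2) := by
    intro v
    rw [ENNReal.ofReal_pow (norm_nonneg _), ofReal_norm]
  have hleft : ∫⁻ x, ‖x - T x‖ₑ ^ 2 ∂ρ + ENNReal.ofReal (A' + B') * ρ univ =
      ∫⁻ x, ENNReal.ofReal ((a x + A') + (b (T x) + B')) ∂ρ := by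
    rw [← lintegral_const, ← lintegral_add_right _ measurable_const]
    apply lintegral_congr_ae
    filter_upwards [h2] with x hx
    rw [norm_sq, ← ENNReal.ofReal_add (by (clear * -; positivity)) (by (clear * -; positivity)), hx]
    congr 1
    ring
  have hright : ∫⁻ x, ENNReal.ofReal ((a x + A') + (b (S x) + B')) ∂ρ ≤
      ∫⁻ x, ‖x - S x‖ₑ ^ 2 ∂ρ + ENNReal.ofReal (A' + B') * ρ univ := by
    rw [← lintegral_const, ← lintegral_add_right _ measurable_const]
    apply lintegral_mono_ae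
    filter_upwards [hSF] with x hx
    rw [norm_sq, ← ENNReal.ofReal_add (by (clear * -; positivity)) (by (clear * -; positivity))]
    apply ENNReal.ofReal_le_ofReal
    have := h1 x (S x) hx
    linarith only [this]
  have e1 := key T hT rfl (Filter.Eventually.of_forall hTF)
  have e2 := key S hS hmap hSF
  have hfin : ENNReal.ofReal (A' + B') * ρ univ ≠ ∞ := by
    apply ENNReal.mul_ne_top ENNReal.ofReal_ne_top (measure_ne_top ρ univ)
  have : ∫⁻ x, ‖x - T x‖ₑ ^ 2 ∂ρ + ENNReal.ofReal (A' + B') * ρ univ ≤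
      ∫⁻ x, ‖x - S x‖ₑ ^ 2 ∂ρ + ENNReal.ofReal (A' + B') * ρ univ := by
    rw [hleft, e1, ← e2]
    exact hright
  exact (ENNReal.add_le_add_iff_right hfin).1 this

end Vale.Agent.P074
end
end
end

section

section

section

open MeasureTheory Set ProbabilityTheory Filter Topology
open scoped ENNReal NNReal RealInnerProductSpace

namespace Vale.Agent.P074

/-- The three-cell map. -/
noncomputable def T3 {d : ℕ} (i0 i1 : Fin d) (q : E d) (s δ c₁ c₂ : ℝ) (x : E d) : E d :=
  if x i0 + δ * x i1 ≤ c₁ then q + EuclideanSpace.single i0 (-s)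
  else if c₂ ≤ x i0 - δ * x i1 then q + EuclideanSpace.single i0 s
  else q + EuclideanSpace.single i1 (s * δ)

theorem measurable_T3 {d : ℕ} (i0 i1 : Fin d) (q : E d) (s δ c₁ c₂ : ℝ) :
    Measurable (T3 i0 i1 q s δ c₁ c₂) := by
  unfold T3
  apply Measurable.ite
  · exact measurableSet_le (by (clear * -; fun_prop)) (by fun_prop)
  · exact measurable_const
  apply Measurable.ite
  · exact measurableSet_le (by fun_prop) (by fun_prop)
  · exact measurable_const
  · exact measurable_const

theorem site_ne_left {d : ℕ} {i0 i1 : Fin d} (h01 : i0 ≠ i1) (q : E d) {s : ℝ} (hs : 0 < s)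
    (t : ℝ) : q + EuclideanSpace.single i1 t ≠ q + EuclideanSpace.single i0 (-s) := by
  intro h
  have h2 : (EuclideanSpace.single i1 t : E d) i0 = (EuclideanSpace.single i0 (-s) : E d) i0 := by
    rw [add_left_cancel h]
  simp [h01] at h2
  linarith only [hs, h2]

theorem site_ne_right {d : ℕ} {i0 i1 : Fin d} (h01 : i0 ≠ i1) (q : E d) {s : ℝ} (hs : 0 < s)
    (t : ℝ) : q + EuclideanSpace.single i1 t ≠ q + EuclideanSpace.single i0 s := by
  intro h
  have h2 : (EuclideanSpace.single i1 t : E d) i0 = (EuclideanSpace.single i0 s : E d) i0 := by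
    rw [add_left_cancel h]
  simp [h01] at h2
  linarith only [hs, h2]

theorem site_left_ne_right {d : ℕ} {i0 : Fin d} (q : E d) {s : ℝ} (hs : 0 < s) :
    q + EuclideanSpace.single i0 (-s) ≠ q + EuclideanSpace.single i0 s := by
  intro h
  have h2 : (EuclideanSpace.single i0 (-s) : E d) i0 = (EuclideanSpace.single i0 s : E d) i0 := by
    rw [add_left_cancel h]
  simp at h2
  linarith only [hs, h2]

theorem T3_isOptimal {d : ℕ} (ρ : Measure (E d)) [IsFiniteMeasure ρ] {i0 i1 : Fin d}
    (h01 : i0 ≠ i1) (q : E d) {s δ c₁ c₂ R : ℝ} (hs : 0 < s) (hδ : 0 ≤ δ)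
    (hR : ∀ᵐ x ∂ρ, ‖x‖ ≤ R) (hc : 2 * (δ * R) ≤ c₂ - c₁) :
    IsOptimalMap ρ (ρ.map (T3 i0 i1 q s δ c₁ c₂)) (T3 i0 i1 q s δ c₁ c₂) := by
  classical
  set yL : E d := q + EuclideanSpace.single i0 (-s) with hyL
  set yR : E d := q + EuclideanSpace.single i0 s with hyR
  set yM : E d := q + EuclideanSpace.single i1 (s * δ) with hyM
  have hML : yM ≠ yL := site_ne_left h01 q hs _
  have hMR : yM ≠ yR := site_ne_right h01 q hs _
  have hLR : yL ≠ yR := site_left_ne_right q hs
  let m : E d → ℝ := fun x => max (max (-x i0 + c₁) (x i0 - c₂)) (δ * x i1)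
  let φ : E d → ℝ := fun x => ⟪x, q⟫ + s * m x
  let ψ : E d → ℝ := fun y => if y = yL then - (s * c₁) else if y = yR then s * c₂ else 0
  have hm : Measurable m := by fun_prop
  have hφ : Measurable φ := by fun_prop
  have hψ : Measurable ψ := by
    apply Measurable.ite (measurableSet_singleton yL) measurable_const
    exact Measurable.ite (measurableSet_singleton yR) measurable_const measurable_const
  have hinL : ∀ x : E d, ⟪x, yL⟫ = ⟪x, q⟫ - s * x i0 := by
    intro x
    rw [hyL, inner_add_right, EuclideanSpace.inner_single_right]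
    simp only [Real.ringHom_apply, neg_mul]
    ring
  have hinR : ∀ x : E d, ⟪x, yR⟫ = ⟪x, q⟫ + s * x i0 := by
    intro x
    rw [hyR, inner_add_right, EuclideanSpace.inner_single_right]
    simp
  have hinM : ∀ x : E d, ⟪x, yM⟫ = ⟪x, q⟫ + s * (δ * x i1) := by
    intro x
    rw [hyM, inner_add_right, EuclideanSpace.inner_single_right]
    simp only [Real.ringHom_apply, add_right_inj]
    ring
  have hψL : ψ yL = -(s * c₁) := by simp [ψ]
  have hψR : ψ yR = s * c₂ := by simp [ψ, hLR.symm]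
  have hψM : ψ yM = 0 := by simp [ψ, hML, hMR]
  have hnorm : ∀ x y : E d, ‖x - y‖ ^ 2 = ‖x‖ ^ 2 + ‖y‖ ^ 2 - 2 * ⟪x, y⟫ := by
    intro x y
    rw [norm_sub_sq_real]
    ring
  have hcoord : ∀ x : E d, ∀ i, |x i| ≤ ‖x‖ := by
    intro x i
    exact PiLp.norm_apply_le x i
  apply isOptimalMap_of_dual ρ (T3 i0 i1 q s δ c₁ c₂) (measurable_T3 _ _ _ _ _ _ _)
    ({yL, yR, yM} : Set (E d)) (by measurability) ?_
    (fun x => ‖x‖ ^ 2 - 2 * φ x) (fun y => ‖y‖ ^ 2 - 2 * ψ y) (by fun_prop) (by fun_prop)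
    (2 * (R * ‖q‖ + s * (R + |c₁| + (R + |c₂|) + δ * R))) (2 * (s * |c₁| + s * |c₂|)) ?_ ?_ ?_ ?_
  · intro x
    unfold T3
    split_ifs
    · left; rfl
    · right; left; rfl
    · right; right; rfl
  · filter_upwards [hR] with x hx
    have hR0 : 0 ≤ R := le_trans (norm_nonneg x) hx
    have h1 : ⟪x, q⟫ ≤ R * ‖q‖ :=
      le_trans (real_inner_le_norm x q) (mul_le_mul_of_nonneg_right hx (norm_nonneg _))
    have hx0 := abs_le.1 (le_trans (hcoord x i0) hx)
    have hx1 := abs_le.1 (le_trans (hcoord x i1) hx)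
    have h2 : m x ≤ R + |c₁| + (R + |c₂|) + δ * R := by
      have e1 := le_abs_self c₁
      have e2 := neg_abs_le c₂
      have e3 := abs_nonneg c₁
      have e4 := abs_nonneg c₂
      have e5 : 0 ≤ δ * R := mul_nonneg hδ hR0
      have e6 : δ * x i1 ≤ δ * R := mul_le_mul_of_nonneg_left hx1.2 hδ
      apply max_le (max_le _ _) _ <;> linarith [hx0.1, hx0.2]
    have h3 : s * m x ≤ s * (R + |c₁| + (R + |c₂|) + δ * R) := mul_le_mul_of_nonneg_left h2 hs.le
    have h4 : 0 ≤ ‖x‖ ^ 2 := by (clear * -; positivity)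
    change -(2 * (R * ‖q‖ + s * (R + |c₁| + (R + |c₂|) + δ * R))) ≤
      ‖x‖ ^ 2 - 2 * (⟪x, q⟫ + s * m x)
    linarith only [h1, h3, h4]
  · intro y hy
    have h4 : 0 ≤ ‖y‖ ^ 2 := by (clear * -; positivity)
    have e1 : s * c₁ ≤ s * |c₁| := mul_le_mul_of_nonneg_left (le_abs_self c₁) hs.le
    have e2 : s * c₂ ≤ s * |c₂| := mul_le_mul_of_nonneg_left (le_abs_self c₂) hs.le
    have e1' : -(s * |c₁|) ≤ s * c₁ := by
      have := mul_le_mul_of_nonneg_left (neg_abs_le c₁) hs.le
      linarith only [this]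
    have e3 : 0 ≤ s * |c₁| := by (clear * - hs; positivity)
    have e4 : 0 ≤ s * |c₂| := by (clear * - hs; positivity)
    have h5 : ψ y ≤ s * |c₁| + s * |c₂| := by
      simp only [ψ]
      split_ifs <;> linarith only [e1', e4, e1, e2]
    change -(2 * (s * |c₁| + s * |c₂|)) ≤ ‖y‖ ^ 2 - 2 * ψ y
    linarith only [h4, h5]
  · intro x y hy
    change ‖x‖ ^ 2 - 2 * (⟪x, q⟫ + s * m x) + (‖y‖ ^ 2 - 2 * ψ y) ≤ ‖x - y‖ ^ 2
    rw [hnorm x y]
    rcases hy with rfl | rfl | rfl
    · rw [hinL x, hψL]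
      have : -x i0 + c₁ ≤ m x := le_trans (le_max_left _ _) (le_max_left _ _)
      have := mul_le_mul_of_nonneg_left this hs.le
      linarith only [this]
    · rw [hinR x, hψR]
      have : x i0 - c₂ ≤ m x := le_trans (le_max_right _ _) (le_max_left _ _)
      have := mul_le_mul_of_nonneg_left this hs.le
      linarith only [this]
    · rw [hinM x, hψM]
      have : δ * x i1 ≤ m x := le_max_right _ _
      have := mul_le_mul_of_nonneg_left this hs.le
      linarith only [this]
  · filter_upwards [hR] with x hx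
    have hR0 : 0 ≤ R := le_trans (norm_nonneg x) hx
    have hx1 := abs_le.1 (le_trans (hcoord x i1) hx)
    have e5 : δ * x i1 ≤ δ * R := mul_le_mul_of_nonneg_left hx1.2 hδ
    have e6 : -(δ * R) ≤ δ * x i1 := by
      have := mul_le_mul_of_nonneg_left hx1.1 hδ
      linarith only [this]
    change ‖x - T3 i0 i1 q s δ c₁ c₂ x‖ ^ 2 =
      ‖x‖ ^ 2 - 2 * (⟪x, q⟫ + s * m x) + (‖T3 i0 i1 q s δ c₁ c₂ x‖ ^ 2 -
        2 * ψ (T3 i0 i1 q s δ c₁ c₂ x))
    rw [hnorm]
    by_cases h1 : x i0 + δ * x i1 ≤ c₁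
    · have hT : T3 i0 i1 q s δ c₁ c₂ x = yL := by simp [T3, h1, hyL]
      have hmx : m x = -x i0 + c₁ := by
        simp only [m]
        rw [max_eq_left, max_eq_left]
        · linarith only [hc, e6, h1]
        · rw [max_eq_left] <;> linarith only [h1, hc, e6]
      rw [hT, hinL, hψL, hmx]
      ring
    · by_cases h2 : c₂ ≤ x i0 - δ * x i1
      · have hT : T3 i0 i1 q s δ c₁ c₂ x = yR := by simp [T3, h1, h2, hyR]
        have hmx : m x = x i0 - c₂ := by
          simp only [m]
          rw [max_eq_left, max_eq_right]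
          · linarith only [h1, h2]
          · rw [max_eq_right] <;> linarith only [h1, h2]
        rw [hT, hinR, hψR, hmx]
        ring
      · have hT : T3 i0 i1 q s δ c₁ c₂ x = yM := by simp only [T3, h1, ↓reduceIte, h2, hyM]
        have hmx : m x = δ * x i1 := by
          simp only [m]
          push Not at h1 h2
          rw [max_eq_right]
          exact max_le (by linarith only [h1]) (by linarith only [h2])
        rw [hT, hinM, hψM, hmx]
        ring

end Vale.Agent.P074
end
end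
end

section

section

section

open MeasureTheory Set ProbabilityTheory Filter Topology
open scoped ENNReal NNReal RealInnerProductSpace

namespace Vale.Agent.P074

theorem volume_box {d : ℕ} (a b : Fin d → ℝ) :
    volume {x : E d | ∀ i, x i ∈ Icc (a i) (b i)} = ∏ i, ENNReal.ofReal (b i - a i) := by
  have h := PiLp.volume_preserving_ofLp (Fin d)
  have hset : {x : E d | ∀ i, x i ∈ Icc (a i) (b i)} =
      (@WithLp.ofLp 2 (Fin d → ℝ)) ⁻¹' (Set.pi univ fun i => Icc (a i) (b i)) := by
    ext x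
    constructor
    · intro hx i _
      exact hx i
    · intro hx i
      exact hx i (mem_univ i)
  rw [hset, h.measure_preimage (MeasurableSet.univ_pi fun i => measurableSet_Icc).nullMeasurableSet,
    volume_pi_pi]
  simp only [Real.volume_Icc]

/-- Volume of a box whose side lengths are equal to `L` except in coordinate `i0`. -/
theorem volume_box_one {d : ℕ} (i0 : Fin d) (a b : Fin d → ℝ) (L l : ℝ)
    (h : ∀ i, i ≠ i0 → b i - a i = L) (h0 : b i0 - a i0 = l) :
    volume {x : E d | ∀ i, x i ∈ Icc (a i) (b i)} =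
      ENNReal.ofReal l * ENNReal.ofReal L ^ (d - 1) := by
  rw [volume_box, ← Finset.mul_prod_erase Finset.univ _ (Finset.mem_univ i0), h0]
  congr 1
  rw [Finset.prod_congr rfl (g := fun _ => ENNReal.ofReal L), Finset.prod_const,
    Finset.card_erase_of_mem (Finset.mem_univ _), Finset.card_univ, Fintype.card_fin]
  intro i hi
  rw [h i (Finset.ne_of_mem_erase hi)]

theorem volume_hyperplane_coord {d : ℕ} (i0 i1 : Fin d) (h01 : i0 ≠ i1) (σ : ℝ) (hσ : σ ≠ 0) (δ c : ℝ) :
    volume {x : E d | σ * x i0 + δ * x i1 = c} = 0 := by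
  let f : E d →ₗ[ℝ] ℝ := σ • (EuclideanSpace.proj (𝕜 := ℝ) i0).toLinearMap +
    δ • (EuclideanSpace.proj (𝕜 := ℝ) i1).toLinearMap
  have hf : ∀ x, f x = σ * x i0 + δ * x i1 := by
    intro x
    simp only [LinearMap.add_apply, LinearMap.smul_apply, ContinuousLinearMap.coe_coe, PiLp.proj_apply, smul_eq_mul, f]
  let s : AffineSubspace ℝ (E d) := (AffineSubspace.mk' c (⊥ : Submodule ℝ ℝ)).comap f.toAffineMap
  have hs : (s : Set (E d)) = {x : E d | σ * x i0 + δ * x i1 = c} := by
    ext x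
    simp only [s, AffineSubspace.coe_comap, mem_preimage, LinearMap.coe_toAffineMap,
      SetLike.mem_coe, AffineSubspace.mem_mk', mem_ofPred_eq, Submodule.mem_bot, vsub_eq_sub,
      sub_eq_zero, hf]
  rw [← hs]
  apply Measure.addHaar_affineSubspace
  intro htop
  have h1 : (EuclideanSpace.single i0 ((c + 1) / σ) : E d) ∈ s := by
    rw [htop]; trivial
  rw [← SetLike.mem_coe, hs] at h1
  simp only [mem_ofPred_eq, PiLp.single_apply] at h1
  rw [if_neg (Ne.symm h01)] at h1
  simp only [↓reduceIte, mul_zero, add_zero] at h1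
  rw [mul_div_cancel₀ _ hσ] at h1
  linarith only [h1]

end Vale.Agent.P074
end
end
end

section

section

section

open MeasureTheory Set ProbabilityTheory Filter Topology
open scoped ENNReal NNReal RealInnerProductSpace

namespace Vale.Agent.P074

theorem continuous_real_Iic (ν : Measure ℝ) [IsFiniteMeasure ν] [NullSingletonClass ν] :
    Continuous (fun c => ν.real (Iic c)) := by
  have h1 : ∀ c, ν.real (Iic c) = ν.real (Iic 0) + ∫ _x in (0:ℝ)..c, (1:ℝ) ∂ν := by
    intro c
    have h2 := intervalIntegral.integral_Iic_sub_Iic (μ := ν) (f := fun _ => (1:ℝ))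
      (a := 0) (b := c) (integrable_const 1).integrableOn (integrable_const 1).integrableOn
    rw [← h2]
    simp only [integral_const, MeasurableSet.univ, measureReal_restrict_apply, univ_inter, smul_eq_mul, mul_one, add_sub_cancel]
  rw [show (fun c => ν.real (Iic c)) =
    fun c => ν.real (Iic 0) + ∫ _x in (0:ℝ)..c, (1:ℝ) ∂ν from funext h1]
  exact continuous_const.add
    (intervalIntegral.continuous_primitive (fun a b => (integrable_const 1).intervalIntegrable) 0)

/-- A tilted half-space with prescribed mass. -/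
theorem exists_tilt {d : ℕ} (ρ : Measure (E d)) [IsFiniteMeasure ρ] (hρ : ρ ≪ volume)
    (i0 i1 : Fin d) (h01 : i0 ≠ i1) (σ : ℝ) (hσ : σ ≠ 0) (δ R : ℝ) (hδ : 0 ≤ δ)
    (hR0 : 0 ≤ R) (hR : ∀ᵐ x ∂ρ, |x i1| ≤ R) (t : ℝ) :
    ∃ c ∈ Icc (t - δ * R) (t + δ * R),
      ρ {x : E d | σ * x i0 + δ * x i1 ≤ c} = ρ {x : E d | σ * x i0 ≤ t} := by
  have hmeas : Measurable (fun x : E d => σ * x i0 + δ * x i1) := by fun_prop
  set ν : Measure ℝ := ρ.map (fun x : E d => σ * x i0 + δ * x i1) with hν
  have : IsFiniteMeasure ν := by rw [hν]; infer_instance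
  have : NullSingletonClass ν := by
    refine ⟨fun c => ?_⟩
    rw [hν, Measure.map_apply hmeas (measurableSet_singleton c)]
    exact hρ (volume_hyperplane_coord i0 i1 h01 σ hσ δ c)
  have hF := continuous_real_Iic ν
  have hval : ∀ c, ν (Iic c) = ρ {x : E d | σ * x i0 + δ * x i1 ≤ c} := by
    intro c
    rw [hν, Measure.map_apply hmeas measurableSet_Iic]
    rfl
  have hle : t - δ * R ≤ t + δ * R := by nlinarith only [hδ, hR0]
  have hlow : ν.real (Iic (t - δ * R)) ≤ ρ.real {x : E d | σ * x i0 ≤ t} := by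
    rw [Measure.real, Measure.real, hval]
    apply ENNReal.toReal_mono (measure_ne_top _ _)
    apply measure_mono_ae
    filter_upwards [hR] with x hx hx2
    have hx3 : σ * x i0 + δ * x i1 ≤ t - δ * R := hx2
    change σ * x i0 ≤ t
    have := (abs_le.1 hx).1
    nlinarith only [hx3, hδ, this]
  have hhigh : ρ.real {x : E d | σ * x i0 ≤ t} ≤ ν.real (Iic (t + δ * R)) := by
    rw [Measure.real, Measure.real, hval]
    apply ENNReal.toReal_mono (measure_ne_top _ _)
    apply measure_mono_ae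
    filter_upwards [hR] with x hx hx2
    have hx3 : σ * x i0 ≤ t := hx2
    change σ * x i0 + δ * x i1 ≤ t + δ * R
    have := (abs_le.1 hx).2
    nlinarith only [hx3, hδ, this]
  obtain ⟨c, hc, hc2⟩ := intermediate_value_Icc hle hF.continuousOn ⟨hlow, hhigh⟩
  refine ⟨c, hc, ?_⟩
  rw [← hval]
  have hc3 : ν.real (Iic c) = ρ.real {x : E d | σ * x i0 ≤ t} := hc2
  rw [Measure.real, Measure.real, ENNReal.toReal_eq_toReal_iff' (measure_ne_top _ _)
    (measure_ne_top _ _)] at hc3
  exact hc3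

/-- Two maps with finitely many values and the same cell masses have the same law. -/
theorem map_eq_of_cells {d : ℕ} (ρ : Measure (E d)) (F : Finset (E d)) (U V : E d → E d)
    (hU : Measurable U) (hV : Measurable V) (hUF : ∀ x, U x ∈ F) (hVF : ∀ x, V x ∈ F)
    (h : ∀ y ∈ F, ρ (U ⁻¹' {y}) = ρ (V ⁻¹' {y})) : ρ.map U = ρ.map V := by
  classical
  have key : ∀ W : E d → E d, Measurable W → (∀ x, W x ∈ F) → ∀ A : Set (E d),
      MeasurableSet A → ρ.map W A = ∑ y ∈ F.filter (· ∈ A), ρ (W ⁻¹' {y}) := by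
    intro W hW hWF A hA
    rw [Measure.map_apply hW hA]
    have : W ⁻¹' A = ⋃ y ∈ F.filter (· ∈ A), W ⁻¹' {y} := by
      ext x
      simp only [mem_preimage, mem_iUnion, Finset.mem_filter, mem_singleton_iff, exists_prop]
      constructor
      · intro hx
        exact ⟨W x, ⟨hWF x, hx⟩, rfl⟩
      · rintro ⟨y, ⟨_, hy⟩, rfl⟩
        exact hy
    rw [this, measure_biUnion_finset]
    · intro y _ z _ hyz
      apply Disjoint.preimage
      simpa using hyz
    · intro y _
      exact hW (measurableSet_singleton y)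
  ext A hA
  rw [key U hU hUF A hA, key V hV hVF A hA]
  apply Finset.sum_congr rfl
  intro y hy
  exact h y (Finset.mem_filter.1 hy).1

end Vale.Agent.P074
end
end
end

section

section

section

open MeasureTheory Set ProbabilityTheory Filter Topology
open scoped ENNReal NNReal RealInnerProductSpace

namespace Vale.Agent.P074

theorem third_cell {d : ℕ} (ρ : Measure (E d)) [IsFiniteMeasure ρ] (U : E d → E d)
    (hU : Measurable U) {a b c : E d} (hab : a ≠ b) (hac : c ≠ a) (hbc : c ≠ b)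
    (h : ∀ x, U x = a ∨ U x = b ∨ U x = c) :
    ρ (U ⁻¹' {c}) = ρ univ - (ρ (U ⁻¹' {a}) + ρ (U ⁻¹' {b})) := by
  have hma := hU (measurableSet_singleton a)
  have hmb := hU (measurableSet_singleton b)
  have h1 : U ⁻¹' {c} = univ \ (U ⁻¹' {a} ∪ U ⁻¹' {b}) := by
    ext x
    simp only [mem_preimage, mem_singleton_iff, mem_diff, mem_univ, true_and, mem_union]
    constructor
    · intro hx
      rw [hx]
      (clear * - hac hbc; tauto)
    · intro hx
      rcases h x with h | h | h <;> tauto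
  rw [h1, measure_diff (subset_univ _) (hma.union hmb).nullMeasurableSet (measure_ne_top _ _),
    measure_union _ hmb]
  apply Disjoint.preimage
  simpa using hab

theorem T3_values {d : ℕ} (i0 i1 : Fin d) (q : E d) (s δ c₁ c₂ : ℝ) (x : E d) :
    T3 i0 i1 q s δ c₁ c₂ x = q + EuclideanSpace.single i0 (-s) ∨
      T3 i0 i1 q s δ c₁ c₂ x = q + EuclideanSpace.single i0 s ∨
      T3 i0 i1 q s δ c₁ c₂ x = q + EuclideanSpace.single i1 (s * δ) := by
  unfold T3
  split_ifs <;> simp

theorem T3_eq_left_iff {d : ℕ} {i0 i1 : Fin d} (h01 : i0 ≠ i1) (q : E d) {s : ℝ} (hs : 0 < s)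
    (δ c₁ c₂ : ℝ) (x : E d) :
    T3 i0 i1 q s δ c₁ c₂ x = q + EuclideanSpace.single i0 (-s) ↔ x i0 + δ * x i1 ≤ c₁ := by
  unfold T3
  split_ifs with h1 h2
  · simp [h1]
  · simp only [h1, iff_false]
    exact (site_left_ne_right q hs).symm
  · simp only [h1, iff_false]
    exact site_ne_left h01 q hs _

theorem T3_eq_right_iff {d : ℕ} {i0 i1 : Fin d} (h01 : i0 ≠ i1) (q : E d) {s : ℝ} (hs : 0 < s)
    (δ c₁ c₂ : ℝ) (x : E d) :
    T3 i0 i1 q s δ c₁ c₂ x = q + EuclideanSpace.single i0 s ↔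
      ¬ (x i0 + δ * x i1 ≤ c₁) ∧ c₂ ≤ x i0 - δ * x i1 := by
  unfold T3
  split_ifs with h1 h2
  · simp only [h1, not_true_eq_false, false_and, iff_false]
    exact site_left_ne_right q hs
  · simp [h1, h2]
  · simp only [h1, not_false_eq_true, true_and, h2, iff_false]
    exact site_ne_right h01 q hs _

/-- The map moving the middle site. -/
noncomputable def shiftMid {d : ℕ} (i1 : Fin d) (q : E d) (s δ : ℝ) (y : E d) : E d :=
  open Classical in
  if y = q + EuclideanSpace.single i1 0 then q + EuclideanSpace.single i1 (s * δ) else y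

theorem measurable_shiftMid {d : ℕ} (i1 : Fin d) (q : E d) (s δ : ℝ) :
    Measurable (shiftMid i1 q s δ) := by
  unfold shiftMid
  exact Measurable.ite (measurableSet_singleton _) measurable_const measurable_id

/-- The law of `T3` with tilt `δ` is the law of the untilted map with the middle site moved. -/
theorem map_shift_eq {d : ℕ} (ρ : Measure (E d)) [IsFiniteMeasure ρ] {i0 i1 : Fin d}
    (h01 : i0 ≠ i1) (q : E d) {s δ R t₁ t₂ c₁ c₂ : ℝ} (hs : 0 < s) (hδ : 0 < δ)
    (hR : ∀ᵐ x ∂ρ, ‖x‖ ≤ R) (ht : t₁ < t₂) (hc : 2 * (δ * R) < c₂ - c₁)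
    (hm₁ : ρ {x : E d | x i0 + δ * x i1 ≤ c₁} = ρ {x : E d | x i0 ≤ t₁})
    (hm₂ : ρ {x : E d | c₂ ≤ x i0 - δ * x i1} = ρ {x : E d | t₂ ≤ x i0}) :
    ρ.map (fun x => shiftMid i1 q s δ (T3 i0 i1 q s 0 t₁ t₂ x)) =
      ρ.map (T3 i0 i1 q s δ c₁ c₂) := by
  classical
  set yL : E d := q + EuclideanSpace.single i0 (-s) with hyL
  set yR : E d := q + EuclideanSpace.single i0 s with hyR
  set yM : E d := q + EuclideanSpace.single i1 (s * δ) with hyM
  set yO : E d := q + EuclideanSpace.single i1 0 with hyO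
  have hML : yM ≠ yL := site_ne_left h01 q hs _
  have hMR : yM ≠ yR := site_ne_right h01 q hs _
  have hLR : yL ≠ yR := site_left_ne_right q hs
  have hOL : yO ≠ yL := site_ne_left h01 q hs _
  have hOR : yO ≠ yR := site_ne_right h01 q hs _
  have hsL : shiftMid i1 q s δ yL = yL := by simp [shiftMid, ← hyO, hOL.symm]
  have hsR : shiftMid i1 q s δ yR = yR := by simp [shiftMid, ← hyO, hOR.symm]
  have hsO : shiftMid i1 q s δ yO = yM := by simp [shiftMid, ← hyO, hyM]
  have hMO : s * 0 = (0 : ℝ) := by ring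
  have hU : Measurable (fun x => shiftMid i1 q s δ (T3 i0 i1 q s 0 t₁ t₂ x)) :=
    (measurable_shiftMid i1 q s δ).comp (measurable_T3 _ _ _ _ _ _ _)
  have hV : Measurable (T3 i0 i1 q s δ c₁ c₂) := measurable_T3 _ _ _ _ _ _ _
  have hTO : ∀ x, T3 i0 i1 q s 0 t₁ t₂ x = yL ∨ T3 i0 i1 q s 0 t₁ t₂ x = yR ∨
      T3 i0 i1 q s 0 t₁ t₂ x = yO := by
    intro x
    have := T3_values i0 i1 q s 0 t₁ t₂ x
    rw [hMO] at this
    exact this
  have hUv : ∀ x, shiftMid i1 q s δ (T3 i0 i1 q s 0 t₁ t₂ x) = yL ∨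
      shiftMid i1 q s δ (T3 i0 i1 q s 0 t₁ t₂ x) = yR ∨
      shiftMid i1 q s δ (T3 i0 i1 q s 0 t₁ t₂ x) = yM := by
    intro x
    rcases hTO x with h | h | h <;> rw [h]
    · left; exact hsL
    · right; left; exact hsR
    · right; right; exact hsO
  have hVv := T3_values i0 i1 q s δ c₁ c₂
  have hcellL : ρ ((fun x => shiftMid i1 q s δ (T3 i0 i1 q s 0 t₁ t₂ x)) ⁻¹' {yL}) =
      ρ (T3 i0 i1 q s δ c₁ c₂ ⁻¹' {yL}) := by
    have e1 : (fun x => shiftMid i1 q s δ (T3 i0 i1 q s 0 t₁ t₂ x)) ⁻¹' {yL} =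
        {x : E d | x i0 ≤ t₁} := by
      ext x
      change shiftMid i1 q s δ (T3 i0 i1 q s 0 t₁ t₂ x) = yL ↔ x i0 ≤ t₁
      have h5 := T3_eq_left_iff h01 q hs 0 t₁ t₂ x
      rw [← hyL] at h5
      have h6 : x i0 + 0 * x i1 = x i0 := by ring
      rw [h6] at h5
      rw [← h5]
      rcases hTO x with h | h | h <;> rw [h]
      · simp [hsL]
      · simp [hsR, hLR.symm]
      · simp [hsO, hML, hOL]
    have e2 : T3 i0 i1 q s δ c₁ c₂ ⁻¹' {yL} = {x : E d | x i0 + δ * x i1 ≤ c₁} := by
      ext x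
      exact T3_eq_left_iff h01 q hs δ c₁ c₂ x
    rw [e1, e2, hm₁]
  have hcellR : ρ ((fun x => shiftMid i1 q s δ (T3 i0 i1 q s 0 t₁ t₂ x)) ⁻¹' {yR}) =
      ρ (T3 i0 i1 q s δ c₁ c₂ ⁻¹' {yR}) := by
    have e1 : (fun x => shiftMid i1 q s δ (T3 i0 i1 q s 0 t₁ t₂ x)) ⁻¹' {yR} =
        {x : E d | t₂ ≤ x i0} := by
      ext x
      change shiftMid i1 q s δ (T3 i0 i1 q s 0 t₁ t₂ x) = yR ↔ t₂ ≤ x i0
      have h5 := T3_eq_right_iff h01 q hs 0 t₁ t₂ x
      rw [← hyR] at h5
      have h6 : x i0 + 0 * x i1 = x i0 := by ring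
      have h7 : x i0 - 0 * x i1 = x i0 := by ring
      rw [h6, h7] at h5
      have h8 : (¬ x i0 ≤ t₁ ∧ t₂ ≤ x i0) ↔ t₂ ≤ x i0 := by
        constructor
        · exact fun h => h.2
        · intro h
          exact ⟨by push Not; linarith only [ht, h], h⟩
      rw [h8] at h5
      rw [← h5]
      rcases hTO x with h | h | h <;> rw [h]
      · simp [hsL]
      · simp [hsR]
      · simp [hsO, hMR, hOR]
    have e2 : ρ (T3 i0 i1 q s δ c₁ c₂ ⁻¹' {yR}) = ρ {x : E d | c₂ ≤ x i0 - δ * x i1} := by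
      apply measure_congr
      filter_upwards [hR] with x hx
      apply propext
      change T3 i0 i1 q s δ c₁ c₂ x = yR ↔ c₂ ≤ x i0 - δ * x i1
      rw [hyR, T3_eq_right_iff h01 q hs δ c₁ c₂ x]
      constructor
      · exact fun h => h.2
      · intro h
        refine ⟨?_, h⟩
        push Not
        have h9 := (abs_le.1 (le_trans (PiLp.norm_apply_le x i1) hx)).1
        have h10 : -(δ * R) ≤ δ * x i1 := by
          have := mul_le_mul_of_nonneg_left h9 hδ.le
          linarith only [this]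
        linarith only [hc, h, h10]
    rw [e1, e2, hm₂]
  apply map_eq_of_cells ρ {yL, yR, yM} _ _ hU hV
  · intro x
    simp only [Finset.mem_insert, Finset.mem_singleton]
    exact hUv x
  · intro x
    simp only [Finset.mem_insert, Finset.mem_singleton]
    exact hVv x
  · intro y hy
    simp only [Finset.mem_insert, Finset.mem_singleton] at hy
    rcases hy with rfl | rfl | rfl
    · exact hcellL
    · exact hcellR
    · rw [third_cell ρ _ hU hLR hML hMR hUv, third_cell ρ _ hV hLR hML hMR hVv, hcellL, hcellR]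

theorem wass_le {d : ℕ} (ρ : Measure (E d)) [IsFiniteMeasure ρ] {i0 i1 : Fin d}
    (h01 : i0 ≠ i1) (q : E d) {s δ R t₁ t₂ c₁ c₂ : ℝ} (hs : 0 < s) (hδ : 0 < δ)
    (hR : ∀ᵐ x ∂ρ, ‖x‖ ≤ R) (ht : t₁ < t₂) (hc : 2 * (δ * R) < c₂ - c₁)
    (hm₁ : ρ {x : E d | x i0 + δ * x i1 ≤ c₁} = ρ {x : E d | x i0 ≤ t₁})
    (hm₂ : ρ {x : E d | c₂ ≤ x i0 - δ * x i1} = ρ {x : E d | t₂ ≤ x i0})
    {p : ℝ} (hp : 0 < p) :
    Wass p (ρ.map (T3 i0 i1 q s 0 t₁ t₂)) (ρ.map (T3 i0 i1 q s δ c₁ c₂)) ≤
      (ENNReal.ofReal (s * δ) ^ p * ρ {x : E d | x i0 ∈ Icc t₁ t₂}) ^ (1 / p) := by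
  have hT := measurable_T3 i0 i1 q s 0 t₁ t₂
  have hG := measurable_shiftMid i1 q s δ
  unfold Wass
  apply ENNReal.rpow_le_rpow _ (by (clear * - hp; positivity))
  refine iInf_le_of_le ((ρ.map (T3 i0 i1 q s 0 t₁ t₂)).map (fun y => (y, shiftMid i1 q s δ y)))
    (iInf_le_of_le ?_ (iInf_le_of_le ?_ ?_))
  · rw [Measure.map_map measurable_fst (by fun_prop)]
    exact Measure.map_id
  · rw [Measure.map_map measurable_snd (by fun_prop), Measure.map_map (by fun_prop) hT]
    exact map_shift_eq ρ h01 q hs hδ hR ht hc hm₁ hm₂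
  · rw [lintegral_map (by fun_prop) (by fun_prop), lintegral_map (by (clear * - hG; fun_prop)) hT]
    have hmS : MeasurableSet {x : E d | x i0 ∈ Icc t₁ t₂} := by
      apply measurableSet_Icc.preimage
      fun_prop
    rw [← lintegral_indicator_const hmS]
    apply lintegral_mono
    intro x
    change ‖T3 i0 i1 q s 0 t₁ t₂ x - shiftMid i1 q s δ (T3 i0 i1 q s 0 t₁ t₂ x)‖ₑ ^ p ≤
      indicator {x : E d | x i0 ∈ Icc t₁ t₂} (fun _ => ENNReal.ofReal (s * δ) ^ p) x
    by_cases hx : T3 i0 i1 q s 0 t₁ t₂ x = q + EuclideanSpace.single i1 0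
    · have hmem : x ∈ {x : E d | x i0 ∈ Icc t₁ t₂} := by
        have h1 : ¬ (x i0 + 0 * x i1 ≤ t₁) := by
          intro h
          have := (T3_eq_left_iff h01 q hs 0 t₁ t₂ x).2 h
          rw [hx] at this
          exact site_ne_left h01 q hs _ this
        have h2 : ¬ (t₂ ≤ x i0 - 0 * x i1) := by
          intro h
          have := (T3_eq_right_iff h01 q hs 0 t₁ t₂ x).2 ⟨h1, h⟩
          rw [hx] at this
          exact site_ne_right h01 q hs _ this
        push Not at h1 h2
        exact ⟨by linarith only [h1], by linarith only [h2]⟩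
      rw [indicator_of_mem hmem, hx]
      have : shiftMid i1 q s δ (q + EuclideanSpace.single i1 0) =
          q + EuclideanSpace.single i1 (s * δ) := by
        simp [shiftMid]
      rw [this]
      apply ENNReal.rpow_le_rpow _ hp.le
      have h3 : q + EuclideanSpace.single i1 0 - (q + EuclideanSpace.single i1 (s * δ)) =
          - (EuclideanSpace.single i1 (s * δ) : E d) := by
        simp only [add_sub_add_left_eq_sub, sub_eq_neg_self, PiLp.single_eq_zero_iff]
      rw [h3, enorm_neg, ← ofReal_norm, PiLp.norm_single, Real.norm_of_nonneg (by positivity)]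
    · have : shiftMid i1 q s δ (T3 i0 i1 q s 0 t₁ t₂ x) = T3 i0 i1 q s 0 t₁ t₂ x := by
        simp only [shiftMid]
        rw [if_neg hx]
      rw [this]
      simp only [sub_self, enorm_zero, hp, ENNReal.zero_rpow_of_pos, mem_Icc, zero_le]

end Vale.Agent.P074
end
end
end

section

section

section

open MeasureTheory Set ProbabilityTheory Filter Topology
open scoped ENNReal NNReal RealInnerProductSpace

namespace Vale.Agent.P074

theorem exponent_bound {c D e₁ e₂ δ₀ : ℝ} (hc : 0 < c) (hD : 0 ≤ D) (hδ₀ : 0 < δ₀)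
    (h : ∀ δ : ℝ, 0 < δ → δ ≤ δ₀ → c * δ ^ e₁ ≤ D * δ ^ e₂) : e₂ ≤ e₁ := by
  by_contra hlt
  push Not at hlt
  have hκ : 0 < e₂ - e₁ := by linarith only [hlt]
  have hlim : Tendsto (fun δ : ℝ => D * δ ^ (e₂ - e₁)) (𝓝[>] 0) (𝓝 (D * 0)) := by
    apply Tendsto.const_mul
    have h1 : Tendsto (fun δ : ℝ => δ ^ (e₂ - e₁)) (𝓝 0) (𝓝 ((0 : ℝ) ^ (e₂ - e₁))) :=
      (Real.continuousAt_rpow_const 0 (e₂ - e₁) (Or.inr hκ.le)).tendsto
    rw [Real.zero_rpow hκ.ne'] at h1
    exact h1.mono_left nhdsWithin_le_nhds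
  rw [mul_zero] at hlim
  have h2 : ∀ᶠ δ : ℝ in 𝓝[>] 0, D * δ ^ (e₂ - e₁) < c := hlim.eventually (gt_mem_nhds hc)
  have h3 : ∀ᶠ δ : ℝ in 𝓝[>] 0, δ ≤ δ₀ := by
    have : ∀ᶠ δ : ℝ in 𝓝 0, δ < δ₀ := gt_mem_nhds hδ₀
    filter_upwards [this.filter_mono nhdsWithin_le_nhds] with δ hδ using hδ.le
  obtain ⟨δ, h4, h5, h6⟩ := (h2.and (h3.and self_mem_nhdsWithin)).exists
  have hδ : 0 < δ := h6
  have h7 := h δ hδ h5
  have h8 : δ ^ e₂ = δ ^ (e₂ - e₁) * δ ^ e₁ := by
    rw [← Real.rpow_add hδ]
    congr 1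
    ring
  rw [h8, ← mul_assoc] at h7
  have h9 : 0 < δ ^ e₁ := Real.rpow_pos_of_pos hδ _
  have h10 := le_of_mul_le_mul_right h7 h9
  linarith only [h4, h10]

theorem exists_cube {d : ℕ} {K : Set (E d)} (hK : (interior K).Nonempty) :
    ∃ (p : E d) (r : ℝ), 0 < r ∧ ∀ x : E d, (∀ i, |x i - p i| ≤ r) → x ∈ K := by
  obtain ⟨p, hp⟩ := hK
  have hcont : Continuous (WithLp.toLp 2 : (Fin d → ℝ) → E d) := PiLp.continuous_toLp 2 _
  have hopen : IsOpen ((WithLp.toLp 2 : (Fin d → ℝ) → E d) ⁻¹' interior K) :=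
    isOpen_interior.preimage hcont
  obtain ⟨r, hr, hball⟩ := Metric.isOpen_iff.1 hopen (WithLp.ofLp p) hp
  refine ⟨p, r / 2, by positivity, ?_⟩
  intro x hx
  have h1 : WithLp.ofLp x ∈ Metric.ball (WithLp.ofLp p) r := by
    rw [Metric.mem_ball]
    apply lt_of_le_of_lt _ (half_lt_self hr)
    rw [dist_pi_le_iff (by positivity)]
    intro i
    rw [Real.dist_eq]
    exact hx i
  exact interior_subset (hball h1)

theorem unif_apply_subset {d : ℕ} {K : Set (E d)} {A : Set (E d)}
    (hAK : A ⊆ K) (hA : MeasurableSet A) : unif K A = (volume K)⁻¹ * volume A := by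
  unfold unif ProbabilityTheory.cond
  rw [Measure.smul_apply, Measure.restrict_apply hA, inter_eq_self_of_subset_left hAK, smul_eq_mul]

theorem unif_le {d : ℕ} {K : Set (E d)} {A B : Set (E d)} (hA : MeasurableSet A)
    (h : A ∩ K ⊆ B) : unif K A ≤ (volume K)⁻¹ * volume B := by
  unfold unif ProbabilityTheory.cond
  rw [Measure.smul_apply, Measure.restrict_apply hA, smul_eq_mul]
  gcongr

theorem isProbabilityMeasure_unif {d : ℕ} {K : Set (E d)} (hK : IsCompact K)
    (hi : (interior K).Nonempty) : IsProbabilityMeasure (unif K) := by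
  refine ⟨?_⟩
  unfold unif ProbabilityTheory.cond
  rw [Measure.smul_apply, Measure.restrict_apply_univ, smul_eq_mul]
  apply ENNReal.inv_mul_cancel
  · exact (Measure.measure_pos_of_nonempty_interior _ hi).ne'
  · exact hK.measure_ne_top

theorem left_dist_right {d : ℕ} (i0 : Fin d) (q : E d) {s : ℝ} (hs : 0 < s) :
    s ≤ ‖q + EuclideanSpace.single i0 (-s) - (q + EuclideanSpace.single i0 s)‖ := by
  have h1 := PiLp.norm_apply_le
    (q + EuclideanSpace.single i0 (-s) - (q + EuclideanSpace.single i0 s) : E d) i0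
  refine le_trans ?_ h1
  simp only [add_sub_add_left_eq_sub, PiLp.sub_apply, PiLp.single_eq_same, Real.norm_eq_abs]
  rw [abs_of_neg (by linarith only [hs])]
  linarith

theorem left_dist_mid {d : ℕ} {i0 i1 : Fin d} (h01 : i0 ≠ i1) (q : E d) {s : ℝ} (hs : 0 < s)
    (t : ℝ) : s ≤ ‖q + EuclideanSpace.single i0 (-s) - (q + EuclideanSpace.single i1 t)‖ := by
  have h1 := PiLp.norm_apply_le
    (q + EuclideanSpace.single i0 (-s) - (q + EuclideanSpace.single i1 t) : E d) i0
  refine le_trans ?_ h1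
  simp only [add_sub_add_left_eq_sub, PiLp.sub_apply, PiLp.single_eq_same, ne_eq, h01, not_false_eq_true, PiLp.single_eq_of_ne, sub_zero, norm_neg, Real.norm_eq_abs]
  exact le_abs_self s

/-- The middle site moves along a curve of length `s δ`, the cells tilt by an angle `δ`. -/
theorem stability_exponent_le {d : ℕ} (hd : 2 ≤ d) {K Y : Set (E d)} (hK : IsCompact K)
    (hKi : (interior K).Nonempty) (hY : IsCompact Y) (hYi : (interior Y).Nonempty)
    {p α : ℝ} (hp : 0 < p)
    (hα : 0 ≤ α) {C : ℝ≥0} (hst : StabilityEstimate (unif K) Y p α C) : α ≤ p / (2 * (p + 1)) := by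
  classical
  let i0 : Fin d := ⟨0, by omega⟩
  let i1 : Fin d := ⟨1, by omega⟩
  have h01 : i0 ≠ i1 := by simp [i0, i1]
  have hprob : IsProbabilityMeasure (unif K) := isProbabilityMeasure_unif hK hKi
  obtain ⟨b, r, hr, hcube⟩ := exists_cube hKi
  obtain ⟨R, hRpos, hKR⟩ := hK.isBounded.exists_pos_norm_le
  obtain ⟨q, hq⟩ := hYi
  obtain ⟨s', hs', hball⟩ := Metric.isOpen_iff.1 isOpen_interior q hq
  set s : ℝ := s' / 2 with hs_def
  have hs : 0 < s := by (clear * - hs'; positivity)
  have hsites : ∀ (i : Fin d) (t : ℝ), |t| ≤ s → q + EuclideanSpace.single i t ∈ Y := by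
    intro i t ht
    apply interior_subset
    apply hball
    rw [Metric.mem_ball, dist_eq_norm]
    simp only [add_sub_cancel_left, PiLp.norm_single, Real.norm_eq_abs]
    linarith only [hs_def, hs, ht]
  have hRae : ∀ᵐ x ∂(unif K), ‖x‖ ≤ R := by
    have : ∀ᵐ x ∂(volume.restrict K), ‖x‖ ≤ R := by
      filter_upwards [ae_restrict_mem hK.measurableSet] with x hx using hKR x hx
    unfold unif ProbabilityTheory.cond
    exact Measure.ae_smul_measure this _
  have hRae1 : ∀ᵐ x ∂(unif K), |x i1| ≤ R := by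
    filter_upwards [hRae] with x hx using le_trans (PiLp.norm_apply_le x i1) hx
  have hac : unif K ≪ volume := by
    unfold unif ProbabilityTheory.cond
    exact (Measure.absolutelyContinuous_of_le Measure.restrict_le_self).smul_left _
  have hvK0 : volume K ≠ 0 := (Measure.measure_pos_of_nonempty_interior _ hKi).ne'
  have hvKt : volume K ≠ ∞ := hK.measure_ne_top
  -- constants
  set A : ℝ≥0∞ := (volume K)⁻¹ * (ENNReal.ofReal (6 * R) * ENNReal.ofReal (2 * R) ^ (d - 1))
    with hA_def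
  set B : ℝ≥0∞ := (volume K)⁻¹ * (ENNReal.ofReal (r / 4) * ENNReal.ofReal (r / 2) ^ (d - 1))
    with hB_def
  have hAt : A ≠ ∞ := by
    rw [hA_def]
    apply ENNReal.mul_ne_top (ENNReal.inv_ne_top.2 hvK0)
    exact ENNReal.mul_ne_top ENNReal.ofReal_ne_top (ENNReal.pow_ne_top ENNReal.ofReal_ne_top)
  have hBt : B ≠ ∞ := by
    rw [hB_def]
    apply ENNReal.mul_ne_top (ENNReal.inv_ne_top.2 hvK0)
    exact ENNReal.mul_ne_top ENNReal.ofReal_ne_top (ENNReal.pow_ne_top ENNReal.ofReal_ne_top)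
  have hB0 : B ≠ 0 := by
    rw [hB_def]
    apply mul_ne_zero (ENNReal.inv_ne_zero.2 hvKt)
    apply mul_ne_zero
    · rw [ENNReal.ofReal_ne_zero_iff]; positivity
    · apply pow_ne_zero
      rw [ENNReal.ofReal_ne_zero_iff]; positivity
  have hBpos : 0 < B.toReal := ENNReal.toReal_pos hB0 hBt
  set δ₀ : ℝ := min 1 (r / (3 * R + r)) with hδ₀_def
  have hδ₀ : 0 < δ₀ := lt_min one_pos (by (clear * - hr hRpos; positivity))
  have main : ∀ δ : ℝ, 0 < δ → δ ≤ δ₀ →
      (s * B.toReal ^ (1 / 2 : ℝ)) * δ ^ (1 / 2 : ℝ) ≤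
        (C * (s ^ p * A.toReal) ^ (1 / p * α)) * δ ^ ((p + 1) / p * α) := by
    intro δ hδ hδle
    have hδ1 : δ ≤ 1 := le_trans hδle (min_le_left _ _)
    have hδr : δ * (3 * R + r) ≤ r := by
      have : δ ≤ r / (3 * R + r) := le_trans hδle (min_le_right _ _)
      rwa [le_div_iff₀ (by (clear * - hRpos hr; positivity))] at this
    have hδR : 0 < δ * R := by (clear * - hδ hRpos; positivity)
    set t₁ : ℝ := b i0 - 3 * (δ * R) with ht₁
    set t₂ : ℝ := b i0 + 3 * (δ * R) with ht₂
    obtain ⟨c₁, hc₁, hm₁⟩ := exists_tilt (unif K) hac i0 i1 h01 1 one_ne_zero δ R hδ.le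
      hRpos.le hRae1 t₁
    obtain ⟨c', hc', hm'⟩ := exists_tilt (unif K) hac i0 i1 h01 (-1) (by norm_num) δ R hδ.le
      hRpos.le hRae1 (-t₂)
    set c₂ : ℝ := -c' with hc₂
    have hm₁' : unif K {x : E d | x i0 + δ * x i1 ≤ c₁} = unif K {x : E d | x i0 ≤ t₁} := by
      simpa only [one_mul] using hm₁
    have hm₂' : unif K {x : E d | c₂ ≤ x i0 - δ * x i1} = unif K {x : E d | t₂ ≤ x i0} := by
      have e1 : {x : E d | c₂ ≤ x i0 - δ * x i1} = {x : E d | -1 * x i0 + δ * x i1 ≤ c'} := by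
        ext x
        change c₂ ≤ x i0 - δ * x i1 ↔ -1 * x i0 + δ * x i1 ≤ c'
        constructor <;> intro h <;> linarith only [h]
      have e2 : {x : E d | t₂ ≤ x i0} = {x : E d | -1 * x i0 ≤ -t₂} := by
        ext x
        change t₂ ≤ x i0 ↔ -1 * x i0 ≤ -t₂
        constructor <;> intro h <;> linarith only [h]
      rw [e1, e2, hm']
    have ht : t₁ < t₂ := by linarith only [hδR]
    have hc : 2 * (δ * R) < c₂ - c₁ := by
      have := hc₁.2
      have := hc'.2
      (clear Y hY p α hp hα C hst i1 h01 r hr hcube hKR q hq s' hs' hball s hs_def hs hsites hRae hRae1 hac hvK0 hvKt A hA_def B hB_def hAt hBt hB0 hBpos δ₀ hδ₀_def hδ₀ hδle hδ1 hδr ht₁ ht₂ hm₁ hm' hc₂ hm₁' hm₂' ht; linarith)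
    -- the two target measures
    set T : E d → E d := T3 i0 i1 q s 0 t₁ t₂ with hT
    set S : E d → E d := T3 i0 i1 q s δ c₁ c₂ with hS
    have hTm : Measurable T := measurable_T3 _ _ _ _ _ _ _
    have hSm : Measurable S := measurable_T3 _ _ _ _ _ _ _
    have hμ : IsProbabilityMeasure ((unif K).map T) :=
      Measure.isProbabilityMeasure_map hTm.aemeasurable
    have hν : IsProbabilityMeasure ((unif K).map S) :=
      Measure.isProbabilityMeasure_map hSm.aemeasurable
    have hTY : ∀ x, T x ∈ Y := by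
      intro x
      rcases T3_values i0 i1 q s 0 t₁ t₂ x with h | h | h <;> rw [hT, h] <;> apply hsites
      · rw [abs_neg, abs_of_pos hs]
      · rw [abs_of_pos hs]
      · simp [hs.le]
    have hSY : ∀ x, S x ∈ Y := by
      intro x
      rcases T3_values i0 i1 q s δ c₁ c₂ x with h | h | h <;> rw [hS, h] <;> apply hsites
      · rw [abs_neg, abs_of_pos hs]
      · rw [abs_of_pos hs]
      · rw [abs_of_nonneg (by (clear * - hs' hδ; positivity))]
        nlinarith only [hs_def, hs', hδ1]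
    have hsupp : ∀ U : E d → E d, Measurable U → (∀ x, U x ∈ Y) → (unif K).map U Yᶜ = 0 := by
      intro U hU hUY
      rw [Measure.map_apply hU hY.measurableSet.compl]
      have : U ⁻¹' Yᶜ = ∅ := by
        ext x
        simp [hUY x]
      rw [this, measure_empty]
    have hoptT : IsOptimalMap (unif K) ((unif K).map T) T := by
      apply T3_isOptimal (unif K) h01 q hs le_rfl hRae
      linarith only [hδR]
    have hoptS : IsOptimalMap (unif K) ((unif K).map S) S := by
      apply T3_isOptimal (unif K) h01 q hs hδ.le hRae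
      linarith only [hc]
    have hest := hst _ _ hμ hν (hsupp T hTm hTY) (hsupp S hSm hSY) T S hoptT hoptS
    -- upper bound for the Wasserstein distance
    have hW : Wass p ((unif K).map T) ((unif K).map S) ≤
        (ENNReal.ofReal (s * δ) ^ p * (A * ENNReal.ofReal δ)) ^ (1 / p) := by
      refine le_trans (wass_le (unif K) h01 q hs hδ hRae ht hc hm₁' hm₂' hp) ?_
      apply ENNReal.rpow_le_rpow _ (by positivity)
      gcongr
      have hmS : MeasurableSet {x : E d | x i0 ∈ Icc t₁ t₂} := by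
        apply measurableSet_Icc.preimage
        fun_prop
      let lo : Fin d → ℝ := fun i => if i = i0 then t₁ else -R
      let hi : Fin d → ℝ := fun i => if i = i0 then t₂ else R
      refine le_trans (unif_le (B := {x : E d | ∀ i, x i ∈ Icc (lo i) (hi i)}) hmS ?_) ?_
      · rintro x ⟨hx1, hx2⟩ i
        by_cases hi' : i = i0
        · simp only [lo, hi, hi', if_true]
          exact hx1
        · simp only [lo, hi, hi', if_false]
          exact abs_le.1 (le_trans (PiLp.norm_apply_le x i) (hKR x hx2))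
      · rw [volume_box_one i0 lo hi (2 * R) (6 * R * δ)]
        · rw [ENNReal.ofReal_mul (by positivity : (0:ℝ) ≤ 6 * R)]
          apply le_of_eq
          rw [hA_def]
          ring
        · intro i hi'
          simp only [lo, hi, hi', if_false]
          ring
        · simp only [lo, hi, if_true, ht₁, ht₂]
          ring
    -- lower bound for the distance of the maps
    have hL : ENNReal.ofReal s * (B * ENNReal.ofReal δ) ^ (1 / 2 : ℝ) ≤
        eLpNorm (fun x => T x - S x) 2 (unif K) := by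
      -- a box on which the maps differ by at least `s`
      obtain ⟨D, hDK, hDm, hDv, hDT⟩ : ∃ D : Set (E d), D ⊆ K ∧ MeasurableSet D ∧
          volume D = ENNReal.ofReal (r / 4 * δ) * ENNReal.ofReal (r / 2) ^ (d - 1) ∧
          ∀ x ∈ D, s ≤ ‖T x - S x‖ := by
        rcases le_total c₁ (t₁ + δ * b i1) with hcase | hcase
        · let lo : Fin d → ℝ := fun i =>
            if i = i0 then t₁ - r / 4 * δ else b i + r / 2
          let hi : Fin d → ℝ := fun i => if i = i0 then t₁ else b i + r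
          refine ⟨{x : E d | ∀ i, x i ∈ Icc (lo i) (hi i)}, ?_, ?_, ?_, ?_⟩
          · intro x hx
            apply hcube
            intro i
            have hxi := hx i
            by_cases hi' : i = i0
            · simp only [lo, hi, hi', if_true] at hxi
              rw [hi', abs_le]
              constructor
              · have := hxi.1
                nlinarith only [hδr, this, hr, hδ]
              · have := hxi.2
                nlinarith only [hr, hδR, this]
            · simp only [lo, hi, hi', if_false] at hxi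
              rw [abs_le]
              constructor
              · linarith only [hr, hxi.1]
              · linarith only [hxi.2]
          · rw [ofPred_forall]
            exact MeasurableSet.iInter fun i => measurableSet_Icc.preimage (by fun_prop)
          · apply volume_box_one i0 lo hi (r / 2) (r / 4 * δ)
            · intro i hi'
              simp only [lo, hi, hi', if_false]
              ring
            · simp only [lo, hi, if_true]
              ring
          · intro x hx
            have hx0 := hx i0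
            have hx1 := hx i1
            simp only [lo, hi, if_true] at hx0
            simp only [lo, hi, h01.symm, if_false] at hx1
            have h1 : T x = q + EuclideanSpace.single i0 (-s) := by
              rw [hT, T3_eq_left_iff h01 q hs]
              linarith only [hx0.2]
            have h2 : ¬ (x i0 + δ * x i1 ≤ c₁) := by
              push Not
              have := mul_le_mul_of_nonneg_left hx1.1 hδ.le
              nlinarith only [hcase, this, hr, hδ, hx0.1]
            have h3 : ¬ (S x = q + EuclideanSpace.single i0 (-s)) := by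
              rw [hS, T3_eq_left_iff h01 q hs]
              exact h2
            rw [h1]
            rcases T3_values i0 i1 q s δ c₁ c₂ x with h | h | h
            · exact absurd h h3
            · rw [hS, h]
              exact left_dist_right i0 q hs
            · rw [hS, h]
              exact left_dist_mid h01 q hs _
        · let lo : Fin d → ℝ := fun i =>
            if i = i0 then t₁ + r / 4 * δ else b i - r
          let hi : Fin d → ℝ := fun i => if i = i0 then t₁ + r / 2 * δ else b i - r / 2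
          refine ⟨{x : E d | ∀ i, x i ∈ Icc (lo i) (hi i)}, ?_, ?_, ?_, ?_⟩
          · intro x hx
            apply hcube
            intro i
            have hxi := hx i
            by_cases hi' : i = i0
            · simp only [lo, hi, hi', if_true] at hxi
              rw [hi', abs_le]
              constructor
              · have := hxi.1
                nlinarith only [hδr, this, hr, hδ]
              · have := hxi.2
                nlinarith only [hr, hδr, hδR, this]
            · simp only [lo, hi, hi', if_false] at hxi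
              rw [abs_le]
              constructor
              · linarith only [hxi.1]
              · linarith only [hr, hxi.2]
          · rw [ofPred_forall]
            exact MeasurableSet.iInter fun i => measurableSet_Icc.preimage (by fun_prop)
          · apply volume_box_one i0 lo hi (r / 2) (r / 4 * δ)
            · intro i hi'
              simp only [lo, hi, hi', if_false]
              ring
            · simp only [lo, hi, if_true]
              ring
          · intro x hx
            have hx0 := hx i0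
            have hx1 := hx i1
            simp only [lo, hi, if_true] at hx0
            simp only [lo, hi, h01.symm, if_false] at hx1
            have h1 : S x = q + EuclideanSpace.single i0 (-s) := by
              rw [hS, T3_eq_left_iff h01 q hs]
              have := mul_le_mul_of_nonneg_left hx1.2 hδ.le
              nlinarith only [hcase, this, hx0.2]
            have h2 : ¬ (x i0 + 0 * x i1 ≤ t₁) := by
              push Not
              nlinarith only [hr, hδ, hx0.1]
            have h3 : ¬ (T x = q + EuclideanSpace.single i0 (-s)) := by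
              rw [hT, T3_eq_left_iff h01 q hs]
              exact h2
            rw [h1, norm_sub_rev]
            rcases T3_values i0 i1 q s 0 t₁ t₂ x with h | h | h
            · exact absurd h h3
            · rw [hT, h]
              exact left_dist_right i0 q hs
            · rw [hT, h]
              exact left_dist_mid h01 q hs _
      have hρD : unif K D = B * ENNReal.ofReal δ := by
        rw [unif_apply_subset hDK hDm, hDv, ENNReal.ofReal_mul (by positivity), hB_def]
        ring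
      have h2 := mul_meas_ge_le_pow_eLpNorm' (μ := unif K) (f := fun x => T x - S x) (p := 2)
        (by norm_num) (by norm_num) (hTm.sub hSm).aestronglyMeasurable (ENNReal.ofReal s)
      have h3 : unif K D ≤ unif K {x | ENNReal.ofReal s ≤ ‖T x - S x‖ₑ} := by
        apply measure_mono
        intro x hx
        change ENNReal.ofReal s ≤ ‖T x - S x‖ₑ
        rw [← ofReal_norm]
        exact ENNReal.ofReal_le_ofReal (hDT x hx)
      rw [← hρD]
      have h4 : ENNReal.ofReal s ^ (2 : ℝ) * unif K D ≤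
          eLpNorm (fun x => T x - S x) 2 (unif K) ^ (2 : ℝ) := by
        refine le_trans (mul_le_mul_right h3 _) ?_
        simpa only [ENNReal.rpow_ofNat, ENNReal.toReal_ofNat] using h2
      have h5 : ENNReal.ofReal s * (unif K D) ^ (1 / 2 : ℝ) =
          (ENNReal.ofReal s ^ (2 : ℝ) * unif K D) ^ (1 / 2 : ℝ) := by
        rw [ENNReal.mul_rpow_of_nonneg _ _ (by norm_num), ← ENNReal.rpow_mul]
        norm_num
      rw [h5]
      calc (ENNReal.ofReal s ^ (2 : ℝ) * unif K D) ^ (1 / 2 : ℝ)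
          ≤ (eLpNorm (fun x => T x - S x) 2 (unif K) ^ (2 : ℝ)) ^ (1 / 2 : ℝ) :=
            ENNReal.rpow_le_rpow h4 (by norm_num)
        _ = eLpNorm (fun x => T x - S x) 2 (unif K) := by
            rw [← ENNReal.rpow_mul]
            norm_num
    have hfinal : ENNReal.ofReal s * (B * ENNReal.ofReal δ) ^ (1 / 2 : ℝ) ≤
        C * ((ENNReal.ofReal (s * δ) ^ p * (A * ENNReal.ofReal δ)) ^ (1 / p)) ^ α :=
      le_trans hL (le_trans hest (by (clear * - hW hα; gcongr)))
    -- conversion to real numbers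
    have hne : C * ((ENNReal.ofReal (s * δ) ^ p * (A * ENNReal.ofReal δ)) ^ (1 / p)) ^ α ≠ ∞ := by
      apply ENNReal.mul_ne_top ENNReal.coe_ne_top
      apply ENNReal.rpow_ne_top_of_nonneg hα
      apply ENNReal.rpow_ne_top_of_nonneg (by positivity)
      apply ENNReal.mul_ne_top (ENNReal.rpow_ne_top_of_nonneg hp.le ENNReal.ofReal_ne_top)
      exact ENNReal.mul_ne_top hAt ENNReal.ofReal_ne_top
    have hreal := ENNReal.toReal_mono hne hfinal
    simp only [ENNReal.toReal_mul, ← ENNReal.toReal_rpow, ENNReal.coe_toReal] at hreal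
    rw [ENNReal.toReal_ofReal hs.le, ENNReal.toReal_ofReal hδ.le,
      ENNReal.toReal_ofReal (by (clear * - hs' hδ; positivity))] at hreal
    have hA0 : 0 ≤ A.toReal := ENNReal.toReal_nonneg
    have hB0 : 0 ≤ B.toReal := ENNReal.toReal_nonneg
    have e1 : s * (B.toReal * δ) ^ (1 / 2 : ℝ) = (s * B.toReal ^ (1 / 2 : ℝ)) * δ ^ (1 / 2 : ℝ) := by
      rw [Real.mul_rpow hB0 hδ.le]
      ring
    have e2 : (C : ℝ) * (((s * δ) ^ p * (A.toReal * δ)) ^ (1 / p)) ^ α =
        (C * (s ^ p * A.toReal) ^ (1 / p * α)) * δ ^ ((p + 1) / p * α) := by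
      rw [← Real.rpow_mul (by (clear * - hs' hδ; positivity)), Real.mul_rpow hs.le hδ.le]
      have e3 : s ^ p * δ ^ p * (A.toReal * δ) = (s ^ p * A.toReal) * δ ^ (p + 1) := by
        rw [Real.rpow_add hδ, Real.rpow_one]
        ring
      rw [e3, Real.mul_rpow (by (clear * - hs'; positivity)) (by (clear * - hδ; positivity)), ← Real.rpow_mul hδ.le]
      have e4 : (p + 1) * (1 / p * α) = (p + 1) / p * α := by ring
      rw [e4]
      ring
    rw [e1, e2] at hreal
    exact hreal
  have := exponent_bound (by (clear * - hs' hBpos; positivity)) (by (clear * - hs'; positivity)) hδ₀ main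
  have h2 : (p + 1) / p * α ≤ 1 / 2 := this
  rw [le_div_iff₀ (by positivity)]
  rw [div_mul_eq_mul_div, div_le_iff₀ hp] at h2
  linarith only [h2]

end Vale.Agent.P074
end
end
end

section

section

section

open MeasureTheory Set Metric
open scoped ENNReal NNReal

namespace Vale.Agent.P074

/-- Passing from all couplings to the Wasserstein distance. -/
theorem le_of_forall_coupling {d : ℕ} {μ ν : Measure (E d)} {X : ℝ≥0∞} {C : ℝ≥0} {p α : ℝ}
    (hp : 0 < p) (hα : 0 < α) (hC : C ≠ 0)
    (h : ∀ π : Measure (E d × E d), π.map Prod.fst = μ → π.map Prod.snd = ν →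
      X ≤ C * (∫⁻ z, ‖z.1 - z.2‖ₑ ^ p ∂π) ^ (α / p)) :
    X ≤ C * Wass p μ ν ^ α := by
  unfold Wass
  rw [← ENNReal.rpow_mul, show 1 / p * α = α / p by ring]
  have hpos : 0 < α / p := by positivity
  have hC' : (C : ℝ≥0∞) ≠ 0 := by exact_mod_cast hC
  have h1 : ∀ π : Measure (E d × E d), π.map Prod.fst = μ → π.map Prod.snd = ν →
      (X / C) ^ (α / p)⁻¹ ≤ ∫⁻ z, ‖z.1 - z.2‖ₑ ^ p ∂π := by
    intro π h1 h2
    have h3 := h π h1 h2
    rw [ENNReal.rpow_inv_le_iff hpos]
    rw [ENNReal.div_le_iff hC' ENNReal.coe_ne_top, mul_comm]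
    exact h3
  have h2 : (X / C) ^ (α / p)⁻¹ ≤ ⨅ (π : Measure (E d × E d)) (_ : π.map Prod.fst = μ)
      (_ : π.map Prod.snd = ν), ∫⁻ z, ‖z.1 - z.2‖ₑ ^ p ∂π :=
    le_iInf fun π => le_iInf fun e1 => le_iInf fun e2 => h1 π e1 e2
  rw [ENNReal.rpow_inv_le_iff hpos, ENNReal.div_le_iff hC' ENNReal.coe_ne_top] at h2
  rw [mul_comm]
  exact h2

/-- The hypothesis form of the final step. -/
theorem stability_of_final {d : ℕ} {K Y : Set (E d)} {M : ℝ} (hY : Y ⊆ closedBall 0 M)
    (hKp : IsProbabilityMeasure (unif K))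
    {C : ℝ} (hC : 0 ≤ C)
    (hfin : ∀ μ ν : Measure (E d), IsProbabilityMeasure μ → IsProbabilityMeasure ν →
      μ (closedBall 0 M)ᶜ = 0 → ν (closedBall 0 M)ᶜ = 0 →
      ∀ T₀ T₁ : E d → E d, IsOptimalMap (unif K) μ T₀ → IsOptimalMap (unif K) ν T₁ →
      ∀ π : Measure (E d × E d), IsProbabilityMeasure π →
        π.map Prod.fst = μ → π.map Prod.snd = ν →
        ∫ x, ‖T₀ x - T₁ x‖ ^ 2 ∂(unif K) ≤ C * (∫ z, ‖z.1 - z.2‖ ^ 2 ∂π) ^ (1 / 3 : ℝ)) :
    ∃ C' : ℝ≥0, StabilityEstimate (unif K) Y 2 (1 / 3) C' := by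
  refine ⟨Real.toNNReal (√(C + 1)), ?_⟩
  intro μ ν hμ hν hμY hνY T S hT hS
  have hsub : (closedBall (0 : E d) M)ᶜ ⊆ Yᶜ := compl_subset_compl.2 hY
  have hμM : μ (closedBall 0 M)ᶜ = 0 := measure_mono_null hsub hμY
  have hνM : ν (closedBall 0 M)ᶜ = 0 := measure_mono_null hsub hνY
  have hTm := hT.1
  have hSm := hS.1
  have haeT : ∀ᵐ x ∂(unif K), ‖T x‖ ≤ M := by
    have h1 : ∀ᵐ y ∂μ, y ∈ closedBall (0 : E d) M := hμM
    rw [← hT.2.1] at h1
    have h2 := ae_of_ae_map hTm.aemeasurable h1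
    filter_upwards [h2] with x hx
    simpa only [mem_closedBall, dist_zero_right] using hx
  have haeS : ∀ᵐ x ∂(unif K), ‖S x‖ ≤ M := by
    have h1 : ∀ᵐ y ∂ν, y ∈ closedBall (0 : E d) M := hνM
    rw [← hS.2.1] at h1
    have h2 := ae_of_ae_map hSm.aemeasurable h1
    filter_upwards [h2] with x hx
    simpa only [mem_closedBall, dist_zero_right] using hx
  have hmem : MemLp (fun x => T x - S x) 2 (unif K) := by
    apply MemLp.of_bound (hTm.sub hSm).aestronglyMeasurable (M + M)
    filter_upwards [haeT, haeS] with x h1 h2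
    exact le_trans (norm_sub_le _ _) (add_le_add h1 h2)
  have hCpos : (0 : ℝ) < √(C + 1) := Real.sqrt_pos.2 (by linarith only [hC])
  apply le_of_forall_coupling (by norm_num) (by norm_num)
  · exact (Real.toNNReal_pos.2 hCpos).ne'
  intro π h1 h2
  have hπ : IsProbabilityMeasure π := by
    refine ⟨?_⟩
    have h3 : π.map Prod.fst univ = 1 := by rw [h1]; exact measure_univ
    rwa [Measure.map_apply measurable_fst MeasurableSet.univ, preimage_univ] at h3
  have hint : ∫⁻ z, ‖z.1 - z.2‖ₑ ^ (2 : ℝ) ∂π = ENNReal.ofReal (∫ z, ‖z.1 - z.2‖ ^ 2 ∂π) := by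
    have hae1 : ∀ᵐ z ∂π, z.1 ∈ closedBall (0 : E d) M := by
      have h3 : ∀ᵐ y ∂μ, y ∈ closedBall (0 : E d) M := hμM
      rw [← h1] at h3
      exact ae_of_ae_map measurable_fst.aemeasurable h3
    have hae2 : ∀ᵐ z ∂π, z.2 ∈ closedBall (0 : E d) M := by
      have h3 : ∀ᵐ y ∂ν, y ∈ closedBall (0 : E d) M := hνM
      rw [← h2] at h3
      exact ae_of_ae_map measurable_snd.aemeasurable h3
    rw [ofReal_integral_eq_lintegral_ofReal]
    · apply lintegral_congr
      intro z
      rw [ENNReal.ofReal_pow (norm_nonneg _), ofReal_norm]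
      norm_num
    · apply Integrable.of_bound (C := (M + M) ^ 2) (by fun_prop)
      filter_upwards [hae1, hae2] with z hz1 hz2
      rw [mem_closedBall_zero_iff] at hz1 hz2
      rw [Real.norm_of_nonneg (by (clear * -; positivity))]
      gcongr
      exact le_trans (norm_sub_le _ _) (add_le_add hz1 hz2)
    · filter_upwards with z
      (clear * -; positivity)
  have hJ : 0 ≤ ∫ z, ‖z.1 - z.2‖ ^ 2 ∂π := integral_nonneg fun z => by (clear * -; positivity)
  have hmain := hfin μ ν hμ hν hμM hνM T S hT hS π hπ h1 h2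
  have hI : 0 ≤ ∫ x, ‖T x - S x‖ ^ 2 ∂(unif K) := integral_nonneg fun x => by (clear * -; positivity)
  rw [hmem.eLpNorm_eq_integral_rpow_norm (by norm_num) (by norm_num), hint,
    ENNReal.ofReal_rpow_of_nonneg hJ (by norm_num)]
  have hcoe : ((Real.toNNReal (√(C + 1)) : ℝ≥0) : ℝ≥0∞) = ENNReal.ofReal (√(C + 1)) := rfl
  rw [hcoe, ← ENNReal.ofReal_mul hCpos.le]
  apply ENNReal.ofReal_le_ofReal
  simp only [ENNReal.toReal_ofNat, Real.rpow_ofNat]
  set J := ∫ z, ‖z.1 - z.2‖ ^ 2 ∂π with hJdef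
  have h5 : (∫ x, ‖T x - S x‖ ^ 2 ∂(unif K)) ≤ (C + 1) * J ^ (1 / 3 : ℝ) := by
    refine le_trans hmain ?_
    have : 0 ≤ J ^ (1 / 3 : ℝ) := by (clear * -; positivity)
    nlinarith only [this]
  calc (∫ x, ‖T x - S x‖ ^ 2 ∂(unif K)) ^ ((2 : ℝ)⁻¹)
      ≤ ((C + 1) * J ^ (1 / 3 : ℝ)) ^ ((2 : ℝ)⁻¹) := Real.rpow_le_rpow hI h5 (by norm_num)
    _ = √(C + 1) * J ^ ((1 / 3 : ℝ) / 2) := by
        rw [Real.mul_rpow (by linarith only [hC]) (by (clear * -; positivity)), ← Real.rpow_mul hJ, Real.sqrt_eq_rpow]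
        norm_num

end Vale.Agent.P074
end
end
end

section

section

section

open MeasureTheory Set Metric Filter Topology
open scoped ENNReal NNReal RealInnerProductSpace BoundedContinuousFunction

namespace Vale.Agent.P074

variable {d : ℕ}

/-- The Legendre transform of a function defined on a closed ball only. -/
noncomputable def cj (M : ℝ) (g : closedBall (0 : E d) M → ℝ) (x : E d) : ℝ :=
  ⨆ y : closedBall (0 : E d) M, (inner ℝ x y.1 - g y)

theorem conj_eq_cj (M : ℝ) (ψ : E d → ℝ) (x : E d) :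
    conj M ψ x = cj M (fun y => ψ y) x := rfl

section basic

variable {M : ℝ} {g : closedBall (0 : E d) M → ℝ}

theorem continuous_slope (hg : Continuous g) (x : E d) :
    Continuous fun y : closedBall (0 : E d) M => (inner ℝ x y.1 - g y : ℝ) := by
  fun_prop

theorem compactSpace_ball (M : ℝ) : CompactSpace (closedBall (0 : E d) M) :=
  isCompact_iff_compactSpace.1 (isCompact_closedBall 0 M)

theorem cj_bdd (hg : Continuous g) (x : E d) :
    BddAbove (range fun y : closedBall (0 : E d) M => (inner ℝ x y.1 - g y : ℝ)) := by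
  have := compactSpace_ball (d := d) M
  exact (isCompact_range (continuous_slope hg x)).bddAbove

theorem le_cj (hg : Continuous g) (x : E d) (y : closedBall (0 : E d) M) :
    inner ℝ x y.1 - g y ≤ cj M g x :=
  le_ciSup (cj_bdd hg x) y

theorem nonempty_ball (hM : 0 ≤ M) : Nonempty (closedBall (0 : E d) M) :=
  ⟨⟨0, mem_closedBall_self hM⟩⟩

theorem cj_le (hM : 0 ≤ M) (x : E d) {c : ℝ}
    (h : ∀ y : closedBall (0 : E d) M, inner ℝ x y.1 - g y ≤ c) : cj M g x ≤ c := by
  have := nonempty_ball (d := d) hM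
  exact ciSup_le h

theorem exists_cj (hM : 0 ≤ M) (hg : Continuous g) (x : E d) :
    ∃ y : closedBall (0 : E d) M, cj M g x = inner ℝ x y.1 - g y := by
  have := compactSpace_ball (d := d) M
  have := nonempty_ball (d := d) hM
  obtain ⟨y, hy⟩ := (continuous_slope hg x).exists_forall_ge_of_hasCompactSupport
    (HasCompactSupport.of_compactSpace _)
  exact ⟨y, le_antisymm (cj_le hM x hy) (le_cj hg x y)⟩

theorem lipschitz_cj (hM : 0 ≤ M) (hg : Continuous g) : LipschitzWith M.toNNReal (cj M g) := by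
  apply LipschitzWith.of_le_add_mul
  intro x z
  obtain ⟨y, hy⟩ := exists_cj hM hg x
  have h1 := le_cj hg z y
  have h2 : inner ℝ (x - z) y.1 ≤ M * dist x z := by
    calc inner ℝ (x - z) y.1 ≤ ‖x - z‖ * ‖y.1‖ := real_inner_le_norm _ _
      _ ≤ ‖x - z‖ * M := by
        apply mul_le_mul_of_nonneg_left _ (norm_nonneg _)
        exact mem_closedBall_zero_iff.1 y.2
      _ = M * dist x z := by rw [dist_eq_norm, mul_comm]
  rw [inner_sub_left] at h2
  rw [Real.coe_toNNReal M hM]
  linarith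

theorem cj_le_add (hM : 0 ≤ M) {g' : closedBall (0 : E d) M → ℝ} (hg' : Continuous g') {c : ℝ}
    (h : ∀ y, g' y ≤ g y + c) (x : E d) : cj M g x ≤ cj M g' x + c := by
  apply cj_le hM
  intro y
  have := le_cj hg' x y
  linarith [h y]

end basic


section minimise

/-- The dual functional on bounded continuous functions on the ball. -/
noncomputable def JJ (M : ℝ) (ς : Measure (E d)) (μB : Measure (closedBall (0 : E d) M))
    (g : closedBall (0 : E d) M →ᵇ ℝ) : ℝ :=
  ∫ x, cj M g x ∂ς + ∫ y, g y ∂μB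

variable {R M : ℝ} {ς : Measure (E d)} {μB : Measure (closedBall (0 : E d) M)}

theorem integrable_cj [IsFiniteMeasure ς] (hM : 0 ≤ M) (hςR : ς (closedBall 0 R)ᶜ = 0)
    {g : closedBall (0 : E d) M → ℝ} (hg : Continuous g) : Integrable (cj M g) ς := by
  have hc : Continuous (cj M g) := (lipschitz_cj hM hg).continuous
  obtain ⟨C, hC⟩ := (isCompact_closedBall (0 : E d) R).exists_bound_of_continuousOn hc.continuousOn
  refine Integrable.of_bound hc.aestronglyMeasurable C ?_
  have : ∀ᵐ x ∂ς, x ∈ closedBall (0 : E d) R := by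
    rw [ae_iff]
    exact hςR
  filter_upwards [this] with x hx
  exact hC x hx

theorem integrable_bcf [IsFiniteMeasure μB] (g : closedBall (0 : E d) M →ᵇ ℝ) :
    Integrable (fun y => g y) μB :=
  BoundedContinuousFunction.integrable μB g

theorem JJ_continuous [IsFiniteMeasure ς] [IsFiniteMeasure μB] (hM : 0 ≤ M)
    (hςR : ς (closedBall 0 R)ᶜ = 0) : Continuous (JJ M ς μB) := by
  have key : ∀ g g' : closedBall (0 : E d) M →ᵇ ℝ,
      JJ M ς μB g ≤ JJ M ς μB g' + (ς.real univ + μB.real univ) * dist g g' := by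
    intro g g'
    have h1 : ∀ y, g y ≤ g' y + dist g g' := by
      intro y
      have := BoundedContinuousFunction.dist_coe_le_dist (f := g) (g := g') y
      rw [Real.dist_eq] at this
      linarith only [this, le_abs_self (g y - g' y)]
    have h2 : ∀ y, g' y ≤ g y + dist g g' := by
      intro y
      have := BoundedContinuousFunction.dist_coe_le_dist (f := g) (g := g') y
      rw [Real.dist_eq] at this
      linarith only [this, neg_abs_le (g y - g' y)]
    have i1 : ∫ x, cj M g x ∂ς ≤ ∫ x, (cj M g' x + dist g g') ∂ς := by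
      apply integral_mono (integrable_cj hM hςR g.continuous)
        ((integrable_cj hM hςR g'.continuous).add (integrable_const _))
      intro x
      exact cj_le_add hM g'.continuous h2 x
    have i2 : ∫ y, g y ∂μB ≤ ∫ y, (g' y + dist g g') ∂μB := by
      apply integral_mono (integrable_bcf g) ((integrable_bcf g').add (integrable_const _))
      intro y
      exact h1 y
    rw [integral_add (integrable_cj hM hςR g'.continuous) (integrable_const _),
      integral_const, smul_eq_mul] at i1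
    rw [integral_add (integrable_bcf g') (integrable_const _), integral_const,
      smul_eq_mul] at i2
    simp only [JJ]
    linarith only [i1, i2]
  have : LipschitzWith (ς.real univ + μB.real univ).toNNReal (JJ M ς μB) := by
    apply LipschitzWith.of_le_add_mul
    intro g g'
    rw [Real.coe_toNNReal _ (by (clear * -; positivity))]
    exact key g g'
  exact this.continuous

/-- The compact set of normalised `R`-Lipschitz functions on the ball. -/
def lipSet (R M : ℝ) (hM : 0 ≤ M) : Set (closedBall (0 : E d) M →ᵇ ℝ) :=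
  {g | LipschitzWith R.toNNReal g ∧ g ⟨0, mem_closedBall_self hM⟩ = 0}

theorem isCompact_lipSet (hR : 0 ≤ R) (hM : 0 ≤ M) : IsCompact (lipSet (d := d) R M hM) := by
  have := compactSpace_ball (d := d) M
  apply BoundedContinuousFunction.arzela_ascoli₂ (Icc (-(R * M)) (R * M)) isCompact_Icc
  · have h1 : IsClosed {g : closedBall (0 : E d) M →ᵇ ℝ | LipschitzWith R.toNNReal g} := by
      have he : {g : closedBall (0 : E d) M →ᵇ ℝ | LipschitzWith R.toNNReal g} =
          ⋂ (y : closedBall (0 : E d) M) (z : closedBall (0 : E d) M),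
            {g | dist (g y) (g z) ≤ R.toNNReal * dist y z} := by
        ext g
        simp only [mem_iInter, mem_ofPred_eq, lipschitzWith_iff_dist_le_mul]
      rw [he]
      refine isClosed_iInter fun y => isClosed_iInter fun z => ?_
      exact isClosed_le ((continuous_eval_const y).dist
        (continuous_eval_const z)) continuous_const
    have h2 : IsClosed {g : closedBall (0 : E d) M →ᵇ ℝ |
        g ⟨0, mem_closedBall_self hM⟩ = 0} :=
      isClosed_eq (continuous_eval_const _) continuous_const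
    exact h1.inter h2
  · rintro g y ⟨hg, hg0⟩
    have h := hg.dist_le_mul y ⟨0, mem_closedBall_self hM⟩
    rw [hg0, Real.dist_eq, sub_zero, Real.coe_toNNReal R hR] at h
    have h3 : dist y ⟨0, mem_closedBall_self hM⟩ ≤ M := by
      have := y.2
      rw [mem_closedBall] at this
      exact this
    have h4 : |g y| ≤ R * M := h.trans (mul_le_mul_of_nonneg_left h3 hR)
    exact abs_le.1 h4
  · exact (LipschitzWith.uniformEquicontinuous _ R.toNNReal fun g => g.2.1).equicontinuous

/-- The double transform of `g`. -/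
theorem exists_double (hR : 0 ≤ R) (hM : 0 ≤ M) (g : closedBall (0 : E d) M →ᵇ ℝ) :
    ∃ h : closedBall (0 : E d) M →ᵇ ℝ, LipschitzWith R.toNNReal h ∧ (∀ y, h y ≤ g y) ∧
      ∀ x ∈ closedBall (0 : E d) R, cj M h x ≤ cj M g x := by
  have := compactSpace_ball (d := d) M
  set u : closedBall (0 : E d) R → ℝ := fun x => cj M g x with hu
  have huc : Continuous u :=
    (lipschitz_cj hM g.continuous).continuous.comp continuous_subtype_val
  have hl : LipschitzWith R.toNNReal fun y : closedBall (0 : E d) M => cj R u y.1 := by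
    have := (lipschitz_cj hR huc).comp (LipschitzWith.subtype_val (closedBall (0 : E d) M))
    rw [mul_one] at this
    exact this
  refine ⟨BoundedContinuousFunction.mkOfCompact ⟨_, hl.continuous⟩, hl, ?_, ?_⟩
  · intro y
    change cj R u y.1 ≤ g y
    apply cj_le hR
    intro x
    have := le_cj g.continuous x.1 y
    rw [real_inner_comm]
    simp only [hu]
    linarith
  · intro x hx
    apply cj_le hM
    intro y
    change inner ℝ x y.1 - cj R u y.1 ≤ _
    have := le_cj huc y.1 ⟨x, hx⟩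
    simp only [hu] at this
    rw [real_inner_comm]
    linarith

theorem exists_minimiser [IsFiniteMeasure ς] [IsFiniteMeasure μB] (hR : 0 ≤ R) (hM : 0 ≤ M)
    (hmass : ς univ = μB univ) (hςR : ς (closedBall 0 R)ᶜ = 0) :
    ∃ g0 : closedBall (0 : E d) M →ᵇ ℝ, LipschitzWith R.toNNReal g0 ∧
      ∀ g : closedBall (0 : E d) M →ᵇ ℝ, JJ M ς μB g0 ≤ JJ M ς μB g := by
  have hne : (lipSet (d := d) R M hM).Nonempty := by
    refine ⟨0, ?_, rfl⟩
    intro y z
    simp only [BoundedContinuousFunction.coe_zero, Pi.zero_apply, edist_self, zero_le]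
  obtain ⟨g0, hg0, hmin⟩ := (isCompact_lipSet hR hM).exists_isMinOn hne
    (JJ_continuous (μB := μB) hM hςR).continuousOn
  refine ⟨g0, hg0.1, fun g => ?_⟩
  obtain ⟨h, hl, hle, hcj⟩ := exists_double hR hM g
  -- normalise
  set c : ℝ := h ⟨0, mem_closedBall_self hM⟩ with hc
  set h' : closedBall (0 : E d) M →ᵇ ℝ := h - BoundedContinuousFunction.const _ c with hh'
  have hh'y : ∀ y, h' y = h y - c := fun y => by simp [hh']
  have hmem : h' ∈ lipSet (d := d) R M hM := by
    refine ⟨?_, ?_⟩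
    · intro y z
      have : edist (h' y) (h' z) = edist (h y) (h z) := by
        rw [hh'y, hh'y, edist_sub_right]
      rw [this]
      exact hl y z
    · rw [hh'y]
      simp only [hc, sub_self]
  have e1 : JJ M ς μB h' = JJ M ς μB h := by
    have hcjc : ∀ x, cj M h' x = cj M h x + c := by
      intro x
      apply le_antisymm
      · apply cj_le_add hM h.continuous
        intro y
        rw [hh'y]
        linarith only []
      · have := cj_le_add (g := h) hM h'.continuous (c := -c) (fun y => by rw [hh'y]; linarith only []) x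
        linarith only [this]
    simp only [JJ]
    simp_rw [hcjc, hh'y]
    rw [integral_add (integrable_cj hM hςR h.continuous) (integrable_const _),
      integral_sub (integrable_bcf h) (integrable_const _), integral_const, integral_const,
      measureReal_def, measureReal_def, hmass]
    ring
  have hae : ∀ᵐ x ∂ς, x ∈ closedBall (0 : E d) R := by
    rw [ae_iff]
    exact hςR
  have e2 : JJ M ς μB h ≤ JJ M ς μB g := by
    simp only [JJ]
    apply add_le_add
    · apply integral_mono_ae (integrable_cj hM hςR h.continuous)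
        (integrable_cj hM hςR g.continuous)
      filter_upwards [hae] with x hx
      exact hcj x hx
    · exact integral_mono (integrable_bcf h) (integrable_bcf g) hle
  calc JJ M ς μB g0 ≤ JJ M ς μB h' := hmin hmem
    _ = JJ M ς μB h := e1
    _ ≤ JJ M ς μB g := e2

end minimise


section variation

variable {R M : ℝ}

theorem gradient_cj {g : closedBall (0 : E d) M → ℝ} (hg : Continuous g) {x : E d}
    {y : closedBall (0 : E d) M} (hy : cj M g x = inner ℝ x y.1 - g y)
    (hd : DifferentiableAt ℝ (cj M g) x) : gradient (cj M g) x = y.1 := by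
  have h1 : HasFDerivAt (fun z => cj M g z - InnerProductSpace.toDual ℝ (E d) y.1 z)
      (fderiv ℝ (cj M g) x - InnerProductSpace.toDual ℝ (E d) y.1) x :=
    hd.hasFDerivAt.sub (InnerProductSpace.toDual ℝ (E d) y.1).hasFDerivAt
  have h2 : IsLocalMin (fun z => cj M g z - InnerProductSpace.toDual ℝ (E d) y.1 z) x := by
    apply Filter.Eventually.of_forall
    intro z
    simp only [InnerProductSpace.toDual_apply_apply]
    have := le_cj hg z y
    rw [hy, real_inner_comm x y.1, real_inner_comm z y.1]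
    linarith
  have h3 := h2.hasFDerivAt_eq_zero h1
  have h4 : fderiv ℝ (cj M g) x = InnerProductSpace.toDual ℝ (E d) y.1 := sub_eq_zero.1 h3
  rw [gradient, h4, LinearIsometryEquiv.symm_apply_apply]

theorem var_lim (hM : 0 ≤ M) (g f : closedBall (0 : E d) M →ᵇ ℝ) {x : E d}
    {y : closedBall (0 : E d) M} (hy : cj M g x = inner ℝ x y.1 - g y)
    (huniq : ∀ z : closedBall (0 : E d) M, cj M g x = inner ℝ x z.1 - g z → z = y) :
    Tendsto (fun n : ℕ => ((n : ℝ) + 1) *
      (cj M (g + (1 / ((n : ℝ) + 1)) • f) x - cj M g x)) atTop (𝓝 (-f y)) := by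
  have := compactSpace_ball (d := d) M
  have hex := fun n : ℕ => exists_cj hM (g + (1 / ((n : ℝ) + 1)) • f).continuous x
  choose z hz using hex
  have hcoe : ∀ (n : ℕ) (w : closedBall (0 : E d) M),
      (g + (1 / ((n : ℝ) + 1)) • f) w = g w + 1 / ((n : ℝ) + 1) * f w := by
    intro n w
    simp only [one_div, BoundedContinuousFunction.coe_add, BoundedContinuousFunction.coe_smul, smul_eq_mul, Pi.add_apply]
  have hn : ∀ n : ℕ, (0 : ℝ) < (n : ℝ) + 1 := fun n => by positivity
  have hup : ∀ n : ℕ, cj M (g + (1 / ((n : ℝ) + 1)) • f) x ≤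
      cj M g x - 1 / ((n : ℝ) + 1) * f (z n) := by
    intro n
    have h1 := le_cj g.continuous x (z n)
    have h2 := hz n
    rw [hcoe] at h2
    linarith
  have hlow : ∀ n : ℕ, cj M g x - 1 / ((n : ℝ) + 1) * f y ≤
      cj M (g + (1 / ((n : ℝ) + 1)) • f) x := by
    intro n
    have h1 := le_cj (g + (1 / ((n : ℝ) + 1)) • f).continuous x y
    rw [hcoe] at h1
    linarith only [hy, h1]
  -- convergence of the maximisers
  have hlim0 : Tendsto (fun n : ℕ => 1 / ((n : ℝ) + 1)) atTop (𝓝 0) :=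
    tendsto_one_div_add_atTop_nhds_zero_nat
  have hzlim : Tendsto z atTop (𝓝 y) := by
    apply tendsto_nhds_of_unique_mapClusterPt
    intro w hw
    apply huniq
    have hF : Tendsto (fun n => (inner ℝ x (z n).1 - g (z n) : ℝ)) atTop (𝓝 (cj M g x)) := by
      have hlo : Tendsto (fun n : ℕ => cj M g x - 1 / ((n : ℝ) + 1) * (2 * ‖f‖)) atTop
          (𝓝 (cj M g x)) := by
        have := (hlim0.mul_const (2 * ‖f‖)).const_sub (cj M g x)
        simpa only [one_div, zero_mul, sub_zero] using this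
      refine tendsto_of_tendsto_of_tendsto_of_le_of_le hlo tendsto_const_nhds ?_ ?_
      · intro n
        have h1 := hlow n
        have h2 := hz n
        rw [hcoe] at h2
        have h3 : f y ≤ ‖f‖ := (le_abs_self _).trans (f.norm_coe_le_norm y)
        have h4 : -‖f‖ ≤ f (z n) := by
          have := f.norm_coe_le_norm (z n)
          rw [Real.norm_eq_abs] at this
          linarith only [this, neg_abs_le (f (z n))]
        have h5 : 0 ≤ 1 / ((n : ℝ) + 1) := by (clear * -; positivity)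
        have h6 : 1 / ((n : ℝ) + 1) * f y ≤ 1 / ((n : ℝ) + 1) * ‖f‖ :=
          mul_le_mul_of_nonneg_left h3 h5
        have h7 : 1 / ((n : ℝ) + 1) * (-‖f‖) ≤ 1 / ((n : ℝ) + 1) * f (z n) :=
          mul_le_mul_of_nonneg_left h4 h5
        change cj M g x - 1 / ((n : ℝ) + 1) * (2 * ‖f‖) ≤ inner ℝ x (z n).1 - g (z n)
        linarith only [h1, h2, h6, h7]
      · intro n
        exact le_cj g.continuous x (z n)
    have hc : MapClusterPt (inner ℝ x w.1 - g w : ℝ) atTop
        (fun n => (inner ℝ x (z n).1 - g (z n) : ℝ)) :=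
      hw.continuousAt_comp (f := fun w : closedBall (0 : E d) M => (inner ℝ x w.1 - g w : ℝ))
        (continuous_slope g.continuous x).continuousAt
    have hc2 : ClusterPt (inner ℝ x w.1 - g w : ℝ) (𝓝 (cj M g x)) :=
      ClusterPt.mono hc hF
    exact (eq_of_nhds_neBot hc2).symm
  have hfz : Tendsto (fun n => -f (z n)) atTop (𝓝 (-f y)) :=
    ((f.continuous.tendsto y).comp hzlim).neg
  refine tendsto_of_tendsto_of_tendsto_of_le_of_le tendsto_const_nhds hfz ?_ ?_
  · intro n
    change -f y ≤ ((n : ℝ) + 1) * (cj M (g + (1 / ((n : ℝ) + 1)) • f) x - cj M g x)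
    have h1 := hlow n
    have h2 : -(1 / ((n : ℝ) + 1) * f y) ≤
        cj M (g + (1 / ((n : ℝ) + 1)) • f) x - cj M g x := by linarith only [h1]
    calc -f y = ((n : ℝ) + 1) * (-(1 / ((n : ℝ) + 1) * f y)) := by
          have := (hn n).ne'
          field_simp
      _ ≤ _ := mul_le_mul_of_nonneg_left h2 (hn n).le
  · intro n
    change ((n : ℝ) + 1) * (cj M (g + (1 / ((n : ℝ) + 1)) • f) x - cj M g x) ≤ -f (z n)
    have h1 := hup n
    have h2 : cj M (g + (1 / ((n : ℝ) + 1)) • f) x - cj M g x ≤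
        -(1 / ((n : ℝ) + 1) * f (z n)) := by linarith
    calc ((n : ℝ) + 1) * (cj M (g + (1 / ((n : ℝ) + 1)) • f) x - cj M g x)
        ≤ ((n : ℝ) + 1) * (-(1 / ((n : ℝ) + 1) * f (z n))) :=
          mul_le_mul_of_nonneg_left h2 (hn n).le
      _ = -f (z n) := by
          have := (hn n).ne'
          field_simp

end variation

/-- Existence of optimal potentials and transport maps (Brenier, Gangbo). -/
theorem exists_optimal {R M : ℝ} (hR : 0 ≤ R) (hM : 0 ≤ M) (ς μ : Measure (E d))
    [IsFiniteMeasure ς] [IsFiniteMeasure μ] (hmass : ς univ = μ univ) (hς : ς ≪ volume)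
    (hςR : ς (closedBall 0 R)ᶜ = 0) (hμM : μ (closedBall 0 M)ᶜ = 0) :
    ∃ (ψ : E d → ℝ) (T : E d → E d), LipschitzWith R.toNNReal ψ ∧ Measurable T ∧
      (∀ x, T x ∈ closedBall (0 : E d) M) ∧ ς.map T = μ ∧
      ∀ᵐ x ∂ς, conj M ψ x + ψ (T x) = inner ℝ x (T x) := by
  have hcpt := compactSpace_ball (d := d) M
  have hBm : MeasurableSet (closedBall (0 : E d) M) := measurableSet_closedBall
  set μB : Measure (closedBall (0 : E d) M) := μ.comap Subtype.val with hμB
  have hemb : MeasurableEmbedding (Subtype.val : closedBall (0 : E d) M → E d) :=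
    MeasurableEmbedding.subtype_coe hBm
  have hμrestrict : μ.restrict (closedBall 0 M) = μ := by
    rw [Measure.restrict_eq_self_of_ae_mem]
    rw [ae_iff]
    exact hμM
  have hμBuniv : μB univ = μ univ := by
    rw [hμB, hemb.comap_apply, image_univ, Subtype.range_coe]
    have h1 : μ (closedBall 0 M) + μ (closedBall 0 M)ᶜ = μ univ := measure_add_measure_compl hBm
    rw [hμM, add_zero] at h1
    exact h1
  have hfin : IsFiniteMeasure μB := ⟨by rw [hμBuniv]; exact measure_lt_top μ univ⟩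
  have hmassB : ς univ = μB univ := hmass.trans hμBuniv.symm
  have hintB : ∀ f : E d → ℝ, ∫ y, f y.1 ∂μB = ∫ y, f y ∂μ := by
    intro f
    rw [hμB, integral_subtype_comap hBm, hμrestrict]
  obtain ⟨g0, hg0L, hmin⟩ := exists_minimiser (R := R) (M := M) (ς := ς) (μB := μB) hR hM hmassB hςR
  set u : E d → ℝ := cj M g0 with hu
  have huL : LipschitzWith M.toNNReal u := lipschitz_cj hM g0.continuous
  have huc : Continuous u := huL.continuous
  -- the map
  set G : E d → E d := gradient u with hG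
  have hGm : Measurable G := by
    have h1 : Measurable (fderiv ℝ u) := measurable_fderiv ℝ u
    exact (InnerProductSpace.toDual ℝ (E d)).symm.continuous.measurable.comp h1
  set T : E d → E d := fun x => if ‖G x‖ ≤ M then G x else 0 with hT
  have hTm : Measurable T := by
    apply Measurable.ite _ hGm measurable_const
    exact hGm.norm measurableSet_Iic
  have hTB : ∀ x, T x ∈ closedBall (0 : E d) M := by
    intro x
    rw [mem_closedBall_zero_iff, hT]
    by_cases h : ‖G x‖ ≤ M
    · simp only [h, if_true]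
    · simp only [h, if_false, norm_zero]
      exact hM
  -- a.e. characterisation
  have hdiff : ∀ᵐ x ∂ς, DifferentiableAt ℝ u x := hς.ae_le (huL.ae_differentiableAt)
  have hTchar : ∀ᵐ x ∂ς, ∀ y : closedBall (0 : E d) M, cj M g0 x = inner ℝ x y.1 - g0 y →
      T x = y.1 := by
    filter_upwards [hdiff] with x hx y hy
    have h1 : G x = y.1 := gradient_cj g0.continuous hy hx
    have h2 : ‖G x‖ ≤ M := by
      rw [h1]
      exact mem_closedBall_zero_iff.1 y.2
    rw [hT]
    simp only [h2, if_true]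
    exact h1
  -- extension of the potential
  obtain ⟨ψ, hψL, hψE⟩ : ∃ ψ : E d → ℝ, LipschitzWith R.toNNReal ψ ∧
      ∀ y : closedBall (0 : E d) M, g0 y = ψ y.1 := by
    classical
    set ψ0 : E d → ℝ := fun y => if h : y ∈ closedBall (0 : E d) M then g0 ⟨y, h⟩ else 0 with hψ0
    have h1 : LipschitzOnWith R.toNNReal ψ0 (closedBall 0 M) := by
      intro y hy z hz
      rw [hψ0]
      simp only [hy, hz, dif_pos]
      exact hg0L ⟨y, hy⟩ ⟨z, hz⟩
    obtain ⟨ψ, hψL, hψE⟩ := h1.extend_real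
    refine ⟨ψ, hψL, fun y => ?_⟩
    rw [← hψE y.2, hψ0]
    simp
  have hconj : ∀ x, conj M ψ x = cj M g0 x := by
    intro x
    rw [conj_eq_cj]
    congr 1
    ext y
    exact (hψE y).symm
  -- first variation
  have hvar : ∀ f : closedBall (0 : E d) M →ᵇ ℝ,
      ∫ x, f ⟨T x, hTB x⟩ ∂ς ≤ ∫ y, f y ∂μB := by
    intro f
    have hq : Tendsto (fun n : ℕ => ∫ x, ((n : ℝ) + 1) *
        (cj M (g0 + (1 / ((n : ℝ) + 1)) • f) x - cj M g0 x) ∂ς) atTop
        (𝓝 (∫ x, -f ⟨T x, hTB x⟩ ∂ς)) := by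
      apply tendsto_integral_of_dominated_convergence (fun _ => ‖f‖)
      · intro n
        apply Continuous.aestronglyMeasurable
        have h1 : Continuous (cj M (g0 + (1 / ((n : ℝ) + 1)) • f)) :=
          (lipschitz_cj hM (g0 + (1 / ((n : ℝ) + 1)) • f).continuous).continuous
        exact continuous_const.mul (h1.sub huc)
      · exact integrable_const _
      · intro n
        apply Filter.Eventually.of_forall
        intro x
        have hn : (0 : ℝ) < (n : ℝ) + 1 := by (clear * -; positivity)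
        have hcoe : ∀ (w : closedBall (0 : E d) M),
            (g0 + (1 / ((n : ℝ) + 1)) • f) w = g0 w + 1 / ((n : ℝ) + 1) * f w := by
          intro w
          simp only [one_div, BoundedContinuousFunction.coe_add, BoundedContinuousFunction.coe_smul, smul_eq_mul, Pi.add_apply]
        have hfb : ∀ w, |f w| ≤ ‖f‖ := fun w => f.norm_coe_le_norm w
        have hpos : 0 ≤ 1 / ((n : ℝ) + 1) := by (clear * -; positivity)
        have h1 : cj M (g0 + (1 / ((n : ℝ) + 1)) • f) x ≤
            cj M g0 x + 1 / ((n : ℝ) + 1) * ‖f‖ := by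
          apply cj_le_add hM g0.continuous
          intro w
          rw [hcoe]
          have := mul_le_mul_of_nonneg_left (abs_le.1 (hfb w)).1 hpos
          linarith only [this]
        have h2 : cj M g0 x ≤ cj M (g0 + (1 / ((n : ℝ) + 1)) • f) x +
            1 / ((n : ℝ) + 1) * ‖f‖ := by
          apply cj_le_add hM (g0 + (1 / ((n : ℝ) + 1)) • f).continuous
          intro w
          rw [hcoe]
          have := mul_le_mul_of_nonneg_left (abs_le.1 (hfb w)).2 hpos
          linarith only [this]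
        rw [Real.norm_eq_abs, abs_mul, abs_of_pos hn]
        have h3 : |cj M (g0 + (1 / ((n : ℝ) + 1)) • f) x - cj M g0 x| ≤
            1 / ((n : ℝ) + 1) * ‖f‖ := by
          rw [abs_le]
          constructor <;> linarith only [h1, h2]
        calc ((n : ℝ) + 1) * |cj M (g0 + (1 / ((n : ℝ) + 1)) • f) x - cj M g0 x|
            ≤ ((n : ℝ) + 1) * (1 / ((n : ℝ) + 1) * ‖f‖) := mul_le_mul_of_nonneg_left h3 hn.le
          _ = ‖f‖ := by field_simp
      · filter_upwards [hTchar] with x hx
        obtain ⟨y, hy⟩ := exists_cj hM g0.continuous x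
        have hTy : (⟨T x, hTB x⟩ : closedBall (0 : E d) M) = y := Subtype.ext (hx y hy)
        rw [hTy]
        apply var_lim hM g0 f hy
        intro z hz
        apply Subtype.ext
        rw [← hx z hz, ← hx y hy]
    have hnn : ∀ n : ℕ, 0 ≤ (∫ x, ((n : ℝ) + 1) *
        (cj M (g0 + (1 / ((n : ℝ) + 1)) • f) x - cj M g0 x) ∂ς) + ∫ y, f y ∂μB := by
      intro n
      have hn : (0 : ℝ) < (n : ℝ) + 1 := by (clear * -; positivity)
      have h1 := hmin (g0 + (1 / ((n : ℝ) + 1)) • f)
      have hcoe : ∀ (w : closedBall (0 : E d) M),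
          (g0 + (1 / ((n : ℝ) + 1)) • f) w = g0 w + 1 / ((n : ℝ) + 1) * f w := by
        intro w
        simp only [one_div, BoundedContinuousFunction.coe_add, BoundedContinuousFunction.coe_smul, smul_eq_mul, Pi.add_apply]
      simp only [JJ] at h1
      simp_rw [hcoe] at h1
      rw [integral_add (integrable_bcf g0) ((integrable_bcf f).const_mul _),
        integral_const_mul] at h1
      rw [integral_const_mul, integral_sub
        (integrable_cj hM hςR (g0 + (1 / ((n : ℝ) + 1)) • f).continuous)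
        (integrable_cj hM hςR g0.continuous)]
      have h2 : 0 ≤ ((n : ℝ) + 1) * (((∫ x, cj M (g0 + (1 / ((n : ℝ) + 1)) • f) x ∂ς) -
          ∫ x, cj M g0 x ∂ς) + 1 / ((n : ℝ) + 1) * ∫ y, f y ∂μB) := by
        apply mul_nonneg hn.le
        linarith only [h1]
      have h3 : ((n : ℝ) + 1) * (((∫ x, cj M (g0 + (1 / ((n : ℝ) + 1)) • f) x ∂ς) -
          ∫ x, cj M g0 x ∂ς) + 1 / ((n : ℝ) + 1) * ∫ y, f y ∂μB) =
          ((n : ℝ) + 1) * ((∫ x, cj M (g0 + (1 / ((n : ℝ) + 1)) • f) x ∂ς) -
          ∫ x, cj M g0 x ∂ς) + ∫ y, f y ∂μB := by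
        (clear * -; field_simp)
      rw [h3] at h2
      exact h2
    have hlim := hq.add_const (∫ y, f y ∂μB)
    have hge := ge_of_tendsto' hlim hnn
    rw [integral_neg] at hge
    linarith only [hge]
  have hvar' : ∀ f : closedBall (0 : E d) M →ᵇ ℝ,
      ∫ x, f ⟨T x, hTB x⟩ ∂ς = ∫ y, f y ∂μB := by
    intro f
    apply le_antisymm (hvar f)
    have := hvar (-f)
    simp only [BoundedContinuousFunction.coe_neg, Pi.neg_apply, integral_neg] at this
    linarith only [this]
  have hmap : ς.map T = μ := by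
    apply ext_of_forall_integral_eq_of_IsFiniteMeasure
    intro f
    rw [integral_map hTm.aemeasurable f.continuous.aestronglyMeasurable]
    have h1 := hvar' (f.compContinuous ⟨Subtype.val, continuous_subtype_val⟩)
    rw [← hintB]
    exact h1
  refine ⟨ψ, T, hψL, hTm, hTB, hmap, ?_⟩
  filter_upwards [hTchar] with x hx
  obtain ⟨y, hy⟩ := exists_cj hM g0.continuous x
  rw [hconj, hx y hy, hy, hψE y]
  ring


theorem unif_ac {K : Set (E d)} : unif K ≪ volume := by
  unfold unif
  exact ProbabilityTheory.cond_absolutelyContinuous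

/-- Every optimal map has an optimal potential. -/
theorem optimalMap_potential {K : Set (E d)} (hK : IsCompact K)
    (hKi : (interior K).Nonempty) {R M : ℝ} (hR : 0 ≤ R) (hM : 0 ≤ M)
    (hKR : K ⊆ closedBall 0 R) {μ : Measure (E d)} (hμ : IsProbabilityMeasure μ)
    (hμM : μ (closedBall 0 M)ᶜ = 0) {T : E d → E d} (hT : IsOptimalMap (unif K) μ T) :
    ∃ ψ : E d → ℝ, LipschitzWith R.toNNReal ψ ∧
      ∀ᵐ x ∂(unif K), conj M ψ x + ψ (T x) = inner ℝ x (T x) := by
  have hKm : MeasurableSet K := hK.isClosed.measurableSet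
  have hKpos : volume K ≠ 0 := by
    have h1 : 0 < volume (interior K) := isOpen_interior.measure_pos volume hKi
    exact (lt_of_lt_of_le h1 (measure_mono interior_subset)).ne'
  have hprob : IsProbabilityMeasure (unif K) := by
    unfold unif
    exact ProbabilityTheory.cond_isProbabilityMeasure_of_finite hKpos hK.measure_lt_top.ne
  have hsupp : ∀ᵐ x ∂(unif K), x ∈ K := by
    unfold unif
    exact ProbabilityTheory.ae_cond_mem hKm
  have hςR : (unif K) (closedBall 0 R)ᶜ = 0 := by
    have : ∀ᵐ x ∂(unif K), x ∈ closedBall (0 : E d) R := by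
      filter_upwards [hsupp] with x hx
      exact hKR hx
    rw [ae_iff] at this
    exact this
  obtain ⟨ψ, S, hψL, hSm, hSB, hSmap, hSae⟩ := exists_optimal (R := R) (M := M) hR hM (unif K) μ
    (by rw [measure_univ, measure_univ]) unif_ac hςR hμM
  refine ⟨ψ, hψL, ?_⟩
  obtain ⟨hTm, hTmap, hTmin⟩ := hT
  have hψc : Continuous ψ := hψL.continuous
  have hgc : Continuous (fun y : closedBall (0 : E d) M => ψ y) :=
    hψc.comp continuous_subtype_val
  -- `T x` is in the ball a.e.
  have hTB : ∀ᵐ x ∂(unif K), T x ∈ closedBall (0 : E d) M := by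
    have h1 : ∀ᵐ y ∂((unif K).map T), y ∈ closedBall (0 : E d) M := by
      rw [hTmap, ae_iff]
      exact hμM
    exact ae_of_ae_map hTm.aemeasurable h1
  -- integrability of bounded things
  have hbdd : ∀ (f : E d → ℝ), AEStronglyMeasurable f (unif K) → ∀ C : ℝ,
      (∀ᵐ x ∂(unif K), |f x| ≤ C) → Integrable f (unif K) := by
    intro f hf C hC
    exact Integrable.of_bound hf C (by simpa only [Real.norm_eq_abs] using hC)
  have hxB : ∀ᵐ x ∂(unif K), ‖x‖ ≤ R := by
    filter_upwards [hsupp] with x hx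
    exact mem_closedBall_zero_iff.1 (hKR hx)
  have hcost : ∀ (Q : E d → E d), Measurable Q → (∀ᵐ x ∂(unif K), Q x ∈ closedBall (0 : E d) M) →
      (Integrable (fun x => ‖x - Q x‖ ^ 2) (unif K) ∧ Integrable (fun x => ‖x‖ ^ 2) (unif K) ∧
      Integrable (fun x => (inner ℝ x (Q x) : ℝ)) (unif K) ∧
      Integrable (fun x => ‖Q x‖ ^ 2) (unif K)) := by
    intro Q hQm hQB
    have hQn : ∀ᵐ x ∂(unif K), ‖Q x‖ ≤ M := by
      filter_upwards [hQB] with x hx
      exact mem_closedBall_zero_iff.1 hx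
    refine ⟨?_, ?_, ?_, ?_⟩
    · apply hbdd _ (Measurable.aestronglyMeasurable (by fun_prop)) ((R + M) ^ 2)
      filter_upwards [hxB, hQn] with x h1 h2
      rw [abs_of_nonneg (sq_nonneg _)]
      apply pow_le_pow_left₀ (norm_nonneg _)
      exact (norm_sub_le _ _).trans (add_le_add h1 h2)
    · apply hbdd _ (Measurable.aestronglyMeasurable (by fun_prop)) (R ^ 2)
      filter_upwards [hxB] with x h1
      rw [abs_of_nonneg (sq_nonneg _)]
      exact pow_le_pow_left₀ (norm_nonneg _) h1 2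
    · apply hbdd _ (Measurable.aestronglyMeasurable (by fun_prop)) (R * M)
      filter_upwards [hxB, hQn] with x h1 h2
      exact (abs_real_inner_le_norm _ _).trans (mul_le_mul h1 h2 (norm_nonneg _) hR)
    · apply hbdd _ (Measurable.aestronglyMeasurable (by fun_prop)) (M ^ 2)
      filter_upwards [hQn] with x h1
      rw [abs_of_nonneg (sq_nonneg _)]
      exact pow_le_pow_left₀ (norm_nonneg _) h1 2
  have hSB' : ∀ᵐ x ∂(unif K), S x ∈ closedBall (0 : E d) M := Filter.Eventually.of_forall hSB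
  obtain ⟨cT1, cT2, cT3, cT4⟩ := hcost T hTm hTB
  obtain ⟨cS1, cS2, cS3, cS4⟩ := hcost S hSm hSB'
  -- compare costs as real integrals
  have hle := hTmin S hSm hSmap
  have hconv : ∀ (Q : E d → E d), Integrable (fun x => ‖x - Q x‖ ^ 2) (unif K) →
      ∫⁻ x, ‖x - Q x‖ₑ ^ 2 ∂(unif K) = ENNReal.ofReal (∫ x, ‖x - Q x‖ ^ 2 ∂(unif K)) := by
    intro Q hQ
    rw [ofReal_integral_eq_lintegral_ofReal hQ (Filter.Eventually.of_forall fun x => sq_nonneg _)]
    apply lintegral_congr
    intro x
    rw [ENNReal.ofReal_pow (norm_nonneg _), ofReal_norm]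
  rw [hconv T cT1, hconv S cS1] at hle
  have hle' : ∫ x, ‖x - T x‖ ^ 2 ∂(unif K) ≤ ∫ x, ‖x - S x‖ ^ 2 ∂(unif K) :=
    (ENNReal.ofReal_le_ofReal_iff (integral_nonneg fun x => sq_nonneg _)).1 hle
  have hexp : ∀ (Q : E d → E d), Integrable (fun x => ‖x‖ ^ 2) (unif K) →
      Integrable (fun x => (inner ℝ x (Q x) : ℝ)) (unif K) →
      Integrable (fun x => ‖Q x‖ ^ 2) (unif K) →
      ∫ x, ‖x - Q x‖ ^ 2 ∂(unif K) = (∫ x, ‖x‖ ^ 2 ∂(unif K)) -
        2 * (∫ x, inner ℝ x (Q x) ∂(unif K)) + ∫ x, ‖Q x‖ ^ 2 ∂(unif K) := by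
    intro Q h1 h2 h3
    simp_rw [norm_sub_sq_real]
    have e1 : Integrable (fun x => ‖x‖ ^ 2 - 2 * (inner ℝ x (Q x) : ℝ)) (unif K) :=
      h1.sub (h2.const_mul 2)
    rw [integral_add e1 h3, integral_sub h1 (h2.const_mul 2), integral_const_mul]
  rw [hexp T cT2 cT3 cT4, hexp S cS2 cS3 cS4] at hle'
  have hsq : ∀ (Q : E d → E d), Measurable Q → (unif K).map Q = μ →
      ∫ x, ‖Q x‖ ^ 2 ∂(unif K) = ∫ y, ‖y‖ ^ 2 ∂μ := by
    intro Q hQm hQmap
    rw [← hQmap, integral_map hQm.aemeasurable (Continuous.aestronglyMeasurable (by fun_prop))]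
  rw [hsq T hTm hTmap, hsq S hSm hSmap] at hle'
  have hcorr : ∫ x, inner ℝ x (S x) ∂(unif K) ≤ ∫ x, inner ℝ x (T x) ∂(unif K) := by linarith only [hle']
  -- potentials
  have hconjint : Integrable (conj M ψ) (unif K) := integrable_cj (R := R) hM hςR hgc
  have hψint : ∀ (Q : E d → E d), Measurable Q → (unif K).map Q = μ →
      (∀ᵐ x ∂(unif K), Q x ∈ closedBall (0 : E d) M) →
      Integrable (fun x => ψ (Q x)) (unif K) ∧ ∫ x, ψ (Q x) ∂(unif K) = ∫ y, ψ y ∂μ := by
    intro Q hQm hQmap hQB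
    constructor
    · obtain ⟨C, hC⟩ := (isCompact_closedBall (0 : E d) M).exists_bound_of_continuousOn
        hψc.continuousOn
      apply hbdd _ (hψc.measurable.comp hQm).aestronglyMeasurable C
      filter_upwards [hQB] with x hx
      exact hC _ hx
    · rw [← hQmap, integral_map hQm.aemeasurable hψc.aestronglyMeasurable]
  obtain ⟨iT, eT⟩ := hψint T hTm hTmap hTB
  obtain ⟨iS, eS⟩ := hψint S hSm hSmap hSB'
  have hS1 : ∫ x, inner ℝ x (S x) ∂(unif K) = ∫ x, (conj M ψ x + ψ (S x)) ∂(unif K) := by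
    apply integral_congr_ae
    filter_upwards [hSae] with x hx
    exact hx.symm
  rw [integral_add hconjint iS, eS, ← eT, ← integral_add hconjint iT] at hS1
  have hgap0 : 0 ≤ᵐ[unif K] fun x => (conj M ψ x + ψ (T x)) - inner ℝ x (T x) := by
    filter_upwards [hTB] with x hx
    have := le_cj hgc x ⟨T x, hx⟩
    simp only [Pi.zero_apply]
    have h2 : conj M ψ x = cj M (fun y => ψ y) x := rfl
    rw [h2]
    linarith only [this]
  have hci : Integrable (fun x => conj M ψ x + ψ (T x)) (unif K) := hconjint.add iT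
  have hgapint : Integrable (fun x => (conj M ψ x + ψ (T x)) - inner ℝ x (T x)) (unif K) :=
    hci.sub cT3
  have hgap1 : ∫ x, ((conj M ψ x + ψ (T x)) - inner ℝ x (T x)) ∂(unif K) ≤ 0 := by
    rw [integral_sub hci cT3]
    linarith only [hle', hS1]
  have hgap2 : ∫ x, ((conj M ψ x + ψ (T x)) - inner ℝ x (T x)) ∂(unif K) = 0 :=
    le_antisymm hgap1 (integral_nonneg_of_ae hgap0)
  have hgap3 := (integral_eq_zero_iff_of_nonneg_ae hgap0 hgapint).1 hgap2
  filter_upwards [hgap3] with x hx
  simp only [Pi.zero_apply] at hx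
  linarith only [hx]

end Vale.Agent.P074
end
end
end

section

section

section

open MeasureTheory Set
open scoped ENNReal NNReal Pointwise

namespace Vale.Agent.P074

/-- One-dimensional Brunn-Minkowski, compact case, midpoint form. -/
theorem bm_one_compact {K L C : Set ℝ} (hK : IsCompact K) (hL : IsCompact L)
    (nK : K.Nonempty) (nL : L.Nonempty) (h : ∀ a ∈ K, ∀ b ∈ L, (a + b) / 2 ∈ C) :
    volume K + volume L ≤ 2 * volume C := by
  obtain ⟨a, haK, ha⟩ := hK.exists_isGreatest nK
  obtain ⟨b, hbL, hb⟩ := hL.exists_isLeast nL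
  have h1 : (fun x => x + b) '' K ⊆ (2 : ℝ) • C := by
    rintro _ ⟨x, hx, rfl⟩
    refine ⟨(x + b) / 2, h x hx b hbL, ?_⟩
    simp only [smul_eq_mul]
    ring
  have h2 : (fun y => a + y) '' L ⊆ (2 : ℝ) • C := by
    rintro _ ⟨y, hy, rfl⟩
    refine ⟨(a + y) / 2, h a haK y hy, ?_⟩
    simp only [smul_eq_mul]
    ring
  have c1 : IsCompact ((fun x => x + b) '' K) := hK.image (by fun_prop)
  have c2 : IsCompact ((fun y => a + y) '' L) := hL.image (by fun_prop)
  have hdis : AEDisjoint volume ((fun x => x + b) '' K) ((fun y => a + y) '' L) := by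
    have : ((fun x => x + b) '' K) ∩ ((fun y => a + y) '' L) ⊆ {a + b} := by
      rintro _ ⟨⟨x, hx, rfl⟩, ⟨y, hy, hxy⟩⟩
      have hx' := ha hx
      have hy' := hb hy
      simp only at hxy
      simp only [mem_singleton_iff]
      linarith only [hxy, hy', hx']
    exact measure_mono_null this (by simp)
  have v1 : volume ((fun x => x + b) '' K) = volume K := by
    simp
  have v2 : volume ((fun y => a + y) '' L) = volume L := by
    simp
  have v3 : volume ((2 : ℝ) • C) = 2 * volume C := by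
    rw [Measure.addHaar_smul]
    simp
  calc volume K + volume L = volume ((fun x => x + b) '' K) + volume ((fun y => a + y) '' L) := by
        rw [v1, v2]
    _ = volume (((fun x => x + b) '' K) ∪ ((fun y => a + y) '' L)) := by
        rw [measure_union₀ c2.measurableSet.nullMeasurableSet hdis]
    _ ≤ volume ((2 : ℝ) • C) := measure_mono (union_subset h1 h2)
    _ = 2 * volume C := v3

/-- One-dimensional Brunn-Minkowski, midpoint form. -/
theorem bm_one {A B C : Set ℝ} (hA : MeasurableSet A) (hB : MeasurableSet B)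
    (nA : A.Nonempty) (nB : B.Nonempty) (h : ∀ a ∈ A, ∀ b ∈ B, (a + b) / 2 ∈ C) :
    volume A + volume B ≤ 2 * volume C := by
  have key : ∀ K L : Set ℝ, IsCompact K → IsCompact L → K ⊆ A → L ⊆ B →
      volume K + volume L ≤ 2 * volume C := by
    intro K L hK hL hKA hLB
    obtain ⟨a0, ha0⟩ := nA
    obtain ⟨b0, hb0⟩ := nB
    have hK' : IsCompact (K ∪ {a0}) := hK.union isCompact_singleton
    have hL' : IsCompact (L ∪ {b0}) := hL.union isCompact_singleton
    have := bm_one_compact hK' hL' ⟨a0, by simp⟩ ⟨b0, by simp⟩ (C := C) (by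
      intro a ha b hb
      apply h
      · rcases ha with ha | ha
        · exact hKA ha
        · rw [mem_singleton_iff.mp ha]; exact ha0
      · rcases hb with hb | hb
        · exact hLB hb
        · rw [mem_singleton_iff.mp hb]; exact hb0)
    refine le_trans (add_le_add (measure_mono subset_union_left)
      (measure_mono subset_union_left)) this
  have key2 : ∀ K : Set ℝ, IsCompact K → K ⊆ A → volume K + volume B ≤ 2 * volume C := by
    intro K hK hKA
    have hKfin : volume K ≠ ∞ := hK.measure_lt_top.ne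
    have : volume B ≤ 2 * volume C - volume K := by
      refine le_of_forall_lt fun s hs => ?_
      obtain ⟨L, hLB, hL, hsL⟩ := hB.exists_lt_isCompact hs
      refine lt_of_lt_of_le hsL ?_
      exact ENNReal.le_sub_of_add_le_left hKfin (key K L hK hL hKA hLB)
    calc volume K + volume B ≤ volume K + (2 * volume C - volume K) := by (clear * - this; gcongr)
      _ = 2 * volume C := by
        rw [add_tsub_cancel_of_le]
        exact le_trans (by simp) (key K ∅ hK isCompact_empty hKA (empty_subset _))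
  by_cases hBfin : volume B = ∞
  · have := key2 ∅ isCompact_empty (empty_subset _)
    rw [hBfin] at this
    have h3 : 2 * volume C = ∞ := by
      simpa only [measure_empty, add_top, top_le_iff] using this
    rw [h3]
    exact le_top
  · have : volume A ≤ 2 * volume C - volume B := by
      refine le_of_forall_lt fun s hs => ?_
      obtain ⟨K, hKA, hK, hsK⟩ := hA.exists_lt_isCompact hs
      refine lt_of_lt_of_le hsK ?_
      exact ENNReal.le_sub_of_add_le_right hBfin (key2 K hK hKA)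
    calc volume A + volume B ≤ (2 * volume C - volume B) + volume B := by gcongr
      _ = 2 * volume C := by
        rw [tsub_add_cancel_of_le]
        simpa only [measure_empty, zero_add] using key2 ∅ isCompact_empty (empty_subset _)

theorem four_mul_le_sq (x y : ℝ≥0∞) : 4 * (x * y) ≤ (x + y) ^ 2 := by
  by_cases hx : x = ∞
  · subst hx; simp
  by_cases hy : y = ∞
  · subst hy; simp
  lift x to ℝ≥0 using hx
  lift y to ℝ≥0 using hy
  norm_cast
  rw [← NNReal.coe_le_coe]
  push_cast
  nlinarith [sq_nonneg ((x : ℝ) - y)]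

/-- Normalised one-dimensional Prekopa-Leindler. -/
theorem pl_one_normalized (f g h : ℝ → ℝ≥0∞) (hf : Measurable f) (hg : Measurable g)
    (hh : Measurable h) (hf1 : ⨆ x, f x = 1) (hg1 : ⨆ x, g x = 1)
    (hfg : ∀ x y, f x * g y ≤ h ((x + y) / 2) ^ 2) :
    (∫⁻ x, f x) + (∫⁻ x, g x) ≤ 2 * ∫⁻ x, h x := by
  have hfle : ∀ x, f x ≤ 1 := fun x => hf1 ▸ le_iSup f x
  have hgle : ∀ x, g x ≤ 1 := fun x => hg1 ▸ le_iSup g x
  set k : ℝ → ℝ≥0∞ := fun x => min (h x) 1 with hk
  have hkm : Measurable k := hh.min measurable_const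
  have hk1 : ∀ x, k x ≤ 1 := fun x => min_le_right _ _
  have hfgk : ∀ x y, f x * g y ≤ k ((x + y) / 2) ^ 2 := by
    intro x y
    have h1 : f x * g y ≤ 1 := by
      calc f x * g y ≤ 1 * 1 := mul_le_mul' (hfle x) (hgle y)
        _ = 1 := by simp
    simp only [hk]
    rcases le_total (h ((x + y) / 2)) 1 with h2 | h2
    · rw [min_eq_left h2]; exact hfg x y
    · rw [min_eq_right h2]; simpa only [one_pow, ge_iff_le] using h1
  have hcake : ∀ u : ℝ → ℝ≥0∞, Measurable u → (∀ x, u x ≤ 1) →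
      ∫⁻ x, u x = ∫⁻ t in Ioi (0 : ℝ), volume {x | t < (u x).toReal} := by
    intro u hu hu1
    rw [← lintegral_eq_lintegral_meas_lt volume (Filter.Eventually.of_forall fun x => by
      simp) hu.ennreal_toReal.aemeasurable]
    apply lintegral_congr
    intro x
    rw [ENNReal.ofReal_toReal (ne_top_of_le_ne_top ENNReal.one_ne_top (hu1 x))]
  have hkh : ∫⁻ x, k x ≤ ∫⁻ x, h x := lintegral_mono fun x => min_le_left _ _
  refine le_trans ?_ (mul_le_mul_right hkh 2)
  rw [hcake f hf hfle, hcake g hg hgle, hcake k hkm hk1]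
  have hmeas : ∀ u : ℝ → ℝ≥0∞, Measurable (fun t : ℝ => volume {x | t < (u x).toReal}) := by
    intro u
    apply Antitone.measurable
    intro s t hst
    exact measure_mono fun x hx => lt_of_le_of_lt hst hx
  rw [← lintegral_add_left (hmeas f), ← lintegral_const_mul _ (hmeas k)]
  refine setLIntegral_mono' measurableSet_Ioi ?_
  intro t ht
  have ht0 : 0 < t := ht
  rcases lt_or_ge t 1 with ht1 | ht1
  · apply bm_one
    · exact measurableSet_lt measurable_const hf.ennreal_toReal
    · exact measurableSet_lt measurable_const hg.ennreal_toReal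
    · have : ENNReal.ofReal t < ⨆ x, f x := by
        rw [hf1]
        rw [← ENNReal.ofReal_one]
        exact (ENNReal.ofReal_lt_ofReal_iff one_pos).2 ht1
      obtain ⟨x, hx⟩ := lt_iSup_iff.1 this
      refine ⟨x, ?_⟩
      exact (ENNReal.ofReal_lt_iff_lt_toReal ht0.le
        (ne_top_of_le_ne_top ENNReal.one_ne_top (hfle x))).1 hx
    · have : ENNReal.ofReal t < ⨆ x, g x := by
        rw [hg1]
        rw [← ENNReal.ofReal_one]
        exact (ENNReal.ofReal_lt_ofReal_iff one_pos).2 ht1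
      obtain ⟨x, hx⟩ := lt_iSup_iff.1 this
      refine ⟨x, ?_⟩
      exact (ENNReal.ofReal_lt_iff_lt_toReal ht0.le
        (ne_top_of_le_ne_top ENNReal.one_ne_top (hgle x))).1 hx
    · intro a ha b hb
      simp only [mem_ofPred_eq] at ha hb ⊢
      have h3 := ENNReal.toReal_mono (by
        exact ENNReal.pow_ne_top (ne_top_of_le_ne_top ENNReal.one_ne_top (hk1 _))) (hfgk a b)
      rw [ENNReal.toReal_mul, ENNReal.toReal_pow] at h3
      have h4 : t ^ 2 < (k ((a + b) / 2)).toReal ^ 2 := by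
        calc t ^ 2 = t * t := by ring
          _ < (f a).toReal * (g b).toReal := by
            exact mul_lt_mul'' ha hb ht0.le ht0.le
          _ ≤ _ := h3
      exact lt_of_pow_lt_pow_left₀ 2 ENNReal.toReal_nonneg h4
  · have e1 : {x | t < (f x).toReal} = ∅ := by
      ext x
      simp only [mem_ofPred_eq, mem_empty_iff_false, iff_false, not_lt]
      refine le_trans ?_ ht1
      have := ENNReal.toReal_mono ENNReal.one_ne_top (hfle x)
      simpa only [ge_iff_le, ENNReal.toReal_one] using this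
    have e2 : {x | t < (g x).toReal} = ∅ := by
      ext x
      simp only [mem_ofPred_eq, mem_empty_iff_false, iff_false, not_lt]
      refine le_trans ?_ ht1
      have := ENNReal.toReal_mono ENNReal.one_ne_top (hgle x)
      simpa only [ge_iff_le, ENNReal.toReal_one] using this
    rw [e1, e2]
    simp only [measure_empty, add_zero, zero_le]

theorem pl_one_bdd (f g h : ℝ → ℝ≥0∞) (hf : Measurable f) (hg : Measurable g)
    (hh : Measurable h) (hf1 : ⨆ x, f x ≠ ∞) (hg1 : ⨆ x, g x ≠ ∞)
    (hfg : ∀ x y, f x * g y ≤ h ((x + y) / 2) ^ 2) :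
    (∫⁻ x, f x) * (∫⁻ x, g x) ≤ (∫⁻ x, h x) ^ 2 := by
  by_cases hf0 : ⨆ x, f x = 0
  · have : f = fun _ => 0 := by
      funext x
      have := le_iSup f x
      rw [hf0] at this
      simpa using this
    rw [this]
    simp only [lintegral_const, measure_univ_of_isAddLeftInvariant, zero_mul, zero_le]
  by_cases hg0 : ⨆ x, g x = 0
  · have : g = fun _ => 0 := by
      funext x
      have := le_iSup g x
      rw [hg0] at this
      simpa using this
    rw [this]
    simp only [lintegral_const, measure_univ_of_isAddLeftInvariant, zero_mul, mul_zero, zero_le]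
  obtain ⟨a, ha⟩ : ∃ a : ℝ≥0, (a : ℝ≥0∞) = ⨆ x, f x := ⟨_, ENNReal.coe_toNNReal hf1⟩
  obtain ⟨b, hb⟩ : ∃ b : ℝ≥0, (b : ℝ≥0∞) = ⨆ x, g x := ⟨_, ENNReal.coe_toNNReal hg1⟩
  have ha0 : (a : ℝ≥0∞) ≠ 0 := by rw [ha]; exact hf0
  have hb0 : (b : ℝ≥0∞) ≠ 0 := by rw [hb]; exact hg0
  have ha0' : a ≠ 0 := by exact_mod_cast ha0
  have hb0' : b ≠ 0 := by exact_mod_cast hb0
  set c : ℝ≥0 := NNReal.sqrt (a * b) with hc
  have hcsq : c ^ 2 = a * b := by rw [hc]; exact NNReal.sq_sqrt _
  have hc0' : c ≠ 0 := by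
    intro h0
    rw [h0] at hcsq
    have : a * b = 0 := by rw [← hcsq]; simp
    rcases mul_eq_zero.1 this with h1 | h1
    · exact ha0' h1
    · exact hb0' h1
  have hc0 : (c : ℝ≥0∞) ≠ 0 := by exact_mod_cast hc0'
  have hcsq' : (c : ℝ≥0∞) ^ 2 = a * b := by exact_mod_cast hcsq
  have key := pl_one_normalized (fun x => (a : ℝ≥0∞)⁻¹ * f x) (fun x => (b : ℝ≥0∞)⁻¹ * g x)
    (fun x => (c : ℝ≥0∞)⁻¹ * h x) (hf.const_mul _) (hg.const_mul _) (hh.const_mul _)
    (by rw [← ENNReal.mul_iSup, ← ha]; exact ENNReal.inv_mul_cancel ha0 ENNReal.coe_ne_top)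
    (by rw [← ENNReal.mul_iSup, ← hb]; exact ENNReal.inv_mul_cancel hb0 ENNReal.coe_ne_top)
    (by
      intro x y
      have h1 : ((c : ℝ≥0∞)⁻¹) ^ 2 = (a : ℝ≥0∞)⁻¹ * (b : ℝ≥0∞)⁻¹ := by
        rw [← ENNReal.inv_pow, hcsq', ENNReal.mul_inv (Or.inl ha0) (Or.inl ENNReal.coe_ne_top)]
      calc (a : ℝ≥0∞)⁻¹ * f x * ((b : ℝ≥0∞)⁻¹ * g y)
          = ((a : ℝ≥0∞)⁻¹ * (b : ℝ≥0∞)⁻¹) * (f x * g y) := by ring
        _ ≤ ((a : ℝ≥0∞)⁻¹ * (b : ℝ≥0∞)⁻¹) * h ((x + y) / 2) ^ 2 := by
          exact mul_le_mul_right (hfg x y) _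
        _ = ((c : ℝ≥0∞)⁻¹ * h ((x + y) / 2)) ^ 2 := by
          rw [mul_pow, h1])
  rw [lintegral_const_mul _ hf, lintegral_const_mul _ hg, lintegral_const_mul _ hh] at key
  set F := ∫⁻ x, f x
  set G := ∫⁻ x, g x
  set H := ∫⁻ x, h x
  have h5 : 4 * ((a : ℝ≥0∞)⁻¹ * F * ((b : ℝ≥0∞)⁻¹ * G)) ≤ (2 * ((c : ℝ≥0∞)⁻¹ * H)) ^ 2 :=
    le_trans (four_mul_le_sq _ _) (by (clear * - key; gcongr))
  have h6 : (a * b : ℝ≥0∞) * (4 * ((a : ℝ≥0∞)⁻¹ * F * ((b : ℝ≥0∞)⁻¹ * G))) ≤
      (a * b : ℝ≥0∞) * (2 * ((c : ℝ≥0∞)⁻¹ * H)) ^ 2 := by (clear * - h5; gcongr)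
  have h7 : (a * b : ℝ≥0∞) * (4 * ((a : ℝ≥0∞)⁻¹ * F * ((b : ℝ≥0∞)⁻¹ * G))) = 4 * (F * G) := by
    calc (a * b : ℝ≥0∞) * (4 * ((a : ℝ≥0∞)⁻¹ * F * ((b : ℝ≥0∞)⁻¹ * G)))
        = 4 * ((a : ℝ≥0∞) * (a : ℝ≥0∞)⁻¹ * F * ((b : ℝ≥0∞) * (b : ℝ≥0∞)⁻¹ * G)) := by ring
      _ = 4 * (F * G) := by
        rw [ENNReal.mul_inv_cancel ha0 ENNReal.coe_ne_top,
          ENNReal.mul_inv_cancel hb0 ENNReal.coe_ne_top]
        simp
  have h8 : (a * b : ℝ≥0∞) * (2 * ((c : ℝ≥0∞)⁻¹ * H)) ^ 2 = 4 * H ^ 2 := by
    rw [← hcsq']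
    calc (c : ℝ≥0∞) ^ 2 * (2 * ((c : ℝ≥0∞)⁻¹ * H)) ^ 2
        = 2 ^ 2 * (((c : ℝ≥0∞) * (c : ℝ≥0∞)⁻¹) ^ 2 * H ^ 2) := by ring
      _ = 4 * H ^ 2 := by
        rw [ENNReal.mul_inv_cancel hc0 ENNReal.coe_ne_top]
        norm_num
  rw [h7, h8] at h6
  exact (ENNReal.mul_le_mul_iff_right (by norm_num) (by norm_num)).1 h6

theorem pl_one (f g h : ℝ → ℝ≥0∞) (hf : Measurable f) (hg : Measurable g)
    (hh : Measurable h) (hfg : ∀ x y, f x * g y ≤ h ((x + y) / 2) ^ 2) :
    (∫⁻ x, f x) * (∫⁻ x, g x) ≤ (∫⁻ x, h x) ^ 2 := by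
  have hcut : ∀ u : ℝ → ℝ≥0∞, Measurable u →
      ∫⁻ x, u x = ⨆ n : ℕ, ∫⁻ x, min (u x) n := by
    intro u hu
    rw [← lintegral_iSup (fun n => hu.min measurable_const)
      (fun m n hmn x => min_le_min_left _ (by exact_mod_cast hmn))]
    apply lintegral_congr
    intro x
    apply le_antisymm
    · by_cases hx : u x = ∞
      · rw [hx]
        simp only [top_le_iff, le_top, inf_of_le_right]
        exact ENNReal.iSup_natCast
      · obtain ⟨n, hn⟩ := ENNReal.exists_nat_gt hx
        refine le_trans ?_ (le_iSup _ n)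
        rw [min_eq_left hn.le]
    · exact iSup_le fun n => min_le_left _ _
  have hsup : ∀ (u : ℝ → ℝ≥0∞) (n : ℕ), ⨆ x, min (u x) (n : ℝ≥0∞) ≠ ∞ := by
    intro u n
    refine ne_top_of_le_ne_top (ENNReal.natCast_ne_top n) (iSup_le fun x => min_le_right _ _)
  rw [hcut f hf, hcut g hg, ENNReal.iSup_mul]
  refine iSup_le fun n => ?_
  rw [ENNReal.mul_iSup]
  refine iSup_le fun m => ?_
  refine pl_one_bdd _ _ h (hf.min measurable_const) (hg.min measurable_const) hh
    (hsup f n) (hsup g m) ?_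
  intro x y
  exact le_trans (mul_le_mul' (min_le_left _ _) (min_le_left _ _)) (hfg x y)

theorem pl_pi (n : ℕ) : ∀ (f g h : (Fin n → ℝ) → ℝ≥0∞), Measurable f → Measurable g →
    Measurable h → (∀ x y, f x * g y ≤ h (fun i => (x i + y i) / 2) ^ 2) →
    (∫⁻ x, f x) * (∫⁻ x, g x) ≤ (∫⁻ x, h x) ^ 2 := by
  induction n with
  | zero =>
    intro f g h hf hg hh hfg
    have hv : (volume : Measure (Fin 0 → ℝ)) univ = 1 := by
      simp only [volume_pi, Measure.pi_empty_univ]
    rw [lintegral_unique, lintegral_unique, lintegral_unique, hv]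
    simp only [mul_one]
    have hall : ∀ z w : Fin 0 → ℝ, z = w := fun z w => funext fun i => i.elim0
    obtain ⟨o, ho⟩ : ∃ o : Fin 0 → ℝ, ∀ z, z = o := ⟨fun _ => 0, fun z => hall z _⟩
    have h1 := hfg o o
    rw [ho fun i => (o i + o i) / 2] at h1
    have hgen : ∀ z : Fin 0 → ℝ, f z * g z ≤ h z ^ 2 := by
      intro z
      rw [ho z]
      exact h1
    exact hgen _
  | succ n ih =>
    intro f g h hf hg hh hfg
    set e := MeasurableEquiv.piFinSuccAbove (fun _ : Fin (n + 1) => ℝ) 0 with he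
    have hvp : MeasurePreserving e volume volume :=
      volume_preserving_piFinSuccAbove (fun _ : Fin (n + 1) => ℝ) 0
    have hsplit : ∀ u : (Fin (n + 1) → ℝ) → ℝ≥0∞, Measurable u →
        ∫⁻ x, u x = ∫⁻ a : ℝ, ∫⁻ x : Fin n → ℝ, u (e.symm (a, x)) := by
      intro u hu
      rw [← hvp.symm.lintegral_comp hu]
      exact lintegral_prod _ (hu.comp e.symm.measurable).aemeasurable
    have hmid : ∀ (a b : ℝ) (x y : Fin n → ℝ),
        (fun i => (e.symm (a, x) i + e.symm (b, y) i) / 2) =
          e.symm ((a + b) / 2, fun i => (x i + y i) / 2) := by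
      intro a b x y
      have hes : ∀ (c : ℝ) (z : Fin n → ℝ),
          e.symm (c, z) = (Fin.cons c z : Fin (n + 1) → ℝ) := by
        intro c z
        have h1 : e.symm (c, z) = (0 : Fin (n + 1)).insertNth (α := fun _ => ℝ) c z := rfl
        rw [h1]
        exact Fin.insertNth_zero' c z
      rw [hes, hes, hes]
      funext i
      refine Fin.cases ?_ (fun j => ?_) i
      · simp only [Fin.cons_zero]
      · simp only [Fin.cons_succ]
    have hm2 : ∀ u : (Fin (n + 1) → ℝ) → ℝ≥0∞, Measurable u →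
        Measurable fun a : ℝ => ∫⁻ x : Fin n → ℝ, u (e.symm (a, x)) := by
      intro u hu
      exact (hu.comp e.symm.measurable).lintegral_prod_right'
    rw [hsplit f hf, hsplit g hg, hsplit h hh]
    apply pl_one _ _ _ (hm2 f hf) (hm2 g hg) (hm2 h hh)
    intro a b
    have hsec : ∀ (u : (Fin (n + 1) → ℝ) → ℝ≥0∞) (c : ℝ), Measurable u →
        Measurable fun x : Fin n → ℝ => u (e.symm (c, x)) := by
      intro u c hu
      exact hu.comp (e.symm.measurable.comp measurable_prodMk_left)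
    apply ih _ _ _ (hsec f a hf) (hsec g b hg) (hsec h _ hh)
    intro x y
    have := hfg (e.symm (a, x)) (e.symm (b, y))
    rwa [hmid] at this

/-- Prekopa-Leindler inequality on Euclidean space (midpoint form). -/
theorem prekopa_leindler {d : ℕ} (f g h : EuclideanSpace ℝ (Fin d) → ℝ≥0∞)
    (hf : Measurable f) (hg : Measurable g) (hh : Measurable h)
    (hfg : ∀ x y, f x * g y ≤ h ((2 : ℝ)⁻¹ • (x + y)) ^ 2) :
    (∫⁻ x, f x) * (∫⁻ x, g x) ≤ (∫⁻ x, h x) ^ 2 := by
  have hvp := PiLp.volume_preserving_toLp (Fin d)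
  have htr : ∀ u : EuclideanSpace ℝ (Fin d) → ℝ≥0∞, Measurable u →
      ∫⁻ x, u x = ∫⁻ x : Fin d → ℝ, u (WithLp.toLp 2 x) := by
    intro u hu
    rw [← hvp.lintegral_comp hu]
  have hm : ∀ u : EuclideanSpace ℝ (Fin d) → ℝ≥0∞, Measurable u →
      Measurable fun x : Fin d → ℝ => u (WithLp.toLp 2 x) := by
    intro u hu
    exact hu.comp hvp.measurable
  rw [htr f hf, htr g hg, htr h hh]
  apply pl_pi d _ _ _ (hm f hf) (hm g hg) (hm h hh)
  intro x y
  have := hfg (WithLp.toLp 2 x) (WithLp.toLp 2 y)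
  convert this using 4
  ext i
  simp only [smul_add, PiLp.add_apply, PiLp.smul_apply, smul_eq_mul]
  ring

end Vale.Agent.P074
end
end
end

section

section

section

open MeasureTheory Set Metric
open scoped ENNReal NNReal RealInnerProductSpace

namespace Vale.Agent.P074

variable {d : ℕ}

theorem bddAbove_conj {M : ℝ} {ψ : E d → ℝ} (hψ : Continuous ψ) (x : E d) :
    BddAbove (range fun y : closedBall (0 : E d) M => ⟪x, y.1⟫ - ψ y.1) := by
  have hc : ContinuousOn (fun y : E d => ⟪x, y⟫ - ψ y) (closedBall (0 : E d) M) := by (clear * - hψ; fun_prop)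
  have h := (isCompact_closedBall (0 : E d) M).bddAbove_image hc
  refine h.mono ?_
  rintro _ ⟨y, rfl⟩
  exact ⟨y.1, y.2, rfl⟩

theorem le_conj {M : ℝ} {ψ : E d → ℝ} (hψ : Continuous ψ) (x : E d) {y : E d}
    (hy : y ∈ closedBall (0 : E d) M) : ⟪x, y⟫ - ψ y ≤ conj M ψ x :=
  le_ciSup (bddAbove_conj hψ x) (⟨y, hy⟩ : closedBall (0 : E d) M)

theorem conj_le {M : ℝ} (hM : 0 ≤ M) {ψ : E d → ℝ} {x : E d} {c : ℝ}
    (h : ∀ y ∈ closedBall (0 : E d) M, ⟪x, y⟫ - ψ y ≤ c) : conj M ψ x ≤ c := by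
  have : Nonempty (closedBall (0 : E d) M) := ⟨⟨0, mem_closedBall_self hM⟩⟩
  exact ciSup_le fun y => h y.1 y.2

theorem lipschitzWith_conj {M : ℝ} (hM : 0 ≤ M) {ψ : E d → ℝ} (hψ : Continuous ψ) :
    LipschitzWith M.toNNReal (conj M ψ) := by
  refine LipschitzWith.of_le_add_mul' M fun x z => ?_
  refine conj_le hM fun y hy => ?_
  have h1 := le_conj hψ z hy
  have h2 : ⟪x, y⟫ - ⟪z, y⟫ ≤ M * dist x z := by
    rw [← inner_sub_left, dist_eq_norm, mul_comm]
    refine (real_inner_le_norm _ _).trans ?_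
    exact mul_le_mul_of_nonneg_left (by simpa only [mem_closedBall, dist_zero_right] using hy) (norm_nonneg _)
  linarith

theorem continuous_conj {M : ℝ} (hM : 0 ≤ M) {ψ : E d → ℝ} (hψ : Continuous ψ) :
    Continuous (conj M ψ) := (lipschitzWith_conj hM hψ).continuous

/-- A continuous function is integrable for a finite measure carried by a closed ball. -/
theorem integrable_of_continuous_of_ball {F : Type*} [NormedAddCommGroup F]
    {ς : Measure (E d)} [IsFiniteMeasure ς] {R : ℝ} (hς : ς (closedBall 0 R)ᶜ = 0)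
    {f : E d → F} (hf : Continuous f) : Integrable f ς := by
  obtain ⟨C, hC⟩ := (isCompact_closedBall (0 : E d) R).exists_bound_of_continuousOn
    hf.continuousOn
  refine Integrable.mono' (integrable_const C) hf.aestronglyMeasurable ?_
  have : ∀ᵐ x ∂ς, x ∈ closedBall (0 : E d) R := by
    rw [ae_iff]
    exact hς
  filter_upwards [this] with x hx using hC x hx

theorem ae_mem_ball {ς : Measure (E d)} {R : ℝ} (hς : ς (closedBall 0 R)ᶜ = 0) :
    ∀ᵐ x ∂ς, x ∈ closedBall (0 : E d) R := by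
  rw [ae_iff]
  exact hς

section Dual

variable {R M : ℝ} {ς μ : Measure (E d)}

/-- Lower bound for the dual functional. -/
theorem neg_le_dualFun (hR : 0 ≤ R) (hM : 0 ≤ M) [IsProbabilityMeasure ς]
    [IsProbabilityMeasure μ] (hς : ς (closedBall 0 R)ᶜ = 0) (hμ : μ (closedBall 0 M)ᶜ = 0)
    {ψ : E d → ℝ} (hψ : Continuous ψ) : -(R * M) ≤ dualFun M ς μ ψ := by
  unfold dualFun
  have hi1 : Integrable (conj M ψ) ς := integrable_of_continuous_of_ball hς
    (continuous_conj hM hψ)
  have hi2 : Integrable ψ μ := integrable_of_continuous_of_ball hμ hψ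
  have key : ∀ y ∈ closedBall (0 : E d) M, -(R * M) - ψ y ≤ ∫ x, conj M ψ x ∂ς := by
    intro y hy
    have : ∫ x, (-(R * M) - ψ y) ∂ς ≤ ∫ x, conj M ψ x ∂ς := by
      refine integral_mono_ae (integrable_const _) hi1 ?_
      filter_upwards [ae_mem_ball hς] with x hx
      have h1 := le_conj hψ x hy
      have h2 : -(R * M) ≤ ⟪x, y⟫ := by
        have h3 := abs_real_inner_le_norm x y
        have h4 : ‖x‖ * ‖y‖ ≤ R * M := by
          refine mul_le_mul (by simpa only [mem_closedBall, dist_zero_right] using hx) (by simpa only [mem_closedBall, dist_zero_right] using hy) (norm_nonneg _) hR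
        have := neg_abs_le ⟪x, y⟫
        linarith only [h3, h4, this]
      show -(R * M) - ψ y ≤ conj M ψ x
      linarith only [h1, h2]
    simpa only [tsub_le_iff_right, ge_iff_le, integral_const, probReal_univ, smul_eq_mul, one_mul] using this
  have : ∫ y, (-(R * M) - ∫ x, conj M ψ x ∂ς) ∂μ ≤ ∫ y, ψ y ∂μ := by
    refine integral_mono_ae (integrable_const _) hi2 ?_
    filter_upwards [ae_mem_ball hμ] with y hy
    have := key y hy
    show -(R * M) - ∫ x, conj M ψ x ∂ς ≤ ψ y
    linarith only [this]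
  simp only [integral_const, probReal_univ, smul_eq_mul, one_mul, tsub_le_iff_right] at this
  linarith only [this]

theorem bddBelow_dual (hR : 0 ≤ R) (hM : 0 ≤ M) [IsProbabilityMeasure ς]
    [IsProbabilityMeasure μ] (hς : ς (closedBall 0 R)ᶜ = 0) (hμ : μ (closedBall 0 M)ᶜ = 0) :
    BddBelow {v | ∃ ψ : E d → ℝ, LipschitzWith R.toNNReal ψ ∧ v = dualFun M ς μ ψ} := by
  refine ⟨-(R * M), ?_⟩
  rintro v ⟨ψ, hψ, rfl⟩
  exact neg_le_dualFun hR hM hς hμ hψ.continuous

theorem dualVal_le (hR : 0 ≤ R) (hM : 0 ≤ M) [IsProbabilityMeasure ς]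
    [IsProbabilityMeasure μ] (hς : ς (closedBall 0 R)ᶜ = 0) (hμ : μ (closedBall 0 M)ᶜ = 0)
    {ψ : E d → ℝ} (hψ : LipschitzWith R.toNNReal ψ) : dualVal R M ς μ ≤ dualFun M ς μ ψ :=
  csInf_le (bddBelow_dual hR hM hς hμ) ⟨ψ, hψ, rfl⟩

theorem le_dualVal {c : ℝ} (h : ∀ ψ : E d → ℝ, LipschitzWith R.toNNReal ψ →
    c ≤ dualFun M ς μ ψ) : c ≤ dualVal R M ς μ := by
  refine le_csInf ⟨_, 0, LipschitzWith.const' 0 , rfl⟩ ?_
  rintro v ⟨ψ, hψ, rfl⟩
  exact h ψ hψ

end Dual

/-- The uniform measure is a probability measure. -/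
theorem isProb_unif {K : Set (E d)} (hK : IsCompact K)
    (hKi : (interior K).Nonempty) : IsProbabilityMeasure (unif K) := by
  have h0 : volume K ≠ 0 := by
    have := isOpen_interior.measure_pos (volume : Measure (E d)) hKi
    exact (this.trans_le (measure_mono interior_subset)).ne'
  exact ProbabilityTheory.cond_isProbabilityMeasure_of_finite h0 hK.measure_lt_top.ne

theorem unif_absolutelyContinuous (K : Set (E d)) : unif K ≪ volume :=
  ProbabilityTheory.cond_absolutelyContinuous

theorem unif_compl {K : Set (E d)} (hK : IsCompact K) : unif K Kᶜ = 0 := by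
  unfold unif
  rw [ProbabilityTheory.cond_apply hK.measurableSet]
  simp

theorem unif_ball_compl {K : Set (E d)} (hK : IsCompact K) {R : ℝ}
    (hKR : K ⊆ closedBall 0 R) : unif K (closedBall 0 R)ᶜ = 0 :=
  measure_mono_null (compl_subset_compl.2 hKR) (unif_compl hK)

theorem unif_real_apply {K : Set (E d)} (hK : IsCompact K) {A : Set (E d)} (hA : A ⊆ K) :
    (unif K).real A = volume.real A / volume.real K := by
  unfold unif
  rw [Measure.real, ProbabilityTheory.cond_apply hK.measurableSet, inter_eq_self_of_subset_right hA,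
    ENNReal.toReal_mul, ENNReal.toReal_inv]
  simp only [Measure.real]
  ring

theorem setIntegral_unif {K : Set (E d)} {A : Set (E d)} (hA : A ⊆ K)
    (hAm : MeasurableSet A) {F : Type*} [NormedAddCommGroup F] [NormedSpace ℝ F]
    (f : E d → F) : ∫ x in A, f x ∂(unif K) = (volume.real K)⁻¹ • ∫ x in A, f x := by
  unfold unif ProbabilityTheory.cond
  rw [Measure.restrict_smul, integral_smul_measure, Measure.restrict_restrict hAm,
    inter_eq_self_of_subset_left hA, ENNReal.toReal_inv]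
  rfl

end Vale.Agent.P074
end
end
end

section

section

section

open MeasureTheory Set Metric
open scoped ENNReal NNReal RealInnerProductSpace

namespace Vale.Agent.P074

variable {d : ℕ}

/-- Existence of weights whose cells have prescribed masses. -/
def ExistsWeights (K : Set (E d)) : Prop :=
  ∀ (ι : Type) [Fintype ι] [Nonempty ι] (lam : Measure (E d)) [IsFiniteMeasure lam],
    lam ≪ volume → lam Kᶜ = 0 → ∀ (y : ι → E d), Function.Injective y →
    ∀ m : ι → ℝ, (∀ k, 0 < m k) → ∑ k, m k = lam.real K →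
    ∃ ψ : ι → ℝ, ∀ k, lam.real (cell K y ψ k) = m k

/-- Atomic measures. -/
noncomputable def atomic {I : Type} [Fintype I] (m : I → ℝ) (y : I → E d) : Measure (E d) :=
  ∑ i, ENNReal.ofReal (m i) • Measure.dirac (y i)

section Atomic

variable {I : Type} [Fintype I] {m : I → ℝ} {y : I → E d}

theorem integral_atomic (hm : ∀ i, 0 ≤ m i) (f : E d → ℝ) :
    ∫ x, f x ∂(atomic m y) = ∑ i, m i * f (y i) := by
  unfold atomic
  rw [integral_finsetSum_measure]
  · refine Finset.sum_congr rfl fun i _ => ?_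
    rw [integral_smul_measure, integral_dirac, ENNReal.toReal_ofReal (hm i), smul_eq_mul]
  · intro i _
    exact (integrable_dirac (by simp)).smul_measure (by simp)

theorem isProbabilityMeasure_atomic (hm : ∀ i, 0 ≤ m i) (hsum : ∑ i, m i = 1) :
    IsProbabilityMeasure (atomic m y) := by
  refine ⟨?_⟩
  unfold atomic
  simp only [Measure.coe_finsetSum, Finset.sum_apply, Measure.smul_apply, measure_univ,
    smul_eq_mul, mul_one]
  rw [← ENNReal.ofReal_sum_of_nonneg (fun i _ => hm i), hsum, ENNReal.ofReal_one]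

theorem atomic_compl {S : Set (E d)} (hS : MeasurableSet S) (hy : ∀ i, y i ∈ S) :
    atomic m y Sᶜ = 0 := by
  unfold atomic
  simp only [Measure.coe_finsetSum, Finset.sum_apply, Measure.smul_apply, smul_eq_mul]
  refine Finset.sum_eq_zero fun i _ => ?_
  rw [Measure.dirac_apply' _ hS.compl]
  simp [hy i]

end Atomic

/-- Decomposition of an integral over the cells, for absolutely continuous measures. -/
theorem integral_eq_sum_cell' {ι : Type} [Fintype ι] [Nonempty ι] {K : Set (E d)}
    {ς : Measure (E d)} (hac : ς ≪ volume) (hςK : ς Kᶜ = 0)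
    {y : ι → E d} {ψ : ι → ℝ} {F : Type*} [NormedAddCommGroup F]
    [NormedSpace ℝ F] (hK : IsClosed K) (hy : Function.Injective y) {f : E d → F}
    (hf : Integrable f ς) :
    ∫ x, f x ∂ς = ∑ k, ∫ x in cell K y ψ k, f x ∂ς := by
  have hr : ς.restrict K = ς := by
    rw [Measure.restrict_eq_self_of_ae_mem]
    rw [ae_iff]
    exact hςK
  conv_lhs => rw [← hr, ← iUnion_cell K y ψ]
  rw [integral_iUnion_ae]
  · exact tsum_fintype _
  · intro k
    exact (measurableSet_cell hK).nullMeasurableSet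
  · intro k l hkl
    exact hac (volume_cell_inter (fun h => hkl (hy h)))
  · rw [iUnion_cell]
    exact hf.integrableOn

/-- The data describing a family of barycenters coming from an optimal plan. -/
structure OptBary (R M : ℝ) (ς : Measure (E d)) {I : Type} [Fintype I] (m : I → ℝ)
    (y : I → E d) (b : I → E d) : Prop where
  adm : ∀ z : I → E d, (∀ i, z i ∈ closedBall (0 : E d) M) →
    ∀ ψ : E d → ℝ, LipschitzWith R.toNNReal ψ →
      ∑ i, ⟪b i, z i⟫ ≤ dualFun M ς (atomic m z) ψ
  opt : ∃ ψ : E d → ℝ, LipschitzWith R.toNNReal ψ ∧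
    dualFun M ς (atomic m y) ψ ≤ ∑ i, ⟪b i, y i⟫

section Group

variable {I : Type} [Fintype I] (m : I → ℝ) (y : I → E d)

/-- The index of the distinct value `y i`. -/
def idx (i : I) : range y := ⟨y i, mem_range_self i⟩

/-- The total mass of a distinct value. -/
noncomputable def grp (z : range y) : ℝ := by
  classical
  exact ∑ i with idx y i = z, m i

noncomputable instance : Fintype (range y) := Fintype.ofFinite _

variable {m y}

theorem grp_eq [DecidableEq (range y)] (z : range y) : grp m y z = ∑ i with idx y i = z, m i := by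
  unfold grp
  congr

theorem grp_pos (hm : ∀ i, 0 < m i) (z : range y) : 0 < grp m y z := by
  classical
  obtain ⟨z, i, rfl⟩ := z
  rw [grp_eq]
  exact Finset.sum_pos (fun i _ => hm i) ⟨i, Finset.mem_filter.2 ⟨Finset.mem_univ _, rfl⟩⟩

theorem sum_grp (m : I → ℝ) : ∑ z, grp m y z = ∑ i, m i := by
  classical
  simp only [grp_eq]
  exact Finset.sum_fiberwise _ _ _

/-- Regrouping. -/
theorem sum_group (hm : ∀ i, 0 < m i) (f : range y → ℝ) :
    ∑ i, m i / grp m y (idx y i) * f (idx y i) = ∑ z, f z := by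
  classical
  rw [← Finset.sum_fiberwise (s := Finset.univ) (g := idx y)]
  refine Finset.sum_congr rfl fun z _ => ?_
  have : ∀ i ∈ Finset.univ.filter (fun i => idx y i = z),
      m i / grp m y (idx y i) * f (idx y i) = m i * (f z / grp m y z) := by
    intro i hi
    rw [Finset.mem_filter] at hi
    rw [hi.2]
    ring
  rw [Finset.sum_congr rfl this, ← Finset.sum_mul, ← grp_eq]
  field_simp [(grp_pos hm z).ne']

/-- The barycenters. -/
noncomputable def bary (K : Set (E d)) (ς : Measure (E d)) (m : I → ℝ) (y : I → E d)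
    (ψ : range y → ℝ) (i : I) : E d :=
  (m i / grp m y (idx y i)) • ∫ x in cell K (fun z : range y => z.1) ψ (idx y i), x ∂ς

theorem inner_bary {K : Set (E d)} {ς : Measure (E d)} [IsFiniteMeasure ς] {R : ℝ}
    (hς : ς (closedBall 0 R)ᶜ = 0) (ψ : range y → ℝ) (i : I) (v : E d) :
    ⟪bary K ς m y ψ i, v⟫ = m i / grp m y (idx y i) *
      ∫ x in cell K (fun z : range y => z.1) ψ (idx y i), ⟪x, v⟫ ∂ς := by
  unfold bary
  rw [inner_smul_left, conj_trivial]
  congr 1
  have hi : Integrable (fun x : E d => x)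
      (ς.restrict (cell K (fun z : range y => z.1) ψ (idx y i))) :=
    (integrable_of_continuous_of_ball hς continuous_id).integrableOn
  have h := integral_inner (𝕜 := ℝ) hi v
  rw [real_inner_comm, ← h]
  refine integral_congr_ae (Filter.Eventually.of_forall fun x => ?_)
  exact real_inner_comm x v

theorem optBary_adm [Nonempty I] {K : Set (E d)} (hK : IsCompact K)
    {R M : ℝ} (hM : 0 ≤ M) (hKR : K ⊆ closedBall 0 R)
    {ς : Measure (E d)} [IsProbabilityMeasure ς] (hac : ς ≪ volume) (hςK : ς Kᶜ = 0)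
    (hm : ∀ i, 0 < m i) (ψ : range y → ℝ)
    (hψ : ∀ z, ς.real (cell K (fun z : range y => z.1) ψ z) = grp m y z)
    (z : I → E d) (hz : ∀ i, z i ∈ closedBall (0 : E d) M) (χ : E d → ℝ) (hχ : Continuous χ) :
    ∑ i, ⟪bary K ς m y ψ i, z i⟫ ≤ dualFun M ς (atomic m z) χ := by
  have hς : ς (closedBall 0 R)ᶜ = 0 := measure_mono_null (compl_subset_compl.2 hKR) hςK
  have hic : Integrable (conj M χ) ς := integrable_of_continuous_of_ball hς
    (continuous_conj hM hχ)
  unfold dualFun
  rw [integral_atomic (fun i => (hm i).le)]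
  have hne : Nonempty (range y) := ⟨idx y (Classical.arbitrary I)⟩
  have hinj : Function.Injective (fun z : range y => z.1) := Subtype.val_injective
  rw [integral_eq_sum_cell' (ψ := ψ) hac hςK hK.isClosed hinj hic,
    ← sum_group hm, ← Finset.sum_add_distrib]
  refine Finset.sum_le_sum fun i _ => ?_
  rw [inner_bary hς]
  have hg := grp_pos hm (idx y i)
  have h1 : ∫ x in cell K (fun z : range y => z.1) ψ (idx y i), ⟪x, z i⟫ ∂ς ≤
      ∫ x in cell K (fun z : range y => z.1) ψ (idx y i), conj M χ x ∂ς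
        + grp m y (idx y i) * χ (z i) := by
    have h2 : ∫ x in cell K (fun z : range y => z.1) ψ (idx y i), ⟪x, z i⟫ ∂ς ≤
        ∫ x in cell K (fun z : range y => z.1) ψ (idx y i), (conj M χ x + χ (z i)) ∂ς := by
      refine integral_mono ?_ ?_ ?_
      · exact (integrable_of_continuous_of_ball hς (by fun_prop)).integrableOn
      · exact (hic.add (integrable_const _)).integrableOn
      · intro x
        have := le_conj (M := M) hχ x (hz i)
        show ⟪x, z i⟫ ≤ conj M χ x + χ (z i)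
        linarith only [this]
    rw [integral_add hic.integrableOn (integrable_const _)] at h2
    simpa only [ge_iff_le, integral_const, MeasurableSet.univ, measureReal_restrict_apply, univ_inter, hψ,     smul_eq_mul] using h2
  have h3 : 0 ≤ m i / grp m y (idx y i) := div_nonneg (hm i).le hg.le
  calc m i / grp m y (idx y i) * ∫ x in cell K (fun z : range y => z.1) ψ (idx y i), ⟪x, z i⟫ ∂ς
      ≤ m i / grp m y (idx y i) * (∫ x in cell K (fun z : range y => z.1) ψ (idx y i),
        conj M χ x ∂ς + grp m y (idx y i) * χ (z i)) := mul_le_mul_of_nonneg_left h1 h3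
    _ = _ := by
      field_simp

/-- The Legendre transform over `K` of the potential of a finite family. -/
noncomputable def pot {J : Type} (y : J → E d) (ψ : J → ℝ) (x : E d) : ℝ :=
  ⨆ z : J, (⟪x, y z⟫ - ψ z)

theorem le_pot {J : Type} [Finite J] (y : J → E d) (ψ : J → ℝ) (x : E d) (z : J) :
    ⟪x, y z⟫ - ψ z ≤ pot y ψ x :=
  le_ciSup (f := fun z : J => ⟪x, y z⟫ - ψ z) (Set.finite_range _).bddAbove z

theorem pot_eq_of_mem_cell {J : Type} [Finite J] {K : Set (E d)} {y : J → E d} {ψ : J → ℝ}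
    {x : E d} {z : J} (hx : x ∈ cell K y ψ z) : pot y ψ x = ⟪x, y z⟫ - ψ z := by
  have : Nonempty J := ⟨z⟩
  exact le_antisymm (ciSup_le hx.2) (le_pot y ψ x z)

theorem exists_dual_pot {J : Type} [Finite J] [Nonempty J] {K : Set (E d)}
    (hKne : K.Nonempty) {R M : ℝ} (hM : 0 ≤ M) (hKR : K ⊆ closedBall 0 R)
    (y : J → E d) (ψ : J → ℝ) :
    ∃ χ : E d → ℝ, LipschitzWith R.toNNReal χ ∧ (∀ x ∈ K, conj M χ x ≤ pot y ψ x) ∧
      ∀ z, χ (y z) ≤ ψ z := by
  have : Nonempty K := hKne.to_subtype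
  let z₀ : J := Classical.arbitrary J
  have hbd : ∀ v : E d, BddAbove (range fun x : K => ⟪x.1, v⟫ - pot y ψ x.1) := by
    intro v
    refine ⟨R * ‖v‖ + R * ‖y z₀‖ + ψ z₀, ?_⟩
    rintro _ ⟨x, rfl⟩
    have h1 := le_pot y ψ x.1 z₀
    have hx : ‖x.1‖ ≤ R := by simpa only [mem_closedBall, dist_zero_right] using hKR x.2
    have h2 : ⟪x.1, v⟫ ≤ R * ‖v‖ := (real_inner_le_norm _ _).trans (by (clear * - hx; gcongr))
    have h3 : -(R * ‖y z₀‖) ≤ ⟪x.1, y z₀⟫ := by
      have h4 := abs_real_inner_le_norm x.1 (y z₀)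
      have h5 := neg_abs_le ⟪x.1, y z₀⟫
      have h6 : ‖x.1‖ * ‖y z₀‖ ≤ R * ‖y z₀‖ := by (clear * - hx; gcongr)
      linarith only [h4, h5, h6]
    show ⟪x.1, v⟫ - pot y ψ x.1 ≤ R * ‖v‖ + R * ‖y z₀‖ + ψ z₀
    linarith
  refine ⟨fun v => ⨆ x : K, (⟪x.1, v⟫ - pot y ψ x.1), ?_, ?_, ?_⟩
  · refine LipschitzWith.of_le_add_mul' R fun v w => ?_
    refine ciSup_le fun x => ?_
    have h1 := le_ciSup (hbd w) x
    have h2 : ⟪x.1, v⟫ - ⟪x.1, w⟫ ≤ R * dist v w := by
      rw [← inner_sub_right, dist_eq_norm]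
      refine (real_inner_le_norm _ _).trans ?_
      exact mul_le_mul_of_nonneg_right (by simpa only [mem_closedBall, dist_zero_right] using hKR x.2) (norm_nonneg _)
    linarith only [h1, h2]
  · intro x hx
    refine conj_le hM fun v _ => ?_
    have h1 := le_ciSup (hbd v) (⟨x, hx⟩ : K)
    linarith only [h1]
  · intro z
    refine ciSup_le fun x => ?_
    have := le_pot y ψ x.1 z
    linarith only [this]

theorem optBary_opt [Nonempty I] {K : Set (E d)} (hK : IsCompact K) (hKne : K.Nonempty)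
    {R M : ℝ} (hM : 0 ≤ M) (hKR : K ⊆ closedBall 0 R)
    {ς : Measure (E d)} [IsProbabilityMeasure ς] (hac : ς ≪ volume) (hςK : ς Kᶜ = 0)
    (hm : ∀ i, 0 < m i) (ψ : range y → ℝ)
    (hψ : ∀ z, ς.real (cell K (fun z : range y => z.1) ψ z) = grp m y z) :
    ∃ χ : E d → ℝ, LipschitzWith R.toNNReal χ ∧
      dualFun M ς (atomic m y) χ ≤ ∑ i, ⟪bary K ς m y ψ i, y i⟫ := by
  have hς : ς (closedBall 0 R)ᶜ = 0 := measure_mono_null (compl_subset_compl.2 hKR) hςK
  have hne : Nonempty (range y) := ⟨idx y (Classical.arbitrary I)⟩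
  have hinj : Function.Injective (fun z : range y => z.1) := Subtype.val_injective
  obtain ⟨χ, hχL, hχ1, hχ2⟩ := exists_dual_pot hKne hM hKR (fun z : range y => z.1) ψ
  refine ⟨χ, hχL, ?_⟩
  have hic : Integrable (conj M χ) ς := integrable_of_continuous_of_ball hς
    (continuous_conj hM hχL.continuous)
  unfold dualFun
  rw [integral_atomic (fun i => (hm i).le),
    integral_eq_sum_cell' (ψ := ψ) hac hςK hK.isClosed hinj hic,
    ← sum_group hm, ← Finset.sum_add_distrib]
  refine Finset.sum_le_sum fun i _ => ?_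
  rw [inner_bary hς]
  have hg := grp_pos hm (idx y i)
  have h1 : ∫ x in cell K (fun z : range y => z.1) ψ (idx y i), conj M χ x ∂ς
        + grp m y (idx y i) * χ (y i) ≤
      ∫ x in cell K (fun z : range y => z.1) ψ (idx y i), ⟪x, y i⟫ ∂ς := by
    have h2 : ∫ x in cell K (fun z : range y => z.1) ψ (idx y i), (conj M χ x + χ (y i)) ∂ς ≤
        ∫ x in cell K (fun z : range y => z.1) ψ (idx y i), ⟪x, y i⟫ ∂ς := by
      refine setIntegral_mono_on ?_ ?_ (measurableSet_cell hK.isClosed) ?_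
      · exact (hic.add (integrable_const _)).integrableOn
      · exact (integrable_of_continuous_of_ball hς (by fun_prop)).integrableOn
      · intro x hx
        have h3 := hχ1 x hx.1
        have h4 := hχ2 (idx y i)
        rw [pot_eq_of_mem_cell hx] at h3
        have h5 : (idx y i).1 = y i := rfl
        simp only [h5] at h3 h4
        linarith only [h3, h4]
    rw [integral_add hic.integrableOn (integrable_const _)] at h2
    simpa only [ge_iff_le, integral_const, MeasurableSet.univ, measureReal_restrict_apply, univ_inter, hψ,     smul_eq_mul] using h2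
  have h3 : 0 ≤ m i / grp m y (idx y i) := div_nonneg (hm i).le hg.le
  calc _ = m i / grp m y (idx y i) * (∫ x in cell K (fun z : range y => z.1) ψ (idx y i),
        conj M χ x ∂ς + grp m y (idx y i) * χ (y i)) := by (clear * - hg; field_simp)
    _ ≤ _ := mul_le_mul_of_nonneg_left h1 h3

theorem optBary_bary [Nonempty I] {K : Set (E d)} (hK : IsCompact K) (hKne : K.Nonempty)
    {R M : ℝ} (hM : 0 ≤ M) (hKR : K ⊆ closedBall 0 R)
    {ς : Measure (E d)} [IsProbabilityMeasure ς] (hac : ς ≪ volume) (hςK : ς Kᶜ = 0)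
    (hm : ∀ i, 0 < m i) (ψ : range y → ℝ)
    (hψ : ∀ z, ς.real (cell K (fun z : range y => z.1) ψ z) = grp m y z) :
    OptBary R M ς m y (bary K ς m y ψ) where
  adm := fun z hz χ hχ => optBary_adm hK hM hKR hac hςK hm ψ hψ z hz χ hχ.continuous
  opt := optBary_opt hK hKne hM hKR hac hςK hm ψ hψ

end Group

end Vale.Agent.P074
end
end
end

section

section

section

open MeasureTheory Set Metric
open scoped ENNReal NNReal RealInnerProductSpace

namespace Vale.Agent.P074

variable {d : ℕ}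

/-- Cauchy-Schwarz against the constant function. -/
theorem sq_integral_le {α : Type*} [MeasurableSpace α] {μ : Measure α} [IsFiniteMeasure μ]
    {f : α → ℝ} (hf : Integrable f μ) (hf2 : Integrable (fun x => f x ^ 2) μ) :
    (∫ x, f x ∂μ) ^ 2 ≤ μ.real univ * ∫ x, f x ^ 2 ∂μ := by
  set c := μ.real univ with hc
  set t := ∫ x, f x ∂μ with ht
  have h0 : 0 ≤ ∫ x, (c * f x - t) ^ 2 ∂μ := integral_nonneg fun x => sq_nonneg _
  have h1 : ∫ x, (c * f x - t) ^ 2 ∂μ = c * (c * ∫ x, f x ^ 2 ∂μ - t ^ 2) := by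
    have : ∀ x, (c * f x - t) ^ 2 = c ^ 2 * f x ^ 2 - 2 * c * t * f x + t ^ 2 := fun x => by ring
    simp only [this]
    rw [integral_add, integral_sub, integral_const_mul, integral_const_mul, integral_const]
    · rw [← hc, ← ht, smul_eq_mul]
      ring
    · exact hf2.const_mul _
    · exact hf.const_mul _
    · exact (hf2.const_mul _).sub (hf.const_mul _)
    · exact integrable_const _
  rw [h1] at h0
  rcases (measureReal_nonneg : 0 ≤ μ.real univ).eq_or_lt with h | h
  · have hμ : μ = 0 := by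
      rw [← Measure.measure_univ_eq_zero]
      exact (measureReal_eq_zero_iff).1 h.symm
    have : t = 0 := by rw [ht, hμ, integral_zero_measure]
    rw [this, hc, ← h]
    simp
  · have := nonneg_of_mul_nonneg_right h0 h
    linarith only [this]

section

variable {K : Set (E d)} {σ : E d → ℝ}

theorem GoodDensity.integrable_one (hσ : GoodDensity K σ) (μ : Measure (E d))
    [IsFiniteMeasure μ] : Integrable σ μ := by
  refine Integrable.mono' (integrable_const (3 / 2)) hσ.meas.aestronglyMeasurable ?_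
  filter_upwards with x
  rw [Real.norm_eq_abs, abs_le]
  have h1 := hσ.lower x
  have h2 := hσ.upper x
  constructor <;> linarith only [h1, h2]

theorem GoodDensity.integrable_sub (hσ : GoodDensity K σ) (μ : Measure (E d))
    [IsFiniteMeasure μ] : Integrable (fun x => σ x - 1) μ :=
  (hσ.integrable_one μ).sub (integrable_const _)

theorem GoodDensity.integrable_sq (hσ : GoodDensity K σ) (μ : Measure (E d))
    [IsFiniteMeasure μ] : Integrable (fun x => (σ x - 1) ^ 2) μ := by
  refine Integrable.mono' (integrable_const 1)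
    ((hσ.meas.sub_const 1).pow_const 2).aestronglyMeasurable ?_
  filter_upwards with x
  rw [Real.norm_eq_abs, abs_le]
  have h1 := hσ.lower x
  have h2 := hσ.upper x
  constructor <;> nlinarith only [h1, h2]

theorem setIntegral_src (hσ : GoodDensity K σ) {A : Set (E d)} (hA : MeasurableSet A)
    {F : Type*} [NormedAddCommGroup F] [NormedSpace ℝ F] (f : E d → F) :
    ∫ x in A, f x ∂(src K σ) = ∫ x in A, σ x • f x ∂(unif K) := by
  unfold src
  rw [setIntegral_withDensity_eq_setIntegral_toReal_smul (by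
    exact hσ.meas.ennreal_ofReal) (by simp only [ENNReal.ofReal_lt_top, Filter.eventually_true]) _ hA]
  refine integral_congr_ae (Filter.Eventually.of_forall fun x => ?_)
  have := hσ.lower x
  show (ENNReal.ofReal (σ x)).toReal • f x = σ x • f x
  rw [ENNReal.toReal_ofReal (by linarith)]

theorem isProbabilityMeasure_src (hK : IsCompact K) (hKi : (interior K).Nonempty)
    (hσ : GoodDensity K σ) : IsProbabilityMeasure (src K σ) := by
  have := isProb_unif hK hKi
  refine ⟨?_⟩
  unfold src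
  rw [withDensity_apply _ MeasurableSet.univ, Measure.restrict_univ,
    ← ofReal_integral_eq_lintegral_ofReal (hσ.integrable_one _), hσ.total, ENNReal.ofReal_one]
  filter_upwards with x
  have := hσ.lower x
  show 0 ≤ σ x
  linarith

theorem src_absolutelyContinuous (K : Set (E d)) (σ : E d → ℝ) : src K σ ≪ volume :=
  (withDensity_absolutelyContinuous _ _).trans (unif_absolutelyContinuous K)

theorem src_compl (hK : IsCompact K) : src K σ Kᶜ = 0 :=
  (withDensity_absolutelyContinuous _ _) (unif_compl hK)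

theorem src_real_apply (hσ : GoodDensity K σ) [IsFiniteMeasure (src K σ)] {A : Set (E d)}
    (hA : MeasurableSet A) :
    (src K σ).real A = ∫ x in A, σ x ∂(unif K) := by
  have := setIntegral_src hσ hA (fun _ => (1 : ℝ))
  simpa only [integral_const, MeasurableSet.univ, measureReal_restrict_apply, univ_inter, smul_eq_mul,     mul_one] using this

end

variable {I : Type} [Fintype I] {m : I → ℝ} {y : I → E d} {K : Set (E d)} {σ : E d → ℝ}

theorem bary_stab (hK : IsCompact K) (hKi : (interior K).Nonempty)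
    {R : ℝ} (hKR : K ⊆ closedBall 0 R) {C : ℝ} (hC0 : 0 ≤ C)
    (hC : ∀ (ι : Type) [Fintype ι] (y : ι → E d), Function.Injective y →
      ∀ (ψ ψ' : ι → ℝ),
      (∀ i, 0 < volume.real (cell K y ψ i)) →
      (∀ i, volume.real (cell K y ψ i) ≤ 2 * volume.real (cell K y ψ' i)) →
      (∀ i, volume.real (cell K y ψ' i) ≤ 2 * volume.real (cell K y ψ i)) →
      ∑ i, ‖(∫ x in cell K y ψ' i, x) - ∫ x in cell K y ψ i, x‖ ^ 2
        / volume.real (cell K y ψ i) ≤
      C * ∑ i, (volume.real (cell K y ψ' i) - volume.real (cell K y ψ i)) ^ 2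
        / volume.real (cell K y ψ i))
    (hσ : GoodDensity K σ) (hm : ∀ i, 0 < m i) [Nonempty I] (ψ₁ ψ₂ : range y → ℝ)
    (h1 : ∀ z, (unif K).real (cell K (fun z : range y => z.1) ψ₁ z) = grp m y z)
    (h2 : ∀ z, (src K σ).real (cell K (fun z : range y => z.1) ψ₂ z) = grp m y z) :
    ∑ i, ‖bary K (src K σ) m y ψ₂ i - bary K (unif K) m y ψ₁ i‖ ^ 2 / m i ≤
      4 * (C + R ^ 2) * ∫ x, (σ x - 1) ^ 2 ∂(unif K) := by
  have hpu := isProb_unif hK hKi
  have hps := isProbabilityMeasure_src hK hKi hσ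
  have hne : Nonempty (range y) := ⟨idx y (Classical.arbitrary I)⟩
  have hinj : Function.Injective (fun z : range y => z.1) := Subtype.val_injective
  have hvK : 0 < volume.real K := by
    have h0 : 0 < volume K := by
      have := isOpen_interior.measure_pos (volume : Measure (E d)) hKi
      exact this.trans_le (measure_mono interior_subset)
    exact ENNReal.toReal_pos h0.ne' hK.measure_lt_top.ne
  set ρ := unif K with hρ
  set V := fun z : range y => cell K (fun z : range y => z.1) ψ₁ z with hV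
  set W := fun z : range y => cell K (fun z : range y => z.1) ψ₂ z with hW
  have hVm : ∀ z, MeasurableSet (V z) := fun z => measurableSet_cell hK.isClosed
  have hWm : ∀ z, MeasurableSet (W z) := fun z => measurableSet_cell hK.isClosed
  set D := fun z : range y => ∫ x in W z, (σ x - 1) ^ 2 ∂ρ with hD
  have hDsum : ∑ z, D z = ∫ x, (σ x - 1) ^ 2 ∂ρ :=
    (integral_eq_sum_cell' (ψ := ψ₂) (unif_absolutelyContinuous K) (unif_compl hK) hK.isClosed
      hinj (hσ.integrable_sq ρ)).symm
  have hD0 : ∀ z, 0 ≤ D z := fun z => integral_nonneg fun x => sq_nonneg _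
  have hg : ∀ z, 0 < grp m y z := grp_pos hm
  -- masses
  have hςW : ∀ z, ∫ x in W z, σ x ∂ρ = grp m y z := by
    intro z
    rw [← h2 z, src_real_apply hσ (hWm z)]
  have hW2 : ∀ z, ρ.real (W z) ≤ 2 * grp m y z := by
    intro z
    rw [← hςW z]
    have h3 : ∫ x in W z, (1 / 2 : ℝ) ∂ρ ≤ ∫ x in W z, σ x ∂ρ :=
      integral_mono (integrable_const _) (hσ.integrable_one _) fun x => hσ.lower x
    rw [integral_const, smul_eq_mul, measureReal_restrict_apply_univ] at h3
    linarith only [h3]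
  have hW3 : ∀ z, grp m y z ≤ 2 * ρ.real (W z) := by
    intro z
    rw [← hςW z]
    have h3 : ∫ x in W z, σ x ∂ρ ≤ ∫ x in W z, (3 / 2 : ℝ) ∂ρ :=
      integral_mono (hσ.integrable_one _) (integrable_const _) fun x => hσ.upper x
    rw [integral_const, smul_eq_mul, measureReal_restrict_apply_univ] at h3
    have : 0 ≤ ρ.real (W z) := measureReal_nonneg
    linarith only [h3, this]
  -- Cauchy-Schwarz
  have hcs : ∀ z, (∫ x in W z, |σ x - 1| ∂ρ) ^ 2 ≤ 2 * grp m y z * D z := by
    intro z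
    have h3 := sq_integral_le (μ := ρ.restrict (W z)) (f := fun x => |σ x - 1|)
      (hσ.integrable_sub _).abs (by simpa only [sq_abs] using hσ.integrable_sq (ρ.restrict (W z)))
    simp only [sq_abs, measureReal_restrict_apply_univ] at h3
    exact h3.trans (mul_le_mul_of_nonneg_right (hW2 z) (hD0 z))
  have hdiff : ∀ z, (ρ.real (W z) - ρ.real (V z)) ^ 2 ≤ 2 * grp m y z * D z := by
    intro z
    refine le_trans ?_ (hcs z)
    rw [sq_le_sq, h1 z, ← hςW z]
    have h3 : ρ.real (W z) - ∫ x in W z, σ x ∂ρ = - ∫ x in W z, (σ x - 1) ∂ρ := by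
      rw [integral_sub (hσ.integrable_one _) (integrable_const _), integral_const, smul_eq_mul,
        measureReal_restrict_apply_univ]
      ring
    rw [h3, abs_neg, abs_of_nonneg (integral_nonneg fun x => abs_nonneg _)]
    exact abs_integral_le_integral_abs
  have hmom : ∀ z, ‖(∫ x in W z, x ∂(src K σ)) - ∫ x in W z, x ∂ρ‖ ^ 2 ≤
      2 * R ^ 2 * grp m y z * D z := by
    intro z
    have h3 : (∫ x in W z, x ∂(src K σ)) - ∫ x in W z, x ∂ρ = ∫ x in W z, (σ x - 1) • x ∂ρ := by
      rw [setIntegral_src hσ (hWm z), ← integral_sub]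
      · refine integral_congr_ae (Filter.Eventually.of_forall fun x => ?_)
        simp only
        rw [sub_smul, one_smul]
      · have hb : Integrable (fun x : E d => x) (ρ.restrict (W z)) :=
          (integrable_of_continuous_of_ball (unif_ball_compl hK hKR) continuous_id).integrableOn
        refine Integrable.mono' (hb.norm.const_mul (3 / 2))
          (hσ.meas.aestronglyMeasurable.smul hb.aestronglyMeasurable) ?_
        filter_upwards with x
        rw [norm_smul, Real.norm_eq_abs]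
        refine mul_le_mul_of_nonneg_right ?_ (norm_nonneg _)
        rw [abs_le]
        have h1 := hσ.lower x
        have h2 := hσ.upper x
        constructor <;> linarith only [h1, h2]
      · exact (integrable_of_continuous_of_ball (unif_ball_compl hK hKR)
          continuous_id).integrableOn
    have h4 : ‖∫ x in W z, (σ x - 1) • x ∂ρ‖ ≤ R * ∫ x in W z, |σ x - 1| ∂ρ := by
      rw [← integral_const_mul]
      refine norm_integral_le_of_norm_le ((hσ.integrable_sub _).abs.const_mul _) ?_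
      filter_upwards [ae_restrict_mem (hWm z)] with x hx
      rw [norm_smul, Real.norm_eq_abs, mul_comm]
      refine mul_le_mul_of_nonneg_right ?_ (abs_nonneg _)
      simpa only [mem_closedBall, dist_zero_right] using hKR hx.1
    rw [h3]
    calc ‖∫ x in W z, (σ x - 1) • x ∂ρ‖ ^ 2 ≤ (R * ∫ x in W z, |σ x - 1| ∂ρ) ^ 2 := by
          (clear * - h4; gcongr)
      _ = R ^ 2 * (∫ x in W z, |σ x - 1| ∂ρ) ^ 2 := by ring
      _ ≤ R ^ 2 * (2 * grp m y z * D z) := by
          gcongr
          exact hcs z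
      _ = _ := by ring
  -- the cell inequality
  have hvolV : ∀ z, volume.real (V z) = volume.real K * grp m y z := by
    intro z
    rw [← h1 z, hρ, unif_real_apply hK (cell_subset _ _ _ _)]
    field_simp
    rfl
  have hvolW : ∀ z, volume.real (W z) = volume.real K * ρ.real (W z) := by
    intro z
    rw [hρ, unif_real_apply hK (cell_subset _ _ _ _)]
    field_simp
    rfl
  have hkey := hC (range y) (fun z => z.1) hinj ψ₁ ψ₂
    (fun z => by
      have := hvolV z
      simp only [hV] at this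
      rw [this]
      exact mul_pos hvK (hg z))
    (fun z => by
      have e1 := hvolV z
      have e2 := hvolW z
      simp only [hV] at e1
      simp only [hW] at e2
      rw [e1, e2]
      have := hW3 z
      simp only [hW] at this
      nlinarith only [hvK, this])
    (fun z => by
      have e1 := hvolV z
      have e2 := hvolW z
      simp only [hV] at e1
      simp only [hW] at e2
      rw [e1, e2]
      have := hW2 z
      simp only [hW] at this
      nlinarith only [hvK, this])
  set B := fun z : range y => ∫ x in V z, x ∂ρ with hB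
  set P := fun z : range y => ∫ x in W z, x ∂ρ with hP
  set B' := fun z : range y => ∫ x in W z, x ∂(src K σ) with hB'
  have hBv : ∀ z, ∫ x in V z, x = volume.real K • B z := by
    intro z
    simp only [hB]
    rw [hρ, setIntegral_unif (cell_subset _ _ _ _) (hVm z), smul_smul, mul_inv_cancel₀ hvK.ne',
      one_smul]
  have hPv : ∀ z, ∫ x in W z, x = volume.real K • P z := by
    intro z
    simp only [hP]
    rw [hρ, setIntegral_unif (cell_subset _ _ _ _) (hWm z), smul_smul, mul_inv_cancel₀ hvK.ne',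
      one_smul]
  have hkey2 : ∑ z, ‖P z - B z‖ ^ 2 / grp m y z ≤
      C * ∑ z, (ρ.real (W z) - ρ.real (V z)) ^ 2 / grp m y z := by
    have e1 : ∀ z, ‖(∫ x in W z, x) - ∫ x in V z, x‖ ^ 2 / volume.real (V z) =
        volume.real K * (‖P z - B z‖ ^ 2 / grp m y z) := by
      intro z
      rw [hBv, hPv, ← smul_sub, norm_smul, Real.norm_eq_abs, abs_of_pos hvK, hvolV]
      have := (hg z).ne'
      (clear * - this hvK; field_simp)
    have e2 : ∀ z, (volume.real (W z) - volume.real (V z)) ^ 2 / volume.real (V z) =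
        volume.real K * ((ρ.real (W z) - ρ.real (V z)) ^ 2 / grp m y z) := by
      intro z
      rw [hvolV, hvolW, h1 z]
      have := (hg z).ne'
      (clear * - this hvK; field_simp)
    have hkey' : ∑ z, ‖(∫ x in W z, x) - ∫ x in V z, x‖ ^ 2 / volume.real (V z) ≤
        C * ∑ z, (volume.real (W z) - volume.real (V z)) ^ 2 / volume.real (V z) := hkey
    simp only [e1, e2] at hkey'
    rw [← Finset.mul_sum, ← Finset.mul_sum, ← mul_assoc, mul_comm C, mul_assoc] at hkey'
    exact le_of_mul_le_mul_left hkey' hvK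
  have hterm : ∀ z, ‖B' z - B z‖ ^ 2 / grp m y z ≤
      4 * R ^ 2 * D z + 2 * (‖P z - B z‖ ^ 2 / grp m y z) := by
    intro z
    have e1 : ‖B' z - B z‖ ^ 2 ≤ 2 * ‖B' z - P z‖ ^ 2 + 2 * ‖P z - B z‖ ^ 2 := by
      have e2 : ‖B' z - B z‖ ≤ ‖B' z - P z‖ + ‖P z - B z‖ := norm_sub_le_norm_sub_add_norm_sub _ _ _
      have e3 := norm_nonneg (B' z - B z)
      nlinarith only [e2, e3, sq_nonneg (‖B' z - P z‖ - ‖P z - B z‖)]
    have e4 := hmom z
    calc ‖B' z - B z‖ ^ 2 / grp m y z ≤
          (2 * (2 * R ^ 2 * grp m y z * D z) + 2 * ‖P z - B z‖ ^ 2) / grp m y z := by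
          apply div_le_div_of_nonneg_right _ (hg z).le
          linarith only [e1, e4]
      _ = _ := by
          have := (hg z).ne'
          field_simp
          ring
  have hsumdiff : ∑ z, (ρ.real (W z) - ρ.real (V z)) ^ 2 / grp m y z ≤ 2 * ∑ z, D z := by
    rw [Finset.mul_sum]
    refine Finset.sum_le_sum fun z _ => ?_
    rw [div_le_iff₀ (hg z)]
    have := hdiff z
    linarith only [this]
  have hfin : ∑ i, ‖bary K (src K σ) m y ψ₂ i - bary K ρ m y ψ₁ i‖ ^ 2 / m i =
      ∑ z, ‖B' z - B z‖ ^ 2 / grp m y z := by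
    rw [← sum_group hm]
    refine Finset.sum_congr rfl fun i _ => ?_
    have e1 : bary K (src K σ) m y ψ₂ i - bary K ρ m y ψ₁ i =
        (m i / grp m y (idx y i)) • (B' (idx y i) - B (idx y i)) := by
      unfold bary
      rw [smul_sub]
    rw [e1, norm_smul, Real.norm_eq_abs, abs_of_pos (div_pos (hm i) (hg _))]
    have := (hm i).ne'
    have := (hg (idx y i)).ne'
    (clear R hKR C hC0 hC h2 hinj hvK h1 hρ hV hW hVm hWm D hD hDsum hD0 hςW hW2 hW3 hcs hdiff hmom hvolV hvolW hkey hB P hP hB' hBv hPv hkey2 hterm hsumdiff e1; field_simp)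
  rw [hfin]
  calc ∑ z, ‖B' z - B z‖ ^ 2 / grp m y z
      ≤ ∑ z, (4 * R ^ 2 * D z + 2 * (‖P z - B z‖ ^ 2 / grp m y z)) :=
        Finset.sum_le_sum fun z _ => hterm z
    _ = 4 * R ^ 2 * ∑ z, D z + 2 * ∑ z, ‖P z - B z‖ ^ 2 / grp m y z := by
        rw [Finset.sum_add_distrib, ← Finset.mul_sum, ← Finset.mul_sum]
    _ ≤ 4 * R ^ 2 * ∑ z, D z + 2 * (C * (2 * ∑ z, D z)) := by
        have := mul_le_mul_of_nonneg_left hsumdiff hC0
        linarith only [hkey2, this]
    _ = 4 * (C + R ^ 2) * ∑ z, D z := by ring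
    _ = _ := by rw [hDsum]

end Vale.Agent.P074
end
end
end

section

section

section

open MeasureTheory Set Metric
open scoped ENNReal NNReal

namespace Vale.Agent.P074

/-- Semi-discrete optimal transport: there are weights whose Laguerre cells have prescribed
masses. -/
theorem exists_weights {d : ℕ} {ι : Type} [Fintype ι] [Nonempty ι] {K : Set (E d)}
    (hK : IsCompact K) (lam : Measure (E d)) [IsFiniteMeasure lam] (hac : lam ≪ volume)
    (hlK : lam Kᶜ = 0) (y : ι → E d) (hy : Function.Injective y) (m : ι → ℝ)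
    (hm : ∀ k, 0 ≤ m k) (hsum : ∑ k, m k = lam.real K) :
    ∃ ψ : ι → ℝ, ∀ k, lam.real (cell K y ψ k) = m k := by
  classical
  set M : ℝ := ∑ k, ‖y k‖ with hMdef
  have hM : 0 ≤ M := Finset.sum_nonneg fun k _ => norm_nonneg _
  have hyM : ∀ k, y k ∈ closedBall (0 : E d) M := by
    intro k
    rw [mem_closedBall_zero_iff]
    exact Finset.single_le_sum (f := fun k => ‖y k‖) (fun j _ => norm_nonneg _) (Finset.mem_univ k)
  obtain ⟨R0, hR0⟩ := hK.isBounded.subset_closedBall (0 : E d)
  set R : ℝ := max R0 0 with hRdef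
  have hR : 0 ≤ R := le_max_right _ _
  have hKR : K ⊆ closedBall 0 R := hR0.trans (closedBall_subset_closedBall (le_max_left _ _))
  set μ : Measure (E d) := ∑ k, ENNReal.ofReal (m k) • Measure.dirac (y k) with hμdef
  have hμapply : ∀ s : Set (E d), MeasurableSet s →
      μ s = ∑ k, ENNReal.ofReal (m k) * s.indicator 1 (y k) := by
    intro s hs
    rw [hμdef, Measure.finsetSum_apply]
    apply Finset.sum_congr rfl
    intro k _
    rw [Measure.smul_apply, Measure.dirac_apply' _ hs, smul_eq_mul]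
  have hμuniv : μ univ = ENNReal.ofReal (lam.real K) := by
    rw [hμapply univ MeasurableSet.univ, ← hsum, ENNReal.ofReal_sum_of_nonneg fun k _ => hm k]
    simp
  have hfinμ : IsFiniteMeasure μ := ⟨by rw [hμuniv]; exact ENNReal.ofReal_lt_top⟩
  have hKm : MeasurableSet K := hK.isClosed.measurableSet
  have hlam : lam univ = lam K := by
    rw [← measure_add_measure_compl hKm, hlK, add_zero]
  have hmass : lam univ = μ univ := by
    rw [hμuniv, hlam, measureReal_def, ENNReal.ofReal_toReal (measure_ne_top _ _)]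
  have hlR : lam (closedBall 0 R)ᶜ = 0 := measure_mono_null (compl_subset_compl.2 hKR) hlK
  have hμM : μ (closedBall 0 M)ᶜ = 0 := by
    rw [hμapply _ isClosed_closedBall.measurableSet.compl]
    apply Finset.sum_eq_zero
    intro k _
    rw [indicator_of_notMem (by simpa only [mem_compl_iff, mem_closedBall, dist_zero_right, not_le, not_lt] using hyM k), mul_zero]
  obtain ⟨ψ, T, hψL, hTm, hTB, hmap, hae⟩ :=
    exists_optimal hR hM lam μ hmass hac hlR hμM
  have hψc : Continuous ψ := hψL.continuous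
  have hxK : ∀ᵐ x ∂lam, x ∈ K := by
    rw [ae_iff]
    exact hlK
  refine ⟨fun k => ψ (y k), ?_⟩
  have hge : ∀ k, m k ≤ lam.real (cell K y (fun k => ψ (y k)) k) := by
    intro k
    have h1 : ENNReal.ofReal (m k) ≤ lam (cell K y (fun k => ψ (y k)) k) := by
      calc ENNReal.ofReal (m k) ≤ μ {y k} := by
            rw [hμapply _ (measurableSet_singleton _)]
            have := Finset.single_le_sum
              (f := fun j => ENNReal.ofReal (m j) * ({y k} : Set (E d)).indicator 1 (y j))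
              (fun j _ => zero_le) (Finset.mem_univ k)
            simpa only [indicator_singleton, Pi.one_apply, ge_iff_le, mem_singleton_iff, indicator_of_mem, mul_one] using     this
        _ = lam (T ⁻¹' {y k}) := by
            rw [← hmap, Measure.map_apply hTm (measurableSet_singleton _)]
        _ ≤ lam (cell K y (fun k => ψ (y k)) k) := by
            apply measure_mono_ae
            filter_upwards [hxK, hae] with x hx h2 h3
            change T x = y k at h3
            rw [h3] at h2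
            refine ⟨hx, fun l => ?_⟩
            have h4 : inner ℝ x (y l) - ψ (y l) ≤ conj M ψ x :=
              le_cj (M := M) (g := fun z : closedBall (0 : E d) M => ψ z)
                (hψc.comp continuous_subtype_val) x ⟨y l, hyM l⟩
            change inner ℝ x (y l) - ψ (y l) ≤ inner ℝ x (y k) - ψ (y k)
            linarith only [h2, h4]
    rw [measureReal_def]
    exact (ENNReal.ofReal_le_iff_le_toReal (measure_ne_top _ _)).1 h1
  have htot : ∑ k, lam.real (cell K y (fun k => ψ (y k)) k) = lam.real K := by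
    have h1 : lam (⋃ k, cell K y (fun k => ψ (y k)) k) =
        ∑' k, lam (cell K y (fun k => ψ (y k)) k) := by
      apply measure_iUnion₀
      · intro k l hkl
        exact hac (volume_cell_inter (fun h => hkl (hy h)))
      · intro k
        exact (measurableSet_cell hK.isClosed).nullMeasurableSet
    rw [iUnion_cell, tsum_fintype] at h1
    rw [measureReal_def, h1, ENNReal.toReal_sum fun k _ => measure_ne_top _ _]
    rfl
  have hz : ∑ k, (lam.real (cell K y (fun k => ψ (y k)) k) - m k) = 0 := by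
    rw [Finset.sum_sub_distrib, htot, hsum, sub_self]
  have hz' := (Finset.sum_eq_zero_iff_of_nonneg fun k _ => sub_nonneg.2 (hge k)).1 hz
  intro k
  linarith only [hz' k (Finset.mem_univ k)]

end Vale.Agent.P074
end
end
end

section

section

section

open MeasureTheory Set
open scoped ENNReal NNReal RealInnerProductSpace

namespace Vale.Agent.P074

namespace Translate

variable {d : ℕ}

/-- Volume of the part of a convex set that leaves the set under a small translation. -/
theorem volume_diff_le {K : Set (E d)} (hK : IsCompact K) (hc : Convex ℝ K)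
    {x0 : E d} {r : ℝ} (hr : 0 < r) (hb : Metric.closedBall x0 r ⊆ K) (v : E d) (hv : ‖v‖ ≤ r) :
    volume.real (K \ {x | x + v ∈ K}) ≤ (d * volume.real K / r) * ‖v‖ := by
  set t : ℝ := ‖v‖ / r with ht
  have ht0 : 0 ≤ t := by positivity
  have ht1 : t ≤ 1 := by rw [ht, div_le_one hr]; exact hv
  have hx0 : x0 ∈ K := hb (Metric.mem_closedBall_self hr.le)
  set S : Set (E d) := AffineMap.homothety x0 (1 - t) '' K with hS
  have hSc : IsCompact S := hK.image (AffineMap.homothety_continuous x0 (1 - t))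
  have hSK : S ⊆ K := by
    rintro _ ⟨y, hy, rfl⟩
    rw [AffineMap.homothety_apply]
    have := hc hx0 hy ht0 (by linarith only [ht1] : 0 ≤ 1 - t) (by ring)
    convert this using 1
    simp only [vsub_eq_sub, vadd_eq_add, smul_sub, sub_smul, one_smul]
    abel
  have hSA : S ⊆ {x | x + v ∈ K} := by
    rintro _ ⟨y, hy, rfl⟩
    show AffineMap.homothety x0 (1 - t) y + v ∈ K
    rw [AffineMap.homothety_apply]
    rcases eq_or_lt_of_le ht0 with h0 | hpos
    · have hv0 : v = 0 := by
        have : ‖v‖ = 0 := by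
          have := h0.symm
          rw [ht, div_eq_zero_iff] at this
          rcases this with h | h
          · exact h
          · exact absurd h hr.ne'
        exact norm_eq_zero.mp this
      rw [← h0, hv0]
      simpa using hy
    · have hz : x0 + t⁻¹ • v ∈ K := by
        apply hb
        rw [Metric.mem_closedBall, dist_eq_norm, add_sub_cancel_left, norm_smul, norm_inv,
          Real.norm_eq_abs, abs_of_pos hpos, ht]
        have hvpos : 0 < ‖v‖ := by
          by_contra hcon
          have : ‖v‖ = 0 := le_antisymm (not_lt.mp hcon) (norm_nonneg _)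
          rw [ht, this, zero_div] at hpos
          exact lt_irrefl _ hpos
        rw [inv_div]
        apply le_of_eq
        field_simp
      have := hc hz hy ht0 (by linarith only [ht1] : 0 ≤ 1 - t) (by ring)
      convert this using 1
      simp only [vsub_eq_sub, vadd_eq_add, smul_sub, sub_smul, one_smul, smul_add, smul_smul]
      rw [mul_inv_cancel₀ hpos.ne', one_smul]
      abel
  have hKfin : volume K ≠ ∞ := hK.measure_ne_top
  have hvolS : volume.real S = (1 - t) ^ d * volume.real K := by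
    have h1 : volume S = ENNReal.ofReal |(1 - t) ^ Module.finrank ℝ (E d)| * volume K :=
      Measure.addHaar_image_homothety volume x0 (1 - t) K
    rw [measureReal_def, h1, ENNReal.toReal_mul, ENNReal.toReal_ofReal (abs_nonneg _),
      finrank_euclideanSpace_fin, abs_of_nonneg (pow_nonneg (by linarith only [ht1]) d)]
    rfl
  have hsub : K \ {x | x + v ∈ K} ⊆ K \ S := sdiff_subset_sdiff_right hSA
  have hle : volume.real (K \ {x | x + v ∈ K}) ≤ volume.real (K \ S) :=
    measureReal_mono hsub (ne_top_of_le_ne_top hKfin (measure_mono sdiff_subset))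
  have hdiff : volume.real (K \ S) = volume.real K - volume.real S :=
    measureReal_sdiff hSK hSc.measurableSet hKfin
  have hbern : 1 - d * t ≤ (1 - t) ^ d := by
    have := one_add_mul_le_pow (a := -t) (by linarith only [ht1]) d
    simpa only [sub_eq_add_neg, add_neg_le_iff_le_add, ge_iff_le, mul_neg] using this
  have hKnn : 0 ≤ volume.real K := measureReal_nonneg
  calc volume.real (K \ {x | x + v ∈ K}) ≤ volume.real K - (1 - t) ^ d * volume.real K := by
        rw [← hvolS, ← hdiff]; exact hle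
    _ ≤ volume.real K - (1 - d * t) * volume.real K := by
        have := mul_le_mul_of_nonneg_right hbern hKnn
        linarith only [this]
    _ = (d * volume.real K / r) * ‖v‖ := by rw [ht]; ring

/-- An almost everywhere property on `K` holds at `x + v` whenever `x + v ∈ K`. -/
theorem ae_shift {K : Set (E d)} (hKm : MeasurableSet K) (v : E d) {P : E d → Prop}
    (h : ∀ᵐ y ∂(volume.restrict K), P y) : ∀ᵐ x ∂(volume : Measure (E d)), x + v ∈ K → P (x + v) := by
  rw [ae_restrict_iff' hKm] at h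
  exact (measurePreserving_add_right volume v).quasiMeasurePreserving.ae h

theorem measurableSet_shift {K : Set (E d)} (hKm : MeasurableSet K) (v : E d) :
    MeasurableSet {x | x + v ∈ K} := (measurable_add_const v) hKm

theorem setIntegral_shift {K : Set (E d)} (v : E d) (g : E d → ℝ) :
    ∫ x in K ∩ {x | x + v ∈ K}, g (x + v) = ∫ y in K ∩ {y | y + -v ∈ K}, g y := by
  have h := (measurePreserving_add_right (volume : Measure (E d)) v).setIntegral_preimage_emb
    (measurableEmbedding_addRight v) g (K ∩ {y | y + -v ∈ K})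
  rw [← h]
  congr 2
  ext x
  simp only [mem_inter_iff, mem_ofPred_eq, preimage_inter, preimage_ofPred_eq, add_neg_cancel_right, ofPred_mem_eq, mem_preimage, and_comm]

theorem integrableOn_shift {K : Set (E d)} (v : E d) {g : E d → ℝ} (hg : IntegrableOn g K) :
    IntegrableOn (fun x => g (x + v)) (K ∩ {x | x + v ∈ K}) := by
  have h := ((measurePreserving_add_right (volume : Measure (E d)) v).integrableOn_comp_preimage
    (measurableEmbedding_addRight v) (f := g) (s := K)).2 hg
  exact h.mono_set (fun x hx => hx.2)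

/-- The integral of the increment of a bounded function along a small translation. -/
theorem shift_bound {K : Set (E d)} (hK : IsCompact K) (hc : Convex ℝ K)
    {x0 : E d} {r : ℝ} (hr : 0 < r) (hb : Metric.closedBall x0 r ⊆ K) (v : E d) (hv : ‖v‖ ≤ r)
    {g : E d → ℝ} (hg : IntegrableOn g K) {B : ℝ}
    (hB : ∀ᵐ x ∂(volume.restrict K), |g x| ≤ B) (hB0 : 0 ≤ B) :
    ∫ x in K ∩ {x | x + v ∈ K}, (g (x + v) - g x) ≤ 2 * B * ((d * volume.real K / r) * ‖v‖) := by
  have hKm : MeasurableSet K := hK.measurableSet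
  have hA := measurableSet_shift hKm v
  have hA' := measurableSet_shift hKm (-v)
  have h1 := volume_diff_le hK hc hr hb v hv
  have h2 := volume_diff_le hK hc hr hb (-v) (by rwa [norm_neg])
  rw [norm_neg] at h2
  have hKfin : volume K < ∞ := hK.measure_lt_top
  rw [integral_sub (integrableOn_shift v hg) (hg.mono_set inter_subset_left), setIntegral_shift]
  have e1 := integral_inter_add_sdiff (μ := volume) hA hg
  have e2 := integral_inter_add_sdiff (μ := volume) hA' hg
  have b1 : |∫ x in K \ {x | x + v ∈ K}, g x| ≤ B * volume.real (K \ {x | x + v ∈ K}) := by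
    rw [← Real.norm_eq_abs]
    apply norm_setIntegral_le_of_norm_le_const_ae'
      (lt_of_le_of_lt (measure_mono sdiff_subset) hKfin)
    rw [ae_restrict_iff' hKm] at hB
    filter_upwards [hB] with x hx hx' using hx hx'.1
  have b2 : |∫ x in K \ {x | x + -v ∈ K}, g x| ≤ B * volume.real (K \ {x | x + -v ∈ K}) := by
    rw [← Real.norm_eq_abs]
    apply norm_setIntegral_le_of_norm_le_const_ae'
      (lt_of_le_of_lt (measure_mono sdiff_subset) hKfin)
    rw [ae_restrict_iff' hKm] at hB
    filter_upwards [hB] with x hx hx' using hx hx'.1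
  have c1 := abs_le.1 b1
  have c2 := abs_le.1 b2
  have d1 := mul_le_mul_of_nonneg_left h1 hB0
  have d2 := mul_le_mul_of_nonneg_left h2 hB0
  linarith only [e1, e2, c1, c2, d1, d2]

/-- `T` is a measurable selection of subgradients (relative to `K`) of a continuous function
`φ` on `K`, bounded by `M`. -/
structure SubSel (K : Set (E d)) (φ : E d → ℝ) (T : E d → E d) (M : ℝ) : Prop where
  meas : Measurable T
  bdd : ∀ᵐ x ∂(volume.restrict K), ‖T x‖ ≤ M
  cont : ContinuousOn φ K
  sub : ∀ᵐ x ∂(volume.restrict K), ∀ z ∈ K, φ x + inner ℝ (T x) (z - x) ≤ φ z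

theorem integrableOn_of_bdd {K : Set (E d)} (hK : IsCompact K) {f : E d → ℝ}
    (hf : Measurable f) {C : ℝ} (hC : ∀ᵐ x ∂(volume.restrict K), |f x| ≤ C) :
    IntegrableOn f K :=
  Measure.integrableOn_of_bounded hK.measure_ne_top hf.aestronglyMeasurable
    (by filter_upwards [hC] with x hx using by rwa [Real.norm_eq_abs])

theorem SubSel.abs_inner_le {K : Set (E d)} {φ : E d → ℝ} {T : E d → E d} {M : ℝ}
    (h : SubSel K φ T M) (v : E d) :
    ∀ᵐ x ∂(volume.restrict K), |inner ℝ (T x) v| ≤ M * ‖v‖ := by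
  filter_upwards [h.bdd] with x hx
  exact (abs_real_inner_le_norm _ _).trans (mul_le_mul_of_nonneg_right hx (norm_nonneg _))

theorem SubSel.meas_inner {K : Set (E d)} {φ : E d → ℝ} {T : E d → E d} {M : ℝ}
    (h : SubSel K φ T M) (v : E d) : Measurable fun x => inner ℝ (T x) v :=
  h.meas.inner_const

theorem SubSel.integrable_inner {K : Set (E d)} (hK : IsCompact K)
    {φ : E d → ℝ} {T : E d → E d} {M : ℝ}
    (h : SubSel K φ T M) (v : E d) : IntegrableOn (fun x => inner ℝ (T x) v) K :=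
  integrableOn_of_bdd hK (h.meas_inner v) (h.abs_inner_le v)

/-- The two difference-quotient inequalities. -/
theorem SubSel.two_sided {K : Set (E d)} (hKm : MeasurableSet K)
    {φ : E d → ℝ} {T : E d → E d} {M : ℝ}
    (h : SubSel K φ T M) (v : E d) :
    ∀ᵐ x ∂(volume.restrict (K ∩ {x | x + v ∈ K})),
      inner ℝ (T x) v ≤ φ (x + v) - φ x ∧ φ (x + v) - φ x ≤ inner ℝ (T (x + v)) v := by
  have hA := measurableSet_shift hKm v
  rw [ae_restrict_iff' (hKm.inter hA)]
  have h1 := h.sub
  rw [ae_restrict_iff' hKm] at h1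
  have h2 := ae_shift hKm v h.sub
  filter_upwards [h1, h2] with x hx1 hx2 hx
  have e1 := hx1 hx.1 (x + v) hx.2
  have e2 := hx2 hx.2 x hx.1
  rw [add_sub_cancel_left] at e1
  have : x - (x + v) = -v := by abel
  rw [this, inner_neg_right] at e2
  constructor <;> linarith only [e1, e2]

end Translate

end Vale.Agent.P074
end
end
end

section

section

section

open MeasureTheory Set Metric
open scoped ENNReal NNReal RealInnerProductSpace

namespace Vale.Agent.P074

namespace Final

variable {d : ℕ}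

section Conj

variable {M : ℝ} {ψ : E d → ℝ}

theorem conj_bdd (hψ : Continuous ψ) (x : E d) :
    BddAbove (range fun y : closedBall (0 : E d) M => (inner ℝ x y.1 - ψ y.1)) := by
  have hcont : Continuous fun y : E d => inner ℝ x y - ψ y :=
    (continuous_const.inner continuous_id).sub hψ
  have h := (isCompact_closedBall (0 : E d) M).bddAbove_image hcont.continuousOn
  refine h.mono ?_
  rintro _ ⟨y, rfl⟩
  exact ⟨y.1, y.2, rfl⟩

theorem le_conj (hψ : Continuous ψ) (x : E d) {y : E d} (hy : y ∈ closedBall (0 : E d) M) :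
    inner ℝ x y - ψ y ≤ conj M ψ x :=
  le_ciSup (conj_bdd hψ x) ⟨y, hy⟩

theorem conj_le_add (hM : 0 ≤ M) (hψ : Continuous ψ) (x x' : E d) :
    conj M ψ x ≤ conj M ψ x' + M * ‖x - x'‖ := by
  have : Nonempty (closedBall (0 : E d) M) := ⟨⟨0, mem_closedBall_self hM⟩⟩
  apply ciSup_le
  intro y
  have h1 := le_conj hψ x' y.2
  have h2 : inner ℝ (x - x') y.1 ≤ ‖x - x'‖ * ‖y.1‖ := real_inner_le_norm _ _
  have h3 : ‖y.1‖ ≤ M := mem_closedBall_zero_iff.1 y.2
  rw [inner_sub_left] at h2
  nlinarith [norm_nonneg (x - x')]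

theorem conj_lipschitz (hM : 0 ≤ M) (hψ : Continuous ψ) : LipschitzWith M.toNNReal (conj M ψ) := by
  apply LipschitzWith.of_le_add_mul
  intro x y
  rw [Real.coe_toNNReal M hM, dist_eq_norm]
  exact conj_le_add hM hψ x y

theorem conj_continuous (hM : 0 ≤ M) (hψ : Continuous ψ) : Continuous (conj M ψ) :=
  (conj_lipschitz hM hψ).continuous

end Conj

/-- Translation of an integral on `K` against a function supported well inside `K`. -/
theorem shift_mul {K : Set (E d)} (u : E d) {G : E d → ℝ}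
    (hG : ∀ x, G x ≠ 0 → x ∈ K ∧ x + u ∈ K) (f : E d → ℝ) :
    ∫ x in K, f x * G (x - u) = ∫ x in K, f (x + u) * G x := by
  have h1 : ∫ x in K, f x * G (x - u) = ∫ x, f x * G (x - u) := by
    apply setIntegral_eq_integral_of_forall_compl_eq_zero
    intro x hx
    by_contra hne
    have : G (x - u) ≠ 0 := fun h => hne (by rw [h, mul_zero])
    have := (hG _ this).2
    rw [sub_add_cancel] at this
    exact hx this
  have h2 : ∫ x in K, f (x + u) * G x = ∫ x, f (x + u) * G x := by
    apply setIntegral_eq_integral_of_forall_compl_eq_zero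
    intro x hx
    by_contra hne
    have : G x ≠ 0 := fun h => hne (by rw [h, mul_zero])
    exact hx (hG _ this).1
  rw [h1, h2, ← integral_add_right_eq_self (fun x => f x * G (x - u)) u]
  simp

theorem integral_unif {K : Set (E d)} (f : E d → ℝ) :
    ∫ x, f x ∂(unif K) = (volume.real K)⁻¹ * ∫ x in K, f x := by
  rw [unif, ProbabilityTheory.cond, integral_smul_measure, ENNReal.toReal_inv, smul_eq_mul,
    measureReal_def]

theorem shift_mul_unif {K : Set (E d)} (u : E d) {G : E d → ℝ}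
    (hG : ∀ x, G x ≠ 0 → x ∈ K ∧ x + u ∈ K) (f : E d → ℝ) :
    ∫ x, f x * G (x - u) ∂(unif K) = ∫ x, f (x + u) * G x ∂(unif K) := by
  rw [integral_unif, integral_unif, shift_mul u hG f]

section Unif

variable {K : Set (E d)}

theorem volume_ne_zero (hKi : (interior K).Nonempty) : volume K ≠ 0 := by
  intro h
  have h1 : 0 < volume (interior K) := isOpen_interior.measure_pos volume hKi
  have h2 : volume (interior K) ≤ volume K := measure_mono interior_subset
  rw [h] at h2
  exact absurd h1 (not_lt.2 h2)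

theorem unif_prob (hK : IsCompact K) (hKi : (interior K).Nonempty) :
    IsProbabilityMeasure (unif K) :=
  ProbabilityTheory.cond_isProbabilityMeasure_of_finite (volume_ne_zero hKi) hK.measure_ne_top

theorem ae_unif_iff (hK : IsCompact K) {P : E d → Prop} :
    (∀ᵐ x ∂(unif K), P x) ↔ ∀ᵐ x ∂(volume.restrict K), P x := by
  rw [unif, ProbabilityTheory.cond]
  exact Measure.ae_ennreal_smul_measure_iff (ENNReal.inv_ne_zero.2 hK.measure_ne_top)

theorem ae_mem_unif (hK : IsCompact K) : ∀ᵐ x ∂(unif K), x ∈ K := by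
  rw [ae_unif_iff hK]
  exact ae_restrict_mem hK.measurableSet

theorem integrable_cont (hK : IsCompact K) (hKi : (interior K).Nonempty)
    {f : E d → ℝ} (hf : Continuous f) :
    Integrable f (unif K) := by
  have := unif_prob hK hKi
  obtain ⟨C, hC⟩ := hK.exists_bound_of_continuousOn hf.continuousOn
  apply Integrable.of_bound hf.aestronglyMeasurable C
  filter_upwards [ae_mem_unif hK] with x hx using hC x hx

theorem integrable_mul_bdd {f G : E d → ℝ} (hf : Integrable f (unif K)) (hG : Measurable G)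
    {B : ℝ} (hB : ∀ x, |G x| ≤ B) : Integrable (fun x => f x * G x) (unif K) := by
  have h := Integrable.bdd_mul (f := G) (g := f) hf hG.aestronglyMeasurable
    (c := B) (ae_of_all _ fun x => by rw [Real.norm_eq_abs]; exact hB x)
  exact h.congr (ae_of_all _ fun x => mul_comm _ _)

/-- The dual functional for the perturbed source. -/
theorem dualFun_src {σ : E d → ℝ} (hσ : Measurable σ) (hσ0 : ∀ x, 0 ≤ σ x) {M : ℝ}
    {T : E d → E d} (hT : Measurable T) {ψ : E d → ℝ} (hψ : Continuous ψ) :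
    dualFun M (src K σ) ((unif K).map T) ψ =
      (∫ x, σ x * conj M ψ x ∂(unif K)) + ∫ x, ψ (T x) ∂(unif K) := by
  unfold dualFun src
  rw [integral_withDensity_eq_integral_toReal_smul hσ.ennreal_ofReal
    (ae_of_all _ fun x => ENNReal.ofReal_lt_top),
    integral_map hT.aemeasurable hψ.aestronglyMeasurable]
  congr 1
  apply integral_congr_ae
  filter_upwards with x
  rw [ENNReal.toReal_ofReal (hσ0 x), smul_eq_mul]

theorem dualFun_unif {M : ℝ}
    {T : E d → E d} (hT : Measurable T) {ψ : E d → ℝ} (hψ : Continuous ψ) :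
    dualFun M (unif K) ((unif K).map T) ψ =
      (∫ x, conj M ψ x ∂(unif K)) + ∫ x, ψ (T x) ∂(unif K) := by
  unfold dualFun
  rw [integral_map hT.aemeasurable hψ.aestronglyMeasurable]

theorem integrable_comp {M : ℝ} (hK : IsCompact K) (hKi : (interior K).Nonempty)
    {T : E d → E d} (hT : Measurable T)
    (hTM : ∀ᵐ x ∂(unif K), T x ∈ closedBall (0 : E d) M) {ψ : E d → ℝ} (hψ : Continuous ψ) :
    Integrable (fun x => ψ (T x)) (unif K) := by
  have := unif_prob hK hKi
  obtain ⟨C, hC⟩ := (isCompact_closedBall (0 : E d) M).exists_bound_of_continuousOn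
    hψ.continuousOn
  apply Integrable.of_bound (hψ.measurable.comp hT).aestronglyMeasurable C
  filter_upwards [hTM] with x hx using hC _ hx

theorem integrable_inner {M : ℝ} (hK : IsCompact K) (hKi : (interior K).Nonempty)
    {T : E d → E d} (hT : Measurable T)
    (hTM : ∀ᵐ x ∂(unif K), T x ∈ closedBall (0 : E d) M) {f : E d → E d} (hf : Continuous f) :
    Integrable (fun x => inner ℝ (f x) (T x)) (unif K) := by
  have := unif_prob hK hKi
  obtain ⟨C, hC⟩ := hK.exists_bound_of_continuousOn hf.continuousOn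
  apply Integrable.of_bound (hf.measurable.inner hT).aestronglyMeasurable (C * M)
  filter_upwards [hTM, ae_mem_unif hK] with x hx hxK
  rw [Real.norm_eq_abs]
  have h1 : ‖T x‖ ≤ M := mem_closedBall_zero_iff.1 hx
  have h2 := hC x hxK
  calc |inner ℝ (f x) (T x)| ≤ ‖f x‖ * ‖T x‖ := abs_real_inner_le_norm _ _
    _ ≤ C * M := mul_le_mul h2 h1 (norm_nonneg _) ((norm_nonneg _).trans h2)

/-- Integral of a function against the perturbed density. -/
theorem integral_sigma (hK : IsCompact K) (hKi : (interior K).Nonempty) (u : E d) {G : E d → ℝ}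
    (hGm : Measurable G) {B : ℝ} (hGB : ∀ x, |G x| ≤ B)
    (hG : ∀ x, G x ≠ 0 → x ∈ K ∧ x + u ∈ K) (s : ℝ) {c : E d → ℝ} (hc : Continuous c) :
    ∫ x, (1 - s * G x + s * G (x - u)) * c x ∂(unif K) =
      (∫ x, c x ∂(unif K)) + s * ∫ x, (c (x + u) - c x) * G x ∂(unif K) := by
  have hc' : Continuous fun x => c (x + u) := hc.comp (continuous_id.add continuous_const)
  have i0 := integrable_cont hK hKi hc
  have i1 := integrable_mul_bdd i0 hGm hGB
  have i2 := integrable_mul_bdd (integrable_cont hK hKi hc') hGm hGB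
  have i3 : Integrable (fun x => c x * G (x - u)) (unif K) :=
    integrable_mul_bdd i0 (hGm.comp (measurable_sub_const u)) (fun x => hGB _)
  have e1 : ∫ x, (1 - s * G x + s * G (x - u)) * c x ∂(unif K) =
      ∫ x, (c x - s * (c x * G x) + s * (c x * G (x - u))) ∂(unif K) := by
    apply integral_congr_ae
    filter_upwards with x
    ring
  have e2 : ∫ x, (c (x + u) - c x) * G x ∂(unif K) =
      (∫ x, c (x + u) * G x ∂(unif K)) - ∫ x, c x * G x ∂(unif K) := by
    rw [← integral_sub i2 i1]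
    apply integral_congr_ae
    filter_upwards with x
    ring
  have e3 := shift_mul_unif u hG c
  have i01 : Integrable (fun x => c x - s * (c x * G x)) (unif K) := i0.sub (i1.const_mul s)
  rw [e1, integral_add i01 (i3.const_mul s), integral_sub i0 (i1.const_mul s),
    integral_const_mul, integral_const_mul, e3, e2]
  ring

/-- Weak duality for the perturbed source, with the explicit competitor coupling. -/
theorem lower_bound {M : ℝ} (hM : 0 ≤ M) (hK : IsCompact K) (hKi : (interior K).Nonempty)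
    (u : E d) {G : E d → ℝ}
    (hGm : Measurable G) {B : ℝ} (hGB : ∀ x, |G x| ≤ B) (hG0 : ∀ x, 0 ≤ G x)
    (hG : ∀ x, G x ≠ 0 → x ∈ K ∧ x + u ∈ K) {s : ℝ} (hs : 0 ≤ s) (hsG : ∀ x, s * G x ≤ 1)
    {T : E d → E d} (hT : Measurable T) (hTM : ∀ᵐ x ∂(unif K), T x ∈ closedBall (0 : E d) M)
    {ψ : E d → ℝ} (hψ : Continuous ψ) :
    (∫ x, inner ℝ x (T x) ∂(unif K)) + s * ∫ x, inner ℝ u (T x) * G x ∂(unif K) ≤
      dualFun M (src K (fun x => 1 - s * G x + s * G (x - u))) ((unif K).map T) ψ := by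
  have hσm : Measurable fun x => 1 - s * G x + s * G (x - u) :=
    (measurable_const.sub (hGm.const_mul s)).add ((hGm.comp (measurable_sub_const u)).const_mul s)
  have hσ0 : ∀ x, 0 ≤ 1 - s * G x + s * G (x - u) := by
    intro x
    have h1 := hsG x
    have h2 := mul_nonneg hs (hG0 (x - u))
    linarith
  rw [dualFun_src hσm hσ0 hT hψ]
  have hcc := conj_continuous hM hψ
  have hc' : Continuous fun x => conj M ψ (x + u) := hcc.comp (continuous_id.add continuous_const)
  rw [integral_sigma hK hKi u hGm hGB hG s hcc]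
  have i0 := integrable_cont hK hKi hcc
  have i1 := integrable_mul_bdd ((integrable_cont hK hKi hc').sub i0) hGm hGB
  have i2 := integrable_comp hK hKi hT hTM hψ
  have i3 := integrable_inner hK hKi hT hTM (f := fun x => x) continuous_id
  have i4 := integrable_mul_bdd (integrable_inner hK hKi hT hTM (f := fun _ => u)
    continuous_const) hGm hGB
  rw [← integral_const_mul, ← integral_const_mul, ← integral_add i3 (i4.const_mul s)]
  have i1' : Integrable (fun x => s * ((conj M ψ (x + u) - conj M ψ x) * G x)) (unif K) :=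
    i1.const_mul s
  have i01 : Integrable (fun x => conj M ψ x + s * ((conj M ψ (x + u) - conj M ψ x) * G x))
    (unif K) := i0.add i1'
  rw [← integral_add i0 i1', ← integral_add i01 i2]
  apply integral_mono_ae (i3.add (i4.const_mul s)) (i01.add i2)
  filter_upwards [hTM] with x hx
  have h1 := le_conj hψ x hx
  have h2 := le_conj hψ (x + u) hx
  rw [inner_add_left] at h2
  have h3 := mul_nonneg hs (hG0 x)
  have h4 := hsG x
  show inner ℝ x (T x) + s * (inner ℝ u (T x) * G x) ≤
    conj M ψ x + s * ((conj M ψ (x + u) - conj M ψ x) * G x) + ψ (T x)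
  nlinarith only [h2, h3, h1, h4]

theorem subSel_of_eq {M : ℝ} (hM : 0 ≤ M) (hK : IsCompact K)
    {T : E d → E d} (hT : Measurable T) (hTM : ∀ᵐ x ∂(unif K), T x ∈ closedBall (0 : E d) M)
    {ψ : E d → ℝ} (hψ : Continuous ψ)
    (he : ∀ᵐ x ∂(unif K), conj M ψ x + ψ (T x) = inner ℝ x (T x)) :
    Translate.SubSel K (conj M ψ) T M where
  meas := hT
  bdd := by
    rw [ae_unif_iff hK] at hTM
    filter_upwards [hTM] with x hx using mem_closedBall_zero_iff.1 hx
  cont := (conj_continuous hM hψ).continuousOn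
  sub := by
    rw [ae_unif_iff hK] at hTM he
    filter_upwards [hTM, he] with x hx hx' z _
    have h1 := le_conj hψ z hx
    rw [inner_sub_right, real_inner_comm z, real_inner_comm x]
    linarith only [hx', h1]

theorem lower_bound_unif {M : ℝ} (hM : 0 ≤ M) (hK : IsCompact K) (hKi : (interior K).Nonempty)
    {T : E d → E d} (hT : Measurable T) (hTM : ∀ᵐ x ∂(unif K), T x ∈ closedBall (0 : E d) M)
    {ψ : E d → ℝ} (hψ : Continuous ψ) :
    (∫ x, inner ℝ x (T x) ∂(unif K)) ≤ dualFun M (unif K) ((unif K).map T) ψ := by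
  rw [dualFun_unif hT hψ]
  have i0 := integrable_cont hK hKi (conj_continuous hM hψ)
  have i2 := integrable_comp hK hKi hT hTM hψ
  have i3 := integrable_inner hK hKi hT hTM (f := fun x => x) continuous_id
  rw [← integral_add i0 i2]
  apply integral_mono_ae i3 (i0.add i2)
  filter_upwards [hTM] with x hx
  have h1 := le_conj hψ x hx
  show inner ℝ x (T x) ≤ conj M ψ x + ψ (T x)
  linarith

theorem dualVal_unif_le {R M : ℝ} (hM : 0 ≤ M) (hK : IsCompact K) (hKi : (interior K).Nonempty)
    {T : E d → E d} (hT : Measurable T) (hTM : ∀ᵐ x ∂(unif K), T x ∈ closedBall (0 : E d) M)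
    {ψ : E d → ℝ} (hψ : LipschitzWith R.toNNReal ψ)
    (he : ∀ᵐ x ∂(unif K), conj M ψ x + ψ (T x) = inner ℝ x (T x)) :
    dualVal R M (unif K) ((unif K).map T) ≤ ∫ x, inner ℝ x (T x) ∂(unif K) := by
  apply csInf_le
  · refine ⟨∫ x, inner ℝ x (T x) ∂(unif K), ?_⟩
    rintro _ ⟨χ, hχ, rfl⟩
    exact lower_bound_unif hM hK hKi hT hTM hχ.continuous
  · refine ⟨ψ, hψ, ?_⟩
    rw [dualFun_unif hT hψ.continuous,
      ← integral_add (integrable_cont hK hKi (conj_continuous hM hψ.continuous))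
        (integrable_comp hK hKi hT hTM hψ.continuous)]
    apply integral_congr_ae
    filter_upwards [he] with x hx using hx.symm

theorem le_dualVal_unif {R M : ℝ} (hM : 0 ≤ M) (hK : IsCompact K) (hKi : (interior K).Nonempty)
    {T : E d → E d} (hT : Measurable T) (hTM : ∀ᵐ x ∂(unif K), T x ∈ closedBall (0 : E d) M) :
    ∫ x, inner ℝ x (T x) ∂(unif K) ≤ dualVal R M (unif K) ((unif K).map T) := by
  apply le_csInf
  · exact ⟨_, fun _ => 0, LipschitzWith.const' 0, rfl⟩
  · rintro _ ⟨χ, hχ, rfl⟩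
    exact lower_bound_unif hM hK hKi hT hTM hχ.continuous

/-- Quadratic inequality. -/
theorem sq_le_of_sq_le {a P Q : ℝ} (h : a ^ 2 ≤ P + Q * a) : a ^ 2 ≤ 2 * P + Q ^ 2 := by
  nlinarith only [h, sq_nonneg (a - Q)]

/-- Comparison of the increments of the potential with the transport map. -/
theorem F_bound {M : ℝ} (hM : 0 ≤ M) (hK : IsCompact K) (hKc : Convex ℝ K)
    (hKi : (interior K).Nonempty) {x0 : E d} {r : ℝ} (hr : 0 < r) (hb : closedBall x0 r ⊆ K)
    {T₀ : E d → E d} (hT₀ : Measurable T₀)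
    (hT₀M : ∀ᵐ x ∂(unif K), T₀ x ∈ closedBall (0 : E d) M)
    {ψ₀ : E d → ℝ} (hψ₀ : Continuous ψ₀)
    (he₀ : ∀ᵐ x ∂(unif K), conj M ψ₀ x + ψ₀ (T₀ x) = inner ℝ x (T₀ x))
    {u : E d} {h : ℝ} (hun : ‖u‖ = h) (h0 : 0 < h) (hhr : h ≤ r) {G : E d → ℝ}
    (hGm : Measurable G) (hG0 : ∀ x, 0 ≤ G x) (hG2 : ∀ x, G x ≤ 2 * M)
    (hGs : ∀ x, G x ≠ 0 → x ∈ K ∧ x + u ∈ K) :
    ∫ x, (conj M ψ₀ (x + u) - conj M ψ₀ x) * G x ∂(unif K) ≤
      (∫ x, inner ℝ u (T₀ x) * G x ∂(unif K)) + 4 * M ^ 2 * (d / r) * h ^ 2 := by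
  have hKm : MeasurableSet K := hK.measurableSet
  have hvolK : 0 < volume.real K :=
    ENNReal.toReal_pos (volume_ne_zero hKi) hK.measure_ne_top
  have hGB : ∀ x, |G x| ≤ 2 * M := fun x => by rw [abs_of_nonneg (hG0 x)]; exact hG2 x
  set A : Set (E d) := {x | x + u ∈ K} with hA
  have hc₀ := conj_continuous hM hψ₀
  have hsel := subSel_of_eq hM hK hT₀ hT₀M hψ₀ he₀
  have hz : ∀ f : E d → ℝ, ∫ x in K, f x * G x = ∫ x in K ∩ A, f x * G x := by
    intro f
    apply setIntegral_eq_of_subset_of_forall_sdiff_eq_zero hKm inter_subset_left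
    intro x hx
    by_contra hcon
    have hGx : G x ≠ 0 := fun hh => hcon (by rw [hh, mul_zero])
    exact hx.2 (hGs x hGx)
  have hi := hsel.integrable_inner hK u
  have hsb := Translate.shift_bound hK hKc hr hb u (by rw [hun]; exact hhr) hi
    (hsel.abs_inner_le u) (by (clear * - hM; positivity))
  rw [hun] at hsb
  have j0 : IntegrableOn (fun x => inner ℝ (T₀ (x + u)) u - inner ℝ (T₀ x) u) (K ∩ A) :=
    (Translate.integrableOn_shift u hi).sub (hi.mono_set inter_subset_left)
  have j1 : IntegrableOn (fun x => inner ℝ u (T₀ x) * G x) (K ∩ A) := by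
    apply IntegrableOn.mono_set _ inter_subset_left
    apply Translate.integrableOn_of_bdd hK ((measurable_const.inner hT₀).mul hGm)
      (C := M * h * (2 * M))
    filter_upwards [hsel.abs_inner_le u] with x hx
    rw [hun, real_inner_comm] at hx
    show |inner ℝ u (T₀ x) * G x| ≤ M * h * (2 * M)
    rw [abs_mul]
    exact mul_le_mul hx (hGB x) (abs_nonneg _) (by (clear * - hM h0; positivity))
  have j2 : IntegrableOn (fun x => (conj M ψ₀ (x + u) - conj M ψ₀ x) * G x) (K ∩ A) := by
    apply IntegrableOn.mono_set _ inter_subset_left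
    apply Translate.integrableOn_of_bdd hK
      (((hc₀.comp (continuous_id.add continuous_const)).sub hc₀).measurable.mul hGm)
      (C := M * h * (2 * M))
    filter_upwards with x
    have h1 := conj_le_add hM hψ₀ (x + u) x
    have h2 := conj_le_add hM hψ₀ x (x + u)
    rw [add_sub_cancel_left, hun] at h1
    rw [show x - (x + u) = -u by abel, norm_neg, hun] at h2
    show |(conj M ψ₀ (x + u) - conj M ψ₀ x) * G x| ≤ M * h * (2 * M)
    rw [abs_mul]
    refine mul_le_mul ?_ (hGB x) (abs_nonneg _) (by (clear * - hM h0; positivity))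
    exact abs_le.2 ⟨by linarith only [h2], by linarith only [h1]⟩
  have hle : ∫ x in K ∩ A, (conj M ψ₀ (x + u) - conj M ψ₀ x) * G x ≤
      ∫ x in K ∩ A, (inner ℝ u (T₀ x) * G x
        + 2 * M * (inner ℝ (T₀ (x + u)) u - inner ℝ (T₀ x) u)) := by
    apply integral_mono_ae j2 (j1.add (j0.const_mul (2 * M)))
    filter_upwards [hsel.two_sided hKm u] with x hx
    obtain ⟨hx1, hx2⟩ := hx
    show (conj M ψ₀ (x + u) - conj M ψ₀ x) * G x ≤ inner ℝ u (T₀ x) * G x
        + 2 * M * (inner ℝ (T₀ (x + u)) u - inner ℝ (T₀ x) u)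
    rw [real_inner_comm (T₀ x) u]
    have a1 := hG0 x
    have a2 := hG2 x
    nlinarith only [hx1, hx2, a2, a1]
  rw [integral_add j1 (j0.const_mul (2 * M)), integral_const_mul] at hle
  rw [integral_unif, integral_unif, hz, hz]
  have hinv : 0 ≤ (volume.real K)⁻¹ := by (clear * - hvolK; positivity)
  have h3 := mul_le_mul_of_nonneg_left hsb (by (clear * - hM; positivity) : 0 ≤ 2 * M)
  have h4 := mul_le_mul_of_nonneg_left (hle.trans (add_le_add le_rfl h3)) hinv
  rw [mul_add] at h4
  refine h4.trans (le_of_eq ?_)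
  congr 1
  field_simp
  ring

/-- The density of the perturbed source is close to one. -/
theorem sigma_sq {M : ℝ} (hK : IsCompact K) (hKi : (interior K).Nonempty) {u : E d}
    {G : E d → ℝ} (hGm : Measurable G) (hGB : ∀ x, |G x| ≤ 2 * M)
    (hGs : ∀ x, G x ≠ 0 → x ∈ K ∧ x + u ∈ K) (s : ℝ) :
    ∫ x, ((1 - s * G x + s * G (x - u)) - 1) ^ 2 ∂(unif K) ≤
      4 * s ^ 2 * ∫ x, G x ^ 2 ∂(unif K) := by
  have hprob := unif_prob hK hKi
  have iG2 : Integrable (fun x => G x ^ 2) (unif K) := by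
    apply Integrable.of_bound (hGm.pow_const 2).aestronglyMeasurable ((2 * M) ^ 2)
    filter_upwards with x
    rw [Real.norm_eq_abs, abs_pow]
    exact pow_le_pow_left₀ (abs_nonneg _) (hGB x) 2
  have hsh : ∫ x, G (x - u) ^ 2 ∂(unif K) = ∫ x, G x ^ 2 ∂(unif K) := by
    have h1 := shift_mul_unif (K := K) u (G := fun x => G x ^ 2)
      (fun x hx => hGs x (fun h0 => hx (by simp [h0]))) (fun _ => 1)
    simpa using h1
  have iG2' : Integrable (fun x => G (x - u) ^ 2) (unif K) := by
    apply Integrable.of_bound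
      ((hGm.comp (measurable_sub_const u)).pow_const 2).aestronglyMeasurable ((2 * M) ^ 2)
    filter_upwards with x
    rw [Real.norm_eq_abs, abs_pow]
    exact pow_le_pow_left₀ (abs_nonneg _) (hGB _) 2
  have hi : Integrable (fun x => 2 * s ^ 2 * (G x ^ 2 + G (x - u) ^ 2)) (unif K) :=
    (iG2.add iG2').const_mul _
  have hle : ∫ x, ((1 - s * G x + s * G (x - u)) - 1) ^ 2 ∂(unif K) ≤
      ∫ x, 2 * s ^ 2 * (G x ^ 2 + G (x - u) ^ 2) ∂(unif K) := by
    apply integral_mono_of_nonneg (ae_of_all _ fun x => sq_nonneg _) hi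
    filter_upwards with x
    show (1 - s * G x + s * G (x - u) - 1) ^ 2 ≤ 2 * s ^ 2 * (G x ^ 2 + G (x - u) ^ 2)
    nlinarith only [sq_nonneg (s * G x + s * G (x - u))]
  rw [integral_const_mul, integral_add iG2 iG2', hsh] at hle
  linarith only [hle]

/-- The perturbation inequality for the dual values, written out. -/
theorem chain {R M : ℝ} (hM : 0 ≤ M) (hK : IsCompact K)
    (hKi : (interior K).Nonempty) {C : ℝ}
    {T₀ T₁ : E d → E d} (hT₀ : Measurable T₀) (hT₁ : Measurable T₁)
    (hT₀M : ∀ᵐ x ∂(unif K), T₀ x ∈ closedBall (0 : E d) M)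
    (hT₁M : ∀ᵐ x ∂(unif K), T₁ x ∈ closedBall (0 : E d) M)
    {ψ₀ ψ₁ : E d → ℝ} (hψ₀ : LipschitzWith R.toNNReal ψ₀) (hψ₁ : LipschitzWith R.toNNReal ψ₁)
    (he₀ : ∀ᵐ x ∂(unif K), conj M ψ₀ x + ψ₀ (T₀ x) = inner ℝ x (T₀ x))
    (he₁ : ∀ᵐ x ∂(unif K), conj M ψ₁ x + ψ₁ (T₁ x) = inner ℝ x (T₁ x))
    {W : ℝ}
    (hmain : ∀ σ : E d → ℝ, GoodDensity K σ →
      (dualVal R M (src K σ) ((unif K).map T₁) - dualVal R M (src K σ) ((unif K).map T₀))
        - (dualVal R M (unif K) ((unif K).map T₁) - dualVal R M (unif K) ((unif K).map T₀))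
      ≤ C * √(∫ x, (σ x - 1) ^ 2 ∂(unif K)) * √W)
    {u : E d} {G : E d → ℝ}
    (hGm : Measurable G) (hG0 : ∀ x, 0 ≤ G x) (hG2 : ∀ x, G x ≤ 2 * M)
    (hGs : ∀ x, G x ≠ 0 → x ∈ K ∧ x + u ∈ K) {s : ℝ} (hs0 : 0 < s)
    (hsG : ∀ x, s * G x ≤ 1 / 2) :
    s * ((∫ x, inner ℝ u (T₁ x) * G x ∂(unif K)) -
        ∫ x, (conj M ψ₀ (x + u) - conj M ψ₀ x) * G x ∂(unif K)) ≤
      C * √(∫ x, ((1 - s * G x + s * G (x - u)) - 1) ^ 2 ∂(unif K)) * √W := by
  have hprob := unif_prob hK hKi
  have hGB : ∀ x, |G x| ≤ 2 * M := fun x => by rw [abs_of_nonneg (hG0 x)]; exact hG2 x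
  have hsG0 : ∀ x, 0 ≤ s * G x := fun x => mul_nonneg hs0.le (hG0 x)
  set σ : E d → ℝ := fun x => 1 - s * G x + s * G (x - u) with hσ
  have hσm : Measurable σ :=
    (measurable_const.sub (hGm.const_mul s)).add ((hGm.comp (measurable_sub_const u)).const_mul s)
  have hgood : GoodDensity K σ := by
    refine ⟨hσm, ?_, ?_, ?_⟩
    · intro x
      have h1 := hsG x
      have h2 := hsG0 (x - u)
      show 1 / 2 ≤ 1 - s * G x + s * G (x - u)
      linarith
    · intro x
      have h1 := hsG0 x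
      have h2 := hsG (x - u)
      show 1 - s * G x + s * G (x - u) ≤ 3 / 2
      linarith
    · have h1 := integral_sigma hK hKi u hGm hGB hGs s (c := fun _ => 1) continuous_const
      simp only [mul_one, sub_self, zero_mul, integral_zero, mul_zero, add_zero,
        integral_const, probReal_univ, smul_eq_mul] at h1
      exact h1
  have hm := hmain σ hgood
  have hsG1 : ∀ x, s * G x ≤ 1 := fun x => (hsG x).trans (by norm_num)
  have LB1 : (∫ x, inner ℝ x (T₁ x) ∂(unif K)) + s * (∫ x, inner ℝ u (T₁ x) * G x ∂(unif K)) ≤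
      dualVal R M (src K σ) ((unif K).map T₁) := by
    apply le_csInf
    · exact ⟨_, fun _ => 0, LipschitzWith.const' 0, rfl⟩
    · rintro _ ⟨χ, hχ, rfl⟩
      exact lower_bound hM hK hKi u hGm hGB hG0 hGs hs0.le hsG1 hT₁ hT₁M hχ.continuous
  have UB1 := dualVal_unif_le (R := R) hM hK hKi hT₁ hT₁M hψ₁ he₁
  have LB0 := le_dualVal_unif (R := R) hM hK hKi hT₀ hT₀M
  have hc₀ := conj_continuous hM hψ₀.continuous
  have UB0 : dualVal R M (src K σ) ((unif K).map T₀) ≤ (∫ x, inner ℝ x (T₀ x) ∂(unif K)) +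
      s * ∫ x, (conj M ψ₀ (x + u) - conj M ψ₀ x) * G x ∂(unif K) := by
    apply csInf_le
    · refine ⟨(∫ x, inner ℝ x (T₀ x) ∂(unif K)) +
        s * (∫ x, inner ℝ u (T₀ x) * G x ∂(unif K)), ?_⟩
      rintro _ ⟨χ, hχ, rfl⟩
      exact lower_bound hM hK hKi u hGm hGB hG0 hGs hs0.le hsG1 hT₀ hT₀M hχ.continuous
    · refine ⟨ψ₀, hψ₀, ?_⟩
      have hσ0 : ∀ x, 0 ≤ σ x := fun x => le_trans (by norm_num) (hgood.lower x)
      rw [dualFun_src hσm hσ0 hT₀ hψ₀.continuous,
        integral_sigma hK hKi u hGm hGB hGs s hc₀]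
      have : (∫ x, inner ℝ x (T₀ x) ∂(unif K)) =
          (∫ x, conj M ψ₀ x ∂(unif K)) + ∫ x, ψ₀ (T₀ x) ∂(unif K) := by
        rw [← integral_add (integrable_cont hK hKi hc₀)
          (integrable_comp hK hKi hT₀ hT₀M hψ₀.continuous)]
        apply integral_congr_ae
        filter_upwards [he₀] with x hx using hx.symm
      rw [this]
      ring
  rw [mul_sub]
  linarith only [hm, LB1, UB1, LB0, UB0]

/-- The gain along the map `G`. -/
theorem gain {M : ℝ} (hK : IsCompact K) (hKi : (interior K).Nonempty)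
    {T₀ T₁ : E d → E d} (hT₀ : Measurable T₀) (hT₁ : Measurable T₁)
    (hT₀M : ∀ᵐ x ∂(unif K), T₀ x ∈ closedBall (0 : E d) M)
    (hT₁M : ∀ᵐ x ∂(unif K), T₁ x ∈ closedBall (0 : E d) M)
    {v : E d} {h : ℝ} (h0 : 0 < h) {G : E d → ℝ} (hGm : Measurable G)
    (hGB : ∀ x, |G x| ≤ 2 * M)
    (hGt : ∀ x, G x ^ 2 ≤ inner ℝ (T₁ x - T₀ x) v * G x) :
    h * ∫ x, G x ^ 2 ∂(unif K) ≤ (∫ x, inner ℝ (h • v) (T₁ x) * G x ∂(unif K)) -
      ∫ x, inner ℝ (h • v) (T₀ x) * G x ∂(unif K) := by
  have hprob := unif_prob hK hKi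
  have iG2 : Integrable (fun x => G x ^ 2) (unif K) := by
    apply Integrable.of_bound (hGm.pow_const 2).aestronglyMeasurable ((2 * M) ^ 2)
    filter_upwards with x
    rw [Real.norm_eq_abs, abs_pow]
    exact pow_le_pow_left₀ (abs_nonneg _) (hGB x) 2
  have k0 := integrable_mul_bdd (integrable_inner hK hKi hT₀ hT₀M (f := fun _ => h • v)
    continuous_const) hGm hGB
  have k1 := integrable_mul_bdd (integrable_inner hK hKi hT₁ hT₁M (f := fun _ => h • v)
    continuous_const) hGm hGB
  rw [← integral_sub k1 k0, ← integral_const_mul]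
  apply integral_mono (iG2.const_mul h) (k1.sub k0)
  intro x
  show h * G x ^ 2 ≤ inner ℝ (h • v) (T₁ x) * G x - inner ℝ (h • v) (T₀ x) * G x
  have e : inner ℝ (h • v) (T₁ x) * G x - inner ℝ (h • v) (T₀ x) * G x =
      h * (inner ℝ (T₁ x - T₀ x) v * G x) := by
    have e1 : inner ℝ (T₁ x - T₀ x) v = inner ℝ v (T₁ x) - inner ℝ v (T₀ x) := by
      rw [← inner_sub_right, real_inner_comm]
    rw [e1, real_inner_smul_left, real_inner_smul_left]
    ring
  rw [e]
  exact mul_le_mul_of_nonneg_left (hGt x) h0.le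

/-- Comparison with the untruncated function. -/
theorem last_cmp {M : ℝ} (hM : 0 ≤ M) (hK : IsCompact K) (hKc : Convex ℝ K)
    (hKi : (interior K).Nonempty) {x0 : E d} {r : ℝ} (hr : 0 < r) (hb : closedBall x0 r ⊆ K)
    {u : E d} {h : ℝ} (hun : ‖u‖ = h) (hhr : h ≤ r) {t G : E d → ℝ}
    (htb : ∀ᵐ x ∂(unif K), |t x| ≤ 2 * M) (hGm : Measurable G)
    (hGB : ∀ x, |G x| ≤ 2 * M)
    (hGt : ∀ x ∈ K ∩ {x | x + u ∈ K}, G x = min (max (t x) 0) (2 * M)) :
    ∫ x, (max (t x) 0) ^ 2 ∂(unif K) ≤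
      (∫ x, G x ^ 2 ∂(unif K)) + 4 * M ^ 2 * (d / r) * h := by
  have hprob := unif_prob hK hKi
  have hKm : MeasurableSet K := hK.measurableSet
  have hvolK : 0 < volume.real K :=
    ENNReal.toReal_pos (volume_ne_zero hKi) hK.measure_ne_top
  set A : Set (E d) := {x | x + u ∈ K} with hA
  have hAm : MeasurableSet A := Translate.measurableSet_shift hKm u
  have iG2 : Integrable (fun x => G x ^ 2) (unif K) := by
    apply Integrable.of_bound (hGm.pow_const 2).aestronglyMeasurable ((2 * M) ^ 2)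
    filter_upwards with x
    rw [Real.norm_eq_abs, abs_pow]
    exact pow_le_pow_left₀ (abs_nonneg _) (hGB x) 2
  have hvd := Translate.volume_diff_le hK hKc hr hb u (by rw [hun]; exact hhr)
  rw [hun] at hvd
  have hi1 : Integrable ((K \ A).indicator fun _ => 4 * M ^ 2) (unif K) :=
    (integrable_const _).indicator (hKm.diff hAm)
  have hle : ∫ x, (max (t x) 0) ^ 2 ∂(unif K) ≤
      ∫ x, (G x ^ 2 + (K \ A).indicator (fun _ => 4 * M ^ 2) x) ∂(unif K) := by
    apply integral_mono_of_nonneg (ae_of_all _ fun x => sq_nonneg _) (iG2.add hi1)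
    filter_upwards [htb, ae_mem_unif hK] with x hx hxK
    have hx' := abs_le.1 hx
    have hm0 : 0 ≤ max (t x) 0 := le_max_right _ _
    have hm1 : max (t x) 0 ≤ 2 * M := max_le hx'.2 (by (clear * - hM; positivity))
    show (max (t x) 0) ^ 2 ≤ G x ^ 2 + (K \ A).indicator (fun _ => 4 * M ^ 2) x
    by_cases hxA : x ∈ A
    · have e1 : G x = max (t x) 0 := by
        rw [hGt x ⟨hxK, hxA⟩, min_eq_left hm1]
      have e2 : (K \ A).indicator (fun _ => 4 * M ^ 2) x = 0 :=
        indicator_of_notMem (fun h => h.2 hxA) _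
      rw [e1, e2, add_zero]
    · have hmem : x ∈ K \ A := ⟨hxK, hxA⟩
      have e2 : (K \ A).indicator (fun _ => 4 * M ^ 2) x = 4 * M ^ 2 :=
        indicator_of_mem hmem _
      rw [e2]
      nlinarith only [hm1, hm0]
  rw [integral_add iG2 hi1] at hle
  have e3 : ∫ x, (K \ A).indicator (fun _ => 4 * M ^ 2) x ∂(unif K) =
      4 * M ^ 2 * ((volume.real K)⁻¹ * volume.real (K \ A)) := by
    rw [integral_unif, setIntegral_indicator (hKm.diff hAm), setIntegral_const, smul_eq_mul,
      inter_eq_self_of_subset_right sdiff_subset]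
    ring
  rw [e3] at hle
  have h5 : (volume.real K)⁻¹ * volume.real (K \ A) ≤ (d / r) * h := by
    calc _ ≤ (volume.real K)⁻¹ * ((d * volume.real K / r) * h) :=
          mul_le_mul_of_nonneg_left hvd (by (clear * - hvolK; positivity))
      _ = _ := by (clear * - hvolK hr; field_simp)
  have h6 := mul_le_mul_of_nonneg_left h5 (by (clear * -; positivity) : 0 ≤ 4 * M ^ 2)
  calc _ ≤ _ := hle
    _ ≤ (∫ x, G x ^ 2 ∂(unif K)) + 4 * M ^ 2 * ((d / r) * h) := add_le_add le_rfl h6
    _ = _ := by ring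

/-- The algebra of the final step. -/
theorem algebra_step {s h P C W S g F J₀ J₁ q : ℝ} (hs0 : 0 < s) (h0 : 0 < h) (hC : 0 ≤ C)
    (hW : 0 ≤ W) (hS : 0 ≤ S) (hJ : h * S ≤ J₁ - J₀) (hF : F ≤ J₀ + P * h ^ 2)
    (hchain : s * (J₁ - F) ≤ C * √q * √W) (hq : q ≤ 4 * s ^ 2 * S) (hg : g = P * h) :
    S ≤ 2 * g + 4 * C ^ 2 * W / h ^ 2 := by
  set a := √S with ha
  have haS : a ^ 2 = S := Real.sq_sqrt hS
  have hsq : √q ≤ 2 * s * a := by
    rw [show 2 * s * a = √(4 * s ^ 2 * S) by
      rw [show 4 * s ^ 2 * S = (2 * s) ^ 2 * S by ring, Real.sqrt_mul (sq_nonneg _),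
        Real.sqrt_sq (by positivity)]]
    exact Real.sqrt_le_sqrt hq
  have hw0 : 0 ≤ √W := Real.sqrt_nonneg _
  have hfin : s * (h * a ^ 2 - P * h ^ 2) ≤ s * (2 * C * √W * a) := by
    have h1 : s * (h * a ^ 2 - P * h ^ 2) ≤ s * (J₁ - F) := by
      apply mul_le_mul_of_nonneg_left _ hs0.le
      rw [haS]; linarith only [hJ, hF]
    have h2 : C * √q * √W ≤ C * (2 * s * a) * √W :=
      mul_le_mul_of_nonneg_right (mul_le_mul_of_nonneg_left hsq hC) hw0
    calc _ ≤ _ := h1
      _ ≤ _ := hchain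
      _ ≤ _ := h2
      _ = _ := by ring
  have hfin2 := le_of_mul_le_mul_left hfin hs0
  have hfin3 : a ^ 2 ≤ g + (2 * C * √W / h) * a := by
    have : h * a ^ 2 ≤ h * (g + (2 * C * √W / h) * a) := by
      have e : h * (g + (2 * C * √W / h) * a) = P * h ^ 2 + 2 * C * √W * a := by
        rw [hg]
        (clear * - h0; field_simp)
      rw [e]; linarith only [hfin2]
    exact le_of_mul_le_mul_left this h0
  have hfin4 := sq_le_of_sq_le hfin3
  have hQ : (2 * C * √W / h) ^ 2 = 4 * C ^ 2 * W / h ^ 2 := by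
    rw [div_pow, mul_pow, mul_pow, Real.sq_sqrt hW]; ring
  rw [hQ, haS] at hfin4
  exact hfin4

/-- The final step in one direction. -/
theorem dir_bound {R M : ℝ} (hM : 0 ≤ M) (hK : IsCompact K) (hKc : Convex ℝ K)
    (hKi : (interior K).Nonempty) {x0 : E d} {r : ℝ} (hr : 0 < r) (hb : closedBall x0 r ⊆ K)
    {C : ℝ} (hC : 0 ≤ C)
    {T₀ T₁ : E d → E d} (hT₀ : Measurable T₀) (hT₁ : Measurable T₁)
    (hT₀M : ∀ᵐ x ∂(unif K), T₀ x ∈ closedBall (0 : E d) M)
    (hT₁M : ∀ᵐ x ∂(unif K), T₁ x ∈ closedBall (0 : E d) M)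
    {ψ₀ ψ₁ : E d → ℝ} (hψ₀ : LipschitzWith R.toNNReal ψ₀) (hψ₁ : LipschitzWith R.toNNReal ψ₁)
    (he₀ : ∀ᵐ x ∂(unif K), conj M ψ₀ x + ψ₀ (T₀ x) = inner ℝ x (T₀ x))
    (he₁ : ∀ᵐ x ∂(unif K), conj M ψ₁ x + ψ₁ (T₁ x) = inner ℝ x (T₁ x))
    {W : ℝ} (hW : 0 ≤ W)
    (hmain : ∀ σ : E d → ℝ, GoodDensity K σ →
      (dualVal R M (src K σ) ((unif K).map T₁) - dualVal R M (src K σ) ((unif K).map T₀))
        - (dualVal R M (unif K) ((unif K).map T₁) - dualVal R M (unif K) ((unif K).map T₀))
      ≤ C * √(∫ x, (σ x - 1) ^ 2 ∂(unif K)) * √W)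
    {v : E d} (hv : ‖v‖ = 1) {h : ℝ} (h0 : 0 < h) (hhr : h ≤ r) :
    ∫ x, (max (inner ℝ (T₁ x - T₀ x) v) 0) ^ 2 ∂(unif K) ≤
      12 * M ^ 2 * (d / r) * h + 4 * C ^ 2 * W / h ^ 2 := by
  have hKm : MeasurableSet K := hK.measurableSet
  set u : E d := h • v with hu
  have hun : ‖u‖ = h := by rw [hu, norm_smul, hv, mul_one, Real.norm_eq_abs, abs_of_pos h0]
  set A : Set (E d) := {x | x + u ∈ K} with hA
  have hAm : MeasurableSet A := Translate.measurableSet_shift hKm u
  set t : E d → ℝ := fun x => inner ℝ (T₁ x - T₀ x) v with ht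
  have htm : Measurable t := (hT₁.sub hT₀).inner_const
  have htb : ∀ᵐ x ∂(unif K), |t x| ≤ 2 * M := by
    filter_upwards [hT₀M, hT₁M] with x h1 h2
    have h1' : ‖T₀ x‖ ≤ M := mem_closedBall_zero_iff.1 h1
    have h2' : ‖T₁ x‖ ≤ M := mem_closedBall_zero_iff.1 h2
    calc |t x| ≤ ‖T₁ x - T₀ x‖ * ‖v‖ := abs_real_inner_le_norm _ _
      _ ≤ 2 * M := by
        rw [hv, mul_one]
        exact (norm_sub_le _ _).trans (by linarith only [h1', h2'])
  set G : E d → ℝ := (K ∩ A).indicator fun x => min (max (t x) 0) (2 * M) with hG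
  have hGmem : ∀ x ∈ K ∩ A, G x = min (max (t x) 0) (2 * M) :=
    fun x hx => indicator_of_mem hx _
  have hGnot : ∀ x, x ∉ K ∩ A → G x = 0 := fun x hx => indicator_of_notMem hx _
  have hGm : Measurable G :=
    ((htm.max measurable_const).min measurable_const).indicator (hKm.inter hAm)
  have hG0 : ∀ x, 0 ≤ G x := by
    intro x
    apply indicator_nonneg
    intro y _
    exact le_min (le_max_right _ _) (by (clear * - hM; positivity))
  have hG2 : ∀ x, G x ≤ 2 * M := by
    intro x
    by_cases hx : x ∈ K ∩ A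
    · rw [hGmem x hx]; exact min_le_right _ _
    · rw [hGnot x hx]; (clear * - hM; positivity)
  have hGB : ∀ x, |G x| ≤ 2 * M := fun x => by rw [abs_of_nonneg (hG0 x)]; exact hG2 x
  have hGs : ∀ x, G x ≠ 0 → x ∈ K ∧ x + u ∈ K := by
    intro x hx
    by_contra hcon
    have hcon' : x ∉ K ∩ A := hcon
    exact hx (hGnot x hcon')
  have hGt : ∀ x, G x ^ 2 ≤ inner ℝ (T₁ x - T₀ x) v * G x := by
    intro x
    show G x ^ 2 ≤ t x * G x
    by_cases hx : x ∈ K ∩ A
    · have hGx : G x = min (max (t x) 0) (2 * M) := hGmem x hx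
      rcases le_total (t x) 0 with htx | htx
      · have : G x = 0 := by rw [hGx, max_eq_right htx]; exact min_eq_left (by (clear * - hM; positivity))
        rw [this]; simp
      · have hle : G x ≤ t x := by rw [hGx, max_eq_left htx]; exact min_le_left _ _
        nlinarith only [hle, hG0 x]
    · rw [hGnot x hx]; simp
  set s : ℝ := 1 / (4 * (M + 1)) with hs
  have hs0 : 0 < s := by (clear * - hM; positivity)
  have hsM : s * (2 * M) ≤ 1 / 2 := by
    rw [hs, div_mul_eq_mul_div, one_mul, div_le_div_iff₀ (by (clear * - hM; positivity)) (by norm_num)]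
    linarith only []
  have hsG : ∀ x, s * G x ≤ 1 / 2 := fun x =>
    (mul_le_mul_of_nonneg_left (hG2 x) hs0.le).trans hsM
  have hchain := chain hM hK hKi hT₀ hT₁ hT₀M hT₁M hψ₀ hψ₁ he₀ he₁ hmain hGm hG0 hG2 hGs hs0 hsG
  have hF := F_bound hM hK hKc hKi hr hb hT₀ hT₀M hψ₀.continuous he₀ hun h0 hhr hGm hG0 hG2 hGs
  have hJ := gain hK hKi hT₀ hT₁ hT₀M hT₁M h0 hGm hGB hGt
  have hσ2 := sigma_sq hK hKi hGm hGB hGs s
  have hS : 0 ≤ ∫ x, G x ^ 2 ∂(unif K) := integral_nonneg fun x => sq_nonneg _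
  have hlast := last_cmp hM hK hKc hKi hr hb hun hhr htb hGm hGB hGmem
  have hfin := algebra_step hs0 h0 hC hW hS hJ hF hchain hσ2 rfl
  calc _ ≤ _ := hlast
    _ ≤ (2 * (4 * M ^ 2 * (d / r) * h) + 4 * C ^ 2 * W / h ^ 2) + 4 * M ^ 2 * (d / r) * h :=
      add_le_add hfin le_rfl
    _ = _ := by ring

/-- The bound for the whole difference, by summing over the coordinates. -/
theorem full_bound {T₀ T₁ : E d → E d} {M : ℝ} (hM : 0 ≤ M) (hK : IsCompact K)
    (hKi : (interior K).Nonempty) (hT₀ : Measurable T₀) (hT₁ : Measurable T₁)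
    (hT₀M : ∀ᵐ x ∂(unif K), T₀ x ∈ closedBall (0 : E d) M)
    (hT₁M : ∀ᵐ x ∂(unif K), T₁ x ∈ closedBall (0 : E d) M) {B : ℝ}
    (hB : ∀ v : E d, ‖v‖ = 1 → ∫ x, (max (inner ℝ (T₁ x - T₀ x) v) 0) ^ 2 ∂(unif K) ≤ B) :
    ∫ x, ‖T₁ x - T₀ x‖ ^ 2 ∂(unif K) ≤ 2 * d * B := by
  have hprob := unif_prob hK hKi
  have hi : ∀ v : E d, ‖v‖ = 1 →
      Integrable (fun x => (max (inner ℝ (T₁ x - T₀ x) v) 0) ^ 2) (unif K) := by
    intro v hv
    apply Integrable.of_bound
      ((((hT₁.sub hT₀).inner_const).max measurable_const).pow_const 2).aestronglyMeasurable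
      ((2 * M) ^ 2)
    filter_upwards [hT₀M, hT₁M] with x h1 h2
    have h1' : ‖T₀ x‖ ≤ M := mem_closedBall_zero_iff.1 h1
    have h2' : ‖T₁ x‖ ≤ M := mem_closedBall_zero_iff.1 h2
    have h3 : |inner ℝ (T₁ x - T₀ x) v| ≤ 2 * M := by
      calc |inner ℝ (T₁ x - T₀ x) v| ≤ ‖T₁ x - T₀ x‖ * ‖v‖ := abs_real_inner_le_norm _ _
        _ ≤ 2 * M := by
          rw [hv, mul_one]
          exact (norm_sub_le _ _).trans (by linarith)
    show ‖(max (inner ℝ (T₁ x - T₀ x) v) 0) ^ 2‖ ≤ (2 * M) ^ 2
    rw [Real.norm_eq_abs, abs_pow]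
    apply pow_le_pow_left₀ (abs_nonneg _)
    rw [abs_of_nonneg (le_max_right _ _)]
    exact max_le ((le_abs_self _).trans h3) (by (clear * - hM; positivity))
  have hn1 : ∀ i : Fin d, ‖(EuclideanSpace.single i (1 : ℝ) : E d)‖ = 1 := by
    intro i
    simp
  have hn2 : ∀ i : Fin d, ‖-(EuclideanSpace.single i (1 : ℝ) : E d)‖ = 1 := by
    intro i
    rw [norm_neg]; exact hn1 i
  have hkey : ∀ y : E d, ‖y‖ ^ 2 = ∑ i : Fin d,
      ((max (inner ℝ y (EuclideanSpace.single i (1 : ℝ))) 0) ^ 2 +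
        (max (inner ℝ y (-(EuclideanSpace.single i (1 : ℝ)))) 0) ^ 2) := by
    intro y
    rw [EuclideanSpace.real_norm_sq_eq]
    apply Finset.sum_congr rfl
    intro i _
    have e : inner ℝ y (EuclideanSpace.single i (1 : ℝ)) = y i := by
      rw [EuclideanSpace.inner_single_right]; simp
    rw [inner_neg_right, e]
    rcases le_total (y i) 0 with h | h
    · rw [max_eq_right h, max_eq_left (by linarith only [h])]; ring
    · rw [max_eq_left h, max_eq_right (by linarith)]; ring
  have e1 : ∫ x, ‖T₁ x - T₀ x‖ ^ 2 ∂(unif K) = ∑ i : Fin d,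
      ((∫ x, (max (inner ℝ (T₁ x - T₀ x) (EuclideanSpace.single i (1 : ℝ))) 0) ^ 2 ∂(unif K)) +
        ∫ x, (max (inner ℝ (T₁ x - T₀ x) (-(EuclideanSpace.single i (1 : ℝ)))) 0) ^ 2
          ∂(unif K)) := by
    have : ∀ x, ‖T₁ x - T₀ x‖ ^ 2 = ∑ i : Fin d,
      ((max (inner ℝ (T₁ x - T₀ x) (EuclideanSpace.single i (1 : ℝ))) 0) ^ 2 +
        (max (inner ℝ (T₁ x - T₀ x) (-(EuclideanSpace.single i (1 : ℝ)))) 0) ^ 2) :=
      fun x => hkey _
    simp_rw [this]
    rw [integral_finsetSum]
    · apply Finset.sum_congr rfl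
      intro i _
      exact integral_add (hi _ (hn1 i)) (hi _ (hn2 i))
    · intro i _
      exact (hi _ (hn1 i)).add (hi _ (hn2 i))
  rw [e1]
  calc _ ≤ ∑ _i : Fin d, (B + B) :=
        Finset.sum_le_sum fun i _ => add_le_add (hB _ (hn1 i)) (hB _ (hn2 i))
    _ = 2 * d * B := by
      rw [Finset.sum_const, Finset.card_univ, Fintype.card_fin, nsmul_eq_mul]; ring

/-- Optimisation of the scale. -/
theorem optimise {D W a b c r : ℝ} (hr : 0 < r) (hW : 0 ≤ W) (ha : 0 ≤ a) (hb : 0 ≤ b)
    (hc : 0 ≤ c) (hD : ∀ h : ℝ, 0 < h → h ≤ r → D ≤ a * h + b * (W / h ^ 2)) (hDc : D ≤ c) :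
    D ≤ (a + b + c / r) * W ^ (1 / 3 : ℝ) := by
  set w := W ^ (1 / 3 : ℝ) with hw
  have hw0 : 0 ≤ w := Real.rpow_nonneg hW _
  have hw3 : w ^ 3 = W := by
    rw [hw, ← Real.rpow_natCast, ← Real.rpow_mul hW]
    norm_num
  have hcr : 0 ≤ c / r := by positivity
  rcases hw0.eq_or_lt with h0 | h0
  · rw [← h0, mul_zero]
    have hW0 : W = 0 := by rw [← hw3, ← h0]; ring
    by_contra hcon
    have hD0 : 0 < D := not_le.1 hcon
    have hpos : 0 < min r (D / (2 * (a + 1))) := lt_min hr (by (clear * - hD0 ha; positivity))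
    have h1 := hD _ hpos (min_le_left _ _)
    rw [hW0, zero_div, mul_zero, add_zero] at h1
    have h2 : a * min r (D / (2 * (a + 1))) ≤ a * (D / (2 * (a + 1))) :=
      mul_le_mul_of_nonneg_left (min_le_right _ _) ha
    have h3 : a * (D / (2 * (a + 1))) ≤ D / 2 := by
      rw [mul_div_assoc', div_le_div_iff₀ (by positivity) (by norm_num)]
      nlinarith only [hcon]
    linarith only [hcon, h1, h2, h3]
  · rcases le_total w r with hwr | hwr
    · have h1 := hD w h0 hwr
      have h2 : W / w ^ 2 = w := by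
        rw [← hw3]; field_simp
      rw [h2] at h1
      nlinarith only [h1, hcr, h0]
    · have h1 : c ≤ c / r * w := by
        rw [div_mul_eq_mul_div, le_div_iff₀ hr]
        exact mul_le_mul_of_nonneg_left hwr hc
      nlinarith only [hDc, h1, ha, h0, hb]

/-- A coupling of two measures supported in a ball is supported in the square of the ball. -/
theorem coupling_support {M : ℝ} {T₀ T₁ : E d → E d} (hT₀ : Measurable T₀) (hT₁ : Measurable T₁)
    (hT₀M : ∀ᵐ x ∂(unif K), T₀ x ∈ closedBall (0 : E d) M)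
    (hT₁M : ∀ᵐ x ∂(unif K), T₁ x ∈ closedBall (0 : E d) M) {π : Measure (E d × E d)}
    (h0 : π.map Prod.fst = (unif K).map T₀) (h1 : π.map Prod.snd = (unif K).map T₁) :
    π (closedBall 0 M ×ˢ closedBall 0 M)ᶜ = 0 := by
  have hBm : MeasurableSet (closedBall (0 : E d) M)ᶜ := isClosed_closedBall.measurableSet.compl
  have e : (closedBall (0 : E d) M ×ˢ closedBall (0 : E d) M)ᶜ =
      Prod.fst ⁻¹' (closedBall (0 : E d) M)ᶜ ∪ Prod.snd ⁻¹' (closedBall (0 : E d) M)ᶜ := by
    ext z
    simp only [mem_compl_iff, mem_prod, mem_union, mem_preimage]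
    (clear * -; tauto)
  rw [e, measure_union_null_iff]
  constructor
  · rw [← Measure.map_apply measurable_fst hBm, h0, Measure.map_apply hT₀ hBm]
    exact hT₀M
  · rw [← Measure.map_apply measurable_snd hBm, h1, Measure.map_apply hT₁ hBm]
    exact hT₁M

end Unif

end Final

/-- From the main inequality to the stability of the maps, at every scale. -/
theorem final_step {d : ℕ} {K : Set (E d)} (hK : IsCompact K) (hKc : Convex ℝ K)
    (hKi : (interior K).Nonempty) {R M : ℝ} (hR : 0 ≤ R) (hM : 0 ≤ M)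
    (hKR : K ⊆ closedBall 0 R) (hmain : MainIneq K R M) :
    ∃ C : ℝ, 0 ≤ C ∧ ∀ (T₀ T₁ : E d → E d) (ψ₀ ψ₁ : E d → ℝ),
      Measurable T₀ → Measurable T₁ →
      (∀ᵐ x ∂(unif K), T₀ x ∈ closedBall (0 : E d) M) →
      (∀ᵐ x ∂(unif K), T₁ x ∈ closedBall (0 : E d) M) →
      LipschitzWith R.toNNReal ψ₀ → LipschitzWith R.toNNReal ψ₁ →
      (∀ᵐ x ∂(unif K), conj M ψ₀ x + ψ₀ (T₀ x) = inner ℝ x (T₀ x)) →
      (∀ᵐ x ∂(unif K), conj M ψ₁ x + ψ₁ (T₁ x) = inner ℝ x (T₁ x)) →
      ∀ π : Measure (E d × E d), IsProbabilityMeasure π →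
        π.map Prod.fst = (unif K).map T₀ → π.map Prod.snd = (unif K).map T₁ →
        ∫ x, ‖T₁ x - T₀ x‖ ^ 2 ∂(unif K) ≤ C * (∫ z, ‖z.1 - z.2‖ ^ 2 ∂π) ^ (1 / 3 : ℝ) := by
  obtain ⟨C, hC, hmain⟩ := hmain
  obtain ⟨x0, hx0⟩ := hKi
  obtain ⟨r', hr', hball⟩ := Metric.isOpen_iff.1 isOpen_interior x0 hx0
  have hKi : (interior K).Nonempty := ⟨x0, hx0⟩
  have hr : 0 < r' / 2 := by positivity
  have hb : closedBall x0 (r' / 2) ⊆ K :=
    (closedBall_subset_ball (by linarith only [hr'])).trans (hball.trans interior_subset)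
  set r := r' / 2 with hrdef
  refine ⟨24 * M ^ 2 * d * (d / r) + 8 * d * C ^ 2 + (2 * d * (4 * M ^ 2)) / r, by (clear * - hr'; positivity), ?_⟩
  intro T₀ T₁ ψ₀ ψ₁ hT₀ hT₁ hT₀M hT₁M hψ₀ hψ₁ he₀ he₁ π hπ h0 h1
  have hprob := Final.unif_prob hK hKi
  have hsupp := Final.coupling_support hT₀ hT₁ hT₀M hT₁M h0 h1
  set W := ∫ z, ‖z.1 - z.2‖ ^ 2 ∂π with hW
  have hW0 : 0 ≤ W := integral_nonneg fun z => by (clear * -; positivity)
  have hm : ∀ σ : E d → ℝ, GoodDensity K σ →
      (dualVal R M (src K σ) ((unif K).map T₁) - dualVal R M (src K σ) ((unif K).map T₀))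
        - (dualVal R M (unif K) ((unif K).map T₁) - dualVal R M (unif K) ((unif K).map T₀))
      ≤ C * √(∫ x, (σ x - 1) ^ 2 ∂(unif K)) * √W := by
    intro σ hσ
    have := hmain σ hσ π hπ hsupp
    rwa [h0, h1] at this
  apply Final.optimise hr hW0 (by (clear * - hr'; positivity)) (by (clear * -; positivity)) (by (clear * -; positivity))
  · intro h hh hhr
    have := Final.full_bound hM hK hKi hT₀ hT₁ hT₀M hT₁M
      (B := 12 * M ^ 2 * (d / r) * h + 4 * C ^ 2 * W / h ^ 2) (fun v hv =>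
        Final.dir_bound hM hK hKc hKi hr hb hC hT₀ hT₁ hT₀M hT₁M hψ₀ hψ₁ he₀ he₁ hW0 hm hv hh hhr)
    refine this.trans (le_of_eq ?_)
    ring
  · apply Final.full_bound hM hK hKi hT₀ hT₁ hT₀M hT₁M
    intro v hv
    have hle : ∫ x, (max (inner ℝ (T₁ x - T₀ x) v) 0) ^ 2 ∂(unif K) ≤
        ∫ _x, 4 * M ^ 2 ∂(unif K) := by
      apply integral_mono_of_nonneg (ae_of_all _ fun x => sq_nonneg _) (integrable_const _)
      filter_upwards [hT₀M, hT₁M] with x h1 h2
      have h1' : ‖T₀ x‖ ≤ M := mem_closedBall_zero_iff.1 h1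
      have h2' : ‖T₁ x‖ ≤ M := mem_closedBall_zero_iff.1 h2
      have h3 : inner ℝ (T₁ x - T₀ x) v ≤ 2 * M := by
        calc inner ℝ (T₁ x - T₀ x) v ≤ ‖T₁ x - T₀ x‖ * ‖v‖ := real_inner_le_norm _ _
          _ ≤ 2 * M := by
            rw [hv, mul_one]
            exact (norm_sub_le _ _).trans (by linarith only [h1', h2'])
      have h4 : 0 ≤ max (inner ℝ (T₁ x - T₀ x) v) 0 := le_max_right _ _
      have h5 : max (inner ℝ (T₁ x - T₀ x) v) 0 ≤ 2 * M := max_le h3 (by (clear * - hM; positivity))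
      show (max (inner ℝ (T₁ x - T₀ x) v) 0) ^ 2 ≤ 4 * M ^ 2
      nlinarith only [h5, h4]
    refine hle.trans (le_of_eq ?_)
    rw [integral_const, probReal_univ, one_smul]

end Vale.Agent.P074
end
end
end

section

section

section

open MeasureTheory Set Metric
open scoped ENNReal NNReal RealInnerProductSpace

namespace Vale.Agent.P074

variable {d : ℕ} {I : Type} [Fintype I] {m : I → ℝ} {K : Set (E d)}

section

variable {R M : ℝ} {ς : Measure (E d)} {y b : I → E d}

theorem OptBary.le (h : OptBary R M ς m y b) {z : I → E d}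
    (hz : ∀ i, z i ∈ closedBall (0 : E d) M) :
    ∑ i, ⟪b i, z i⟫ ≤ dualVal R M ς (atomic m z) :=
  le_dualVal fun ψ hψ => h.adm z hz ψ hψ

theorem OptBary.eq (h : OptBary R M ς m y b) (hR : 0 ≤ R) (hM : 0 ≤ M) [IsProbabilityMeasure ς]
    (hς : ς (closedBall 0 R)ᶜ = 0) (hm : ∀ i, 0 ≤ m i) (hsum : ∑ i, m i = 1)
    (hy : ∀ i, y i ∈ closedBall (0 : E d) M) :
    dualVal R M ς (atomic m y) = ∑ i, ⟪b i, y i⟫ := by
  refine le_antisymm ?_ (h.le hy)
  obtain ⟨ψ, hψ, hle⟩ := h.opt
  have := isProbabilityMeasure_atomic (y := y) hm hsum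
  exact (dualVal_le hR hM hς (atomic_compl measurableSet_closedBall hy) hψ).trans hle

end

/-- Abstract Riemann sum argument. -/
theorem riemann_arg {F β : ℝ → ℝ} {A : ℝ}
    (h : ∀ s t : ℝ, 0 ≤ s → s ≤ t → t ≤ 1 → F t - F s ≤ (t - s) * (A + (β t - β s))) :
    F 1 - F 0 ≤ A := by
  have hn : ∀ n : ℕ, F 1 - F 0 - A ≤ (β 1 - β 0) / ((n : ℝ) + 1) := by
    intro n
    set N : ℝ := (n : ℝ) + 1 with hN
    have hNpos : 0 < N := by positivity
    have h1 : ∑ k ∈ Finset.range (n + 1), (F (((k + 1 : ℕ) : ℝ) / N) - F ((k : ℝ) / N)) ≤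
        ∑ k ∈ Finset.range (n + 1), (1 / N) * (A + (β (((k + 1 : ℕ) : ℝ) / N) - β ((k : ℝ) / N))) := by
      refine Finset.sum_le_sum fun k hk => ?_
      have hk' : ((k + 1 : ℕ) : ℝ) ≤ N := by
        rw [hN]
        exact_mod_cast Finset.mem_range.1 hk
      have := h ((k : ℝ) / N) (((k + 1 : ℕ) : ℝ) / N) (by (clear * -; positivity))
        (by
          apply div_le_div_of_nonneg_right _ hNpos.le
          push_cast
          linarith only [])
        ((div_le_one hNpos).2 hk')
      have e : ((k + 1 : ℕ) : ℝ) / N - (k : ℝ) / N = 1 / N := by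
        push_cast
        ring
      rwa [e] at this
    rw [Finset.sum_range_sub (fun k : ℕ => F ((k : ℝ) / N)), ← Finset.mul_sum,
      Finset.sum_add_distrib, Finset.sum_range_sub (fun k : ℕ => β ((k : ℝ) / N))] at h1
    have e1 : ((n + 1 : ℕ) : ℝ) / N = 1 := by
      rw [hN]
      push_cast
      exact div_self (by positivity)
    simp only [e1, Nat.cast_zero, zero_div, Finset.sum_const, Finset.card_range,
      nsmul_eq_mul] at h1
    have e2 : (1 / N) * (((n + 1 : ℕ) : ℝ) * A + (β 1 - β 0)) = A + (β 1 - β 0) / N := by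
      have : ((n + 1 : ℕ) : ℝ) = N := by
        rw [hN]
        push_cast
        ring
      rw [this]
      (clear * - hNpos; field_simp)
    rw [e2] at h1
    linarith only [h1]
  have hlim : Filter.Tendsto (fun n : ℕ => (β 1 - β 0) / ((n : ℝ) + 1)) Filter.atTop (nhds 0) := by
    have := (tendsto_one_div_add_atTop_nhds_zero_nat (𝕜 := ℝ)).const_mul (β 1 - β 0)
    simpa only [div_eq_mul_inv, one_mul, mul_zero] using this
  have := ge_of_tendsto' hlim hn
  linarith only [this]

theorem sum_inner_le (hm : ∀ i, 0 < m i) (u v : I → E d) :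
    ∑ i, ⟪u i, v i⟫ ≤ √(∑ i, ‖u i‖ ^ 2 / m i) * √(∑ i, m i * ‖v i‖ ^ 2) := by
  have h1 : ∑ i, ⟪u i, v i⟫ ≤ ∑ i, (‖u i‖ / √(m i)) * (√(m i) * ‖v i‖) := by
    refine Finset.sum_le_sum fun i _ => ?_
    have : (‖u i‖ / √(m i)) * (√(m i) * ‖v i‖) = ‖u i‖ * ‖v i‖ := by
      have := Real.sqrt_pos.2 (hm i)
      field_simp
    rw [this]
    exact real_inner_le_norm _ _
  refine h1.trans ((Real.sum_mul_le_sqrt_mul_sqrt _ _ _).trans (le_of_eq ?_))
  congr 2
  · refine Finset.sum_congr rfl fun i _ => ?_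
    rw [div_pow, Real.sq_sqrt (hm i).le]
  · refine Finset.sum_congr rfl fun i _ => ?_
    rw [mul_pow, Real.sq_sqrt (hm i).le]

theorem exists_grp_weights (hW : ExistsWeights K) [Nonempty I] {ς : Measure (E d)}
    [IsProbabilityMeasure ς] (hac : ς ≪ volume) (hςK : ς Kᶜ = 0) (hKm : MeasurableSet K)
    (hm : ∀ i, 0 < m i) (hsum : ∑ i, m i = 1) (y : I → E d) :
    ∃ ψ : range y → ℝ, ∀ z, ς.real (cell K (fun z : range y => z.1) ψ z) = grp m y z := by
  have hne : Nonempty (range y) := ⟨idx y (Classical.arbitrary I)⟩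
  refine hW (range y) ς hac hςK (fun z => z.1) Subtype.val_injective (grp m y)
    (fun z => grp_pos hm z) ?_
  rw [sum_grp, hsum]
  have : ς K = 1 := (prob_compl_eq_zero_iff hKm).1 hςK
  simp [Measure.real, this]

theorem atomic_ineq (hK : IsCompact K) (hKi : (interior K).Nonempty)
    {R M : ℝ} (hR : 0 ≤ R) (hM : 0 ≤ M) (hKR : K ⊆ closedBall 0 R) (hW : ExistsWeights K)
    {C : ℝ} (hC0 : 0 ≤ C)
    (hC : ∀ (ι : Type) [Fintype ι] (y : ι → E d), Function.Injective y →
      ∀ (ψ ψ' : ι → ℝ),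
      (∀ i, 0 < volume.real (cell K y ψ i)) →
      (∀ i, volume.real (cell K y ψ i) ≤ 2 * volume.real (cell K y ψ' i)) →
      (∀ i, volume.real (cell K y ψ' i) ≤ 2 * volume.real (cell K y ψ i)) →
      ∑ i, ‖(∫ x in cell K y ψ' i, x) - ∫ x in cell K y ψ i, x‖ ^ 2
        / volume.real (cell K y ψ i) ≤
      C * ∑ i, (volume.real (cell K y ψ' i) - volume.real (cell K y ψ i)) ^ 2
        / volume.real (cell K y ψ i))
    {σ : E d → ℝ} (hσ : GoodDensity K σ) [Nonempty I] (hm : ∀ i, 0 < m i)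
    (hsum : ∑ i, m i = 1) {a b : I → E d} (ha : ∀ i, a i ∈ closedBall (0 : E d) M)
    (hb : ∀ i, b i ∈ closedBall (0 : E d) M) :
    (dualVal R M (src K σ) (atomic m b) - dualVal R M (src K σ) (atomic m a))
        - (dualVal R M (unif K) (atomic m b) - dualVal R M (unif K) (atomic m a))
      ≤ √(4 * (C + R ^ 2)) * √(∫ x, (σ x - 1) ^ 2 ∂(unif K)) *
        √(∑ i, m i * ‖b i - a i‖ ^ 2) := by
  have hpu := isProb_unif hK hKi
  have hps := isProbabilityMeasure_src hK hKi hσ
  have hKne : K.Nonempty := hKi.mono interior_subset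
  have hςR : src K σ (closedBall 0 R)ᶜ = 0 :=
    measure_mono_null (compl_subset_compl.2 hKR) (src_compl hK)
  set y : ℝ → I → E d := fun t i => (1 - t) • a i + t • b i with hy
  have hyM : ∀ t, 0 ≤ t → t ≤ 1 → ∀ i, y t i ∈ closedBall (0 : E d) M := fun t h0 h1 i =>
    convex_closedBall 0 M (ha i) (hb i) (by linarith only [h1]) h0 (by ring)
  have hex1 : ∀ t, ∃ ψ : range (y t) → ℝ,
      ∀ z, (unif K).real (cell K (fun z : range (y t) => z.1) ψ z) = grp m (y t) z := fun t =>
    exists_grp_weights hW (unif_absolutelyContinuous K) (unif_compl hK) hK.measurableSet hm hsum _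
  have hex2 : ∀ t, ∃ ψ : range (y t) → ℝ,
      ∀ z, (src K σ).real (cell K (fun z : range (y t) => z.1) ψ z) = grp m (y t) z := fun t =>
    exists_grp_weights hW (src_absolutelyContinuous K σ) (src_compl hK) hK.measurableSet hm hsum _
  choose ψ₁ hψ₁ using hex1
  choose ψ₂ hψ₂ using hex2
  set b₁ : ℝ → I → E d := fun t => bary K (unif K) m (y t) (ψ₁ t) with hb₁
  set b₂ : ℝ → I → E d := fun t => bary K (src K σ) m (y t) (ψ₂ t) with hb₂
  have ho₁ : ∀ t, OptBary R M (unif K) m (y t) (b₁ t) := fun t =>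
    optBary_bary hK hKne hM hKR (unif_absolutelyContinuous K) (unif_compl hK) hm _ (hψ₁ t)
  have ho₂ : ∀ t, OptBary R M (src K σ) m (y t) (b₂ t) := fun t =>
    optBary_bary hK hKne hM hKR (src_absolutelyContinuous K σ) (src_compl hK) hm _ (hψ₂ t)
  have hst : ∀ t, ∑ i, ‖b₂ t i - b₁ t i‖ ^ 2 / m i ≤
      4 * (C + R ^ 2) * ∫ x, (σ x - 1) ^ 2 ∂(unif K) := fun t =>
    bary_stab hK hKi hKR hC0 hC hσ hm (ψ₁ t) (ψ₂ t) (hψ₁ t) (hψ₂ t)
  set δ : I → E d := fun i => b i - a i with hδ
  have hyd : ∀ s t i, y t i - y s i = (t - s) • δ i := by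
    intro s t i
    simp only [hy, hδ]
    module
  have key := riemann_arg
    (F := fun t => dualVal R M (src K σ) (atomic m (y t)) - dualVal R M (unif K) (atomic m (y t)))
    (β := fun t => ∑ i, ⟪b₁ t i, δ i⟫)
    (A := √(4 * (C + R ^ 2)) * √(∫ x, (σ x - 1) ^ 2 ∂(unif K)) * √(∑ i, m i * ‖b i - a i‖ ^ 2))
    (by
      intro s t hs hst' ht
      have hs1 := hyM s hs (hst'.trans ht)
      have ht1 := hyM t (hs.trans hst') ht
      have e1 := (ho₂ t).eq hR hM hςR (fun i => (hm i).le) hsum ht1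
      have e2 := (ho₂ t).le hs1
      have e3 := (ho₁ s).le ht1
      have e4 := (ho₁ s).eq hR hM (unif_ball_compl hK hKR) (fun i => (hm i).le) hsum hs1
      have e5 : ∑ i, ⟪b₂ t i, y t i⟫ - ∑ i, ⟪b₂ t i, y s i⟫ = (t - s) * ∑ i, ⟪b₂ t i, δ i⟫ := by
        rw [← Finset.sum_sub_distrib, Finset.mul_sum]
        refine Finset.sum_congr rfl fun i _ => ?_
        rw [← inner_sub_right, hyd, inner_smul_right]
      have e6 : ∑ i, ⟪b₁ s i, y t i⟫ - ∑ i, ⟪b₁ s i, y s i⟫ = (t - s) * ∑ i, ⟪b₁ s i, δ i⟫ := by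
        rw [← Finset.sum_sub_distrib, Finset.mul_sum]
        refine Finset.sum_congr rfl fun i _ => ?_
        rw [← inner_sub_right, hyd, inner_smul_right]
      have e7 : ∑ i, ⟪b₂ t i, δ i⟫ - ∑ i, ⟪b₁ t i, δ i⟫ ≤
          √(4 * (C + R ^ 2)) * √(∫ x, (σ x - 1) ^ 2 ∂(unif K)) *
            √(∑ i, m i * ‖b i - a i‖ ^ 2) := by
        rw [← Finset.sum_sub_distrib]
        simp only [← inner_sub_left]
        refine (sum_inner_le hm (fun i => b₂ t i - b₁ t i) δ).trans ?_
        refine mul_le_mul_of_nonneg_right ?_ (Real.sqrt_nonneg _)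
        rw [← Real.sqrt_mul (by (clear * - hC0; positivity))]
        exact Real.sqrt_le_sqrt (hst t)
      have e8 : 0 ≤ t - s := by linarith only [hst']
      have e9 := mul_le_mul_of_nonneg_left e7 e8
      linarith only [e1, e2, e3, e4, e5, e6, e9])
  have hy0 : y 0 = a := by
    funext i
    simp [hy]
  have hy1 : y 1 = b := by
    funext i
    simp only [hy, sub_self, zero_smul, one_smul, zero_add]
  simp only [hy0, hy1] at key
  linarith only [key]

end Vale.Agent.P074
end
end
end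

section

section

section

open MeasureTheory Set Metric Filter
open scoped ENNReal NNReal RealInnerProductSpace Topology

namespace Vale.Agent.P074

variable {d : ℕ} {K : Set (E d)}

/-- Discretisation of a coupling by a simple function. -/
theorem exists_discrete (π : Measure (E d × E d)) [IsProbabilityMeasure π]
    (Q : SimpleFunc (E d) (E d)) :
    ∃ (I : Type) (_ : Fintype I) (_ : Nonempty I) (m : I → ℝ) (a b : I → E d),
      (∀ i, 0 < m i) ∧ ∑ i, m i = 1 ∧ (∀ i, a i ∈ range Q) ∧ (∀ i, b i ∈ range Q) ∧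
      ∀ g : E d × E d → ℝ, ∑ i, m i * g (a i, b i) = ∫ z, g (Q z.1, Q z.2) ∂π := by
  classical
  let J : Type := {y : E d // y ∈ Q.range}
  let q : E d → J := fun x => ⟨Q x, Q.mem_range_self x⟩
  have hq : Measurable q := Q.measurable.subtype_mk
  let qq : E d × E d → J × J := fun z => (q z.1, q z.2)
  have hqq : Measurable qq := (hq.comp measurable_fst).prodMk (hq.comp measurable_snd)
  set ν : Measure (J × J) := π.map qq with hν
  have hνp : IsProbabilityMeasure ν := Measure.isProbabilityMeasure_map hqq.aemeasurable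
  let I : Type := {p : J × J // 0 < ν.real {p}}
  have hsum : ∀ g : J × J → ℝ, ∑ i : I, ν.real {i.1} * g i.1 = ∫ z, g (qq z) ∂π := by
    intro g
    have h1 : ∫ z, g (qq z) ∂π = ∫ p, g p ∂ν := by
      rw [hν, integral_map hqq.aemeasurable]
      exact (measurable_of_finite g).aestronglyMeasurable
    rw [h1, integral_fintype (Integrable.of_finite)]
    simp only [smul_eq_mul]
    have h2 : ∑ i : I, ν.real {i.1} * g i.1 =
        ∑ p ∈ Finset.univ.filter (fun p : J × J => 0 < ν.real {p}), ν.real {p} * g p := by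
      rw [← Finset.sum_subtype_eq_sum_filter]
      refine Finset.sum_congr ?_ fun _ _ => rfl
      ext i
      simp only [Finset.mem_univ, Finset.subtype_univ]
    rw [h2]
    refine Finset.sum_subset (Finset.subset_univ _) fun p _ hp => ?_
    have h3 : ¬ 0 < ν.real {p} := by simpa only [not_lt, Finset.mem_filter, Finset.mem_univ, true_and] using hp
    have h4 : ν.real {p} = 0 := le_antisymm (not_lt.1 h3) measureReal_nonneg
    rw [h4, zero_mul]
  have h1 : ∑ i : I, ν.real {i.1} = 1 := by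
    have := hsum (fun _ => 1)
    simpa only [mul_one, integral_const, probReal_univ, smul_eq_mul] using this
  refine ⟨I, inferInstance, ?_, fun i => ν.real {i.1}, fun i => i.1.1.1, fun i => i.1.2.1,
    fun i => i.2, h1, ?_, ?_, ?_⟩
  · by_contra hne
    rw [not_nonempty_iff] at hne
    rw [Finset.univ_eq_empty, Finset.sum_empty] at h1
    exact zero_ne_one h1
  · intro i
    have := i.1.1.2
    rw [SimpleFunc.mem_range] at this
    exact this
  · intro i
    have := i.1.2.2
    rw [SimpleFunc.mem_range] at this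
    exact this
  · intro g
    exact hsum (fun p => g (p.1.1, p.2.1))

theorem dualVal_le_add {R M : ℝ} (hR : 0 ≤ R) (hM : 0 ≤ M) {ς μ μ' : Measure (E d)}
    [IsProbabilityMeasure ς] [IsProbabilityMeasure μ]
    (hς : ς (closedBall 0 R)ᶜ = 0) (hμ : μ (closedBall 0 M)ᶜ = 0) {c : ℝ}
    (h : ∀ ψ : E d → ℝ, LipschitzWith R.toNNReal ψ → ∫ x, ψ x ∂μ ≤ ∫ x, ψ x ∂μ' + c) :
    dualVal R M ς μ ≤ dualVal R M ς μ' + c := by
  have : dualVal R M ς μ - c ≤ dualVal R M ς μ' := by
    refine le_dualVal fun ψ hψ => ?_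
    have h1 := dualVal_le hR hM hς hμ hψ
    have h2 := h ψ hψ
    unfold dualFun at h1 ⊢
    linarith only [h1, h2]
  linarith only [this]

theorem main_ineq_of (hK : IsCompact K) (hKi : (interior K).Nonempty)
    {R M : ℝ} (hR : 0 ≤ R) (hM : 0 ≤ M) (hKR : K ⊆ closedBall 0 R) (hW : ExistsWeights K)
    (hCK : CellKey K) : MainIneq K R M := by
  obtain ⟨C, hC0, hC⟩ := hCK
  refine ⟨√(4 * (C + R ^ 2)), Real.sqrt_nonneg _, fun σ hσ π hπ hπM => ?_⟩
  have hpu := isProb_unif hK hKi
  have hps := isProbabilityMeasure_src hK hKi hσ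
  have hςR : src K σ (closedBall 0 R)ᶜ = 0 :=
    measure_mono_null (compl_subset_compl.2 hKR) (src_compl hK)
  have hρR : unif K (closedBall 0 R)ᶜ = 0 := unif_ball_compl hK hKR
  have h0 : (0 : E d) ∈ closedBall (0 : E d) M := mem_closedBall_self hM
  let Q : ℕ → SimpleFunc (E d) (E d) := fun n =>
    SimpleFunc.approxOn id measurable_id (closedBall (0 : E d) M) 0 h0 n
  have hQmem : ∀ n x, Q n x ∈ closedBall (0 : E d) M := fun n x =>
    SimpleFunc.approxOn_mem measurable_id h0 n x
  have hQlim : ∀ x ∈ closedBall (0 : E d) M, Tendsto (fun n => Q n x) atTop (𝓝 x) :=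
    fun x hx => SimpleFunc.tendsto_approxOn measurable_id h0 (subset_closure hx)
  have hQn : ∀ n x, ‖Q n x‖ ≤ M := fun n x => by simpa only [mem_closedBall, dist_zero_right] using hQmem n x
  have hae : ∀ᵐ z ∂π, z ∈ closedBall (0 : E d) M ×ˢ closedBall (0 : E d) M := by
    rw [ae_iff]
    exact hπM
  have hf1 : (π.map Prod.fst) (closedBall 0 M)ᶜ = 0 := by
    rw [Measure.map_apply measurable_fst measurableSet_closedBall.compl]
    refine measure_mono_null ?_ hπM
    intro z hz hz'
    exact hz hz'.1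
  have hf2 : (π.map Prod.snd) (closedBall 0 M)ᶜ = 0 := by
    rw [Measure.map_apply measurable_snd measurableSet_closedBall.compl]
    refine measure_mono_null ?_ hπM
    intro z hz hz'
    exact hz hz'.2
  have hp1 : IsProbabilityMeasure (π.map Prod.fst) :=
    Measure.isProbabilityMeasure_map measurable_fst.aemeasurable
  have hp2 : IsProbabilityMeasure (π.map Prod.snd) :=
    Measure.isProbabilityMeasure_map measurable_snd.aemeasurable
  have he1 : Tendsto (fun n => ∫ z, ‖Q n z.1 - z.1‖ ∂π) atTop (𝓝 0) := by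
    have h := tendsto_integral_of_dominated_convergence (μ := π)
      (F := fun n (z : E d × E d) => ‖Q n z.1 - z.1‖) (f := fun _ => (0 : ℝ))
      (fun _ => M + M)
      (fun n => ((((Q n).measurable.comp measurable_fst).sub measurable_fst).norm).aestronglyMeasurable)
      (integrable_const _)
      (fun n => by
        filter_upwards [hae] with z hz
        rw [norm_norm]
        refine (norm_sub_le _ _).trans (add_le_add (hQn n _) (by simpa only [mem_closedBall, dist_zero_right] using hz.1)))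
      (by
        filter_upwards [hae] with z hz
        have := ((hQlim z.1 hz.1).sub_const z.1).norm
        simpa only [sub_self, norm_zero] using this)
    simpa only [integral_zero] using h
  have he2 : Tendsto (fun n => ∫ z, ‖Q n z.2 - z.2‖ ∂π) atTop (𝓝 0) := by
    have h := tendsto_integral_of_dominated_convergence (μ := π)
      (F := fun n (z : E d × E d) => ‖Q n z.2 - z.2‖) (f := fun _ => (0 : ℝ))
      (fun _ => M + M)
      (fun n => ((((Q n).measurable.comp measurable_snd).sub measurable_snd).norm).aestronglyMeasurable)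
      (integrable_const _)
      (fun n => by
        filter_upwards [hae] with z hz
        rw [norm_norm]
        refine (norm_sub_le _ _).trans (add_le_add (hQn n _) (by simpa only [mem_closedBall, dist_zero_right] using hz.2)))
      (by
        filter_upwards [hae] with z hz
        have := ((hQlim z.2 hz.2).sub_const z.2).norm
        simpa only [sub_self, norm_zero] using this)
    simpa only [integral_zero] using h
  have hc : Tendsto (fun n => ∫ z, ‖Q n z.2 - Q n z.1‖ ^ 2 ∂π) atTop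
      (𝓝 (∫ z, ‖z.2 - z.1‖ ^ 2 ∂π)) := by
    refine tendsto_integral_of_dominated_convergence (μ := π)
      (F := fun n (z : E d × E d) => ‖Q n z.2 - Q n z.1‖ ^ 2)
      (fun _ => (M + M) ^ 2) (fun n => ?_) (integrable_const _) (fun n => ?_) ?_
    · exact (((((Q n).measurable.comp measurable_snd).sub
        ((Q n).measurable.comp measurable_fst)).norm).pow_const 2).aestronglyMeasurable
    · filter_upwards with z
      rw [norm_pow, norm_norm]
      have := (norm_sub_le (Q n z.2) (Q n z.1)).trans (add_le_add (hQn n _) (hQn n _))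
      (clear * - this; gcongr)
    · filter_upwards [hae] with z hz
      exact ((((hQlim z.2 hz.2).sub (hQlim z.1 hz.1)).norm).pow 2)
  have hlip : ∀ ψ : E d → ℝ, LipschitzWith R.toNNReal ψ → ∀ x y, |ψ x - ψ y| ≤ R * ‖x - y‖ := by
    intro ψ hψ x y
    have := hψ.dist_le_mul x y
    rwa [Real.dist_eq, Real.coe_toNNReal _ hR, dist_eq_norm] at this
  have hint : ∀ ψ : E d → ℝ, LipschitzWith R.toNNReal ψ → ∀ f : E d × E d → E d, Measurable f →
      (∀ᵐ z ∂π, ‖f z‖ ≤ M) → Integrable (fun z => ψ (f z)) π := by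
    intro ψ hψ f hf hb
    refine Integrable.mono' (integrable_const (|ψ 0| + R * M))
      (hψ.continuous.measurable.comp hf).aestronglyMeasurable ?_
    filter_upwards [hb] with z hz
    have h1 := hlip ψ hψ (f z) 0
    have h2 : R * ‖f z - 0‖ ≤ R * M := by
      rw [sub_zero]
      exact mul_le_mul_of_nonneg_left hz hR
    rw [Real.norm_eq_abs]
    have h3 : |ψ (f z)| ≤ |ψ (f z) - ψ 0| + |ψ 0| := by
      have := abs_add_le (ψ (f z) - ψ 0) (ψ 0)
      simpa only [ge_iff_le, sub_add_cancel] using this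
    linarith only [h1, h2, h3]
  have hn : ∀ n, (dualVal R M (src K σ) (π.map Prod.snd) - dualVal R M (src K σ) (π.map Prod.fst))
        - (dualVal R M (unif K) (π.map Prod.snd) - dualVal R M (unif K) (π.map Prod.fst))
      ≤ √(4 * (C + R ^ 2)) * √(∫ x, (σ x - 1) ^ 2 ∂(unif K)) *
          √(∫ z, ‖Q n z.2 - Q n z.1‖ ^ 2 ∂π)
        + 2 * R * (∫ z, ‖Q n z.1 - z.1‖ ∂π + ∫ z, ‖Q n z.2 - z.2‖ ∂π) := by
    intro n
    obtain ⟨I, hIf, hIne, m, a, b, hm, hsum, ha, hb, hg⟩ := exists_discrete π (Q n)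
    have ha' : ∀ i, a i ∈ closedBall (0 : E d) M := fun i => by
      obtain ⟨x, hx⟩ := ha i
      rw [← hx]
      exact hQmem n x
    have hb' : ∀ i, b i ∈ closedBall (0 : E d) M := fun i => by
      obtain ⟨x, hx⟩ := hb i
      rw [← hx]
      exact hQmem n x
    have hat := atomic_ineq hK hKi hR hM hKR hW hC0 hC hσ hm hsum ha' hb'
    have hcost : ∑ i, m i * ‖b i - a i‖ ^ 2 = ∫ z, ‖Q n z.2 - Q n z.1‖ ^ 2 ∂π :=
      hg (fun p => ‖p.2 - p.1‖ ^ 2)
    rw [hcost] at hat
    have hpa := isProbabilityMeasure_atomic (y := a) (fun i => (hm i).le) hsum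
    have hpb := isProbabilityMeasure_atomic (y := b) (fun i => (hm i).le) hsum
    have hac := atomic_compl (m := m) measurableSet_closedBall ha'
    have hbc := atomic_compl (m := m) measurableSet_closedBall hb'
    have hia : ∀ ψ : E d → ℝ, ∫ x, ψ x ∂(atomic m a) = ∫ z, ψ (Q n z.1) ∂π := fun ψ => by
      rw [integral_atomic (fun i => (hm i).le)]
      exact hg (fun p => ψ p.1)
    have hib : ∀ ψ : E d → ℝ, ∫ x, ψ x ∂(atomic m b) = ∫ z, ψ (Q n z.2) ∂π := fun ψ => by
      rw [integral_atomic (fun i => (hm i).le)]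
      exact hg (fun p => ψ p.2)
    have hif : ∀ ψ : E d → ℝ, LipschitzWith R.toNNReal ψ →
        ∫ x, ψ x ∂(π.map Prod.fst) = ∫ z, ψ z.1 ∂π := fun ψ hψ =>
      integral_map measurable_fst.aemeasurable hψ.continuous.aestronglyMeasurable
    have his : ∀ ψ : E d → ℝ, LipschitzWith R.toNNReal ψ →
        ∫ x, ψ x ∂(π.map Prod.snd) = ∫ z, ψ z.2 ∂π := fun ψ hψ =>
      integral_map measurable_snd.aemeasurable hψ.continuous.aestronglyMeasurable
    have hn1 : ∀ᵐ z ∂π, ‖z.1‖ ≤ M := by
      filter_upwards [hae] with z hz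
      simpa only [mem_closedBall, dist_zero_right] using hz.1
    have hn2 : ∀ᵐ z ∂π, ‖z.2‖ ≤ M := by
      filter_upwards [hae] with z hz
      simpa only [mem_closedBall, dist_zero_right] using hz.2
    have hi1 : Integrable (fun z : E d × E d => ‖Q n z.1 - z.1‖) π := by
      refine Integrable.mono' (integrable_const (M + M))
        ((((Q n).measurable.comp measurable_fst).sub measurable_fst).norm).aestronglyMeasurable ?_
      filter_upwards [hn1] with z hz
      rw [norm_norm]
      exact (norm_sub_le _ _).trans (add_le_add (hQn n _) hz)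
    have hi2 : Integrable (fun z : E d × E d => ‖Q n z.2 - z.2‖) π := by
      refine Integrable.mono' (integrable_const (M + M))
        ((((Q n).measurable.comp measurable_snd).sub measurable_snd).norm).aestronglyMeasurable ?_
      filter_upwards [hn2] with z hz
      rw [norm_norm]
      exact (norm_sub_le _ _).trans (add_le_add (hQn n _) hz)
    have hd1 : ∀ ψ : E d → ℝ, LipschitzWith R.toNNReal ψ →
        |∫ z, ψ (Q n z.1) ∂π - ∫ z, ψ z.1 ∂π| ≤ R * ∫ z, ‖Q n z.1 - z.1‖ ∂π := by
      intro ψ hψ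
      have j1 : Integrable (fun z : E d × E d => ψ (Q n z.1)) π :=
        hint ψ hψ (fun z => Q n z.1) ((Q n).measurable.comp measurable_fst)
          (Eventually.of_forall fun z => hQn n _)
      have j2 : Integrable (fun z : E d × E d => ψ z.1) π :=
        hint ψ hψ (fun z => z.1) measurable_fst hn1
      rw [← integral_sub j1 j2, ← integral_const_mul]
      refine (abs_integral_le_integral_abs).trans ?_
      exact integral_mono (j1.sub j2).abs (hi1.const_mul _) fun z => hlip ψ hψ _ _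
    have hd2 : ∀ ψ : E d → ℝ, LipschitzWith R.toNNReal ψ →
        |∫ z, ψ (Q n z.2) ∂π - ∫ z, ψ z.2 ∂π| ≤ R * ∫ z, ‖Q n z.2 - z.2‖ ∂π := by
      intro ψ hψ
      have j1 : Integrable (fun z : E d × E d => ψ (Q n z.2)) π :=
        hint ψ hψ (fun z => Q n z.2) ((Q n).measurable.comp measurable_snd)
          (Eventually.of_forall fun z => hQn n _)
      have j2 : Integrable (fun z : E d × E d => ψ z.2) π :=
        hint ψ hψ (fun z => z.2) measurable_snd hn2
      rw [← integral_sub j1 j2, ← integral_const_mul]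
      refine (abs_integral_le_integral_abs).trans ?_
      exact integral_mono (j1.sub j2).abs (hi2.const_mul _) fun z => hlip ψ hψ _ _
    have k1 : dualVal R M (src K σ) (π.map Prod.snd) ≤ dualVal R M (src K σ) (atomic m b)
        + R * ∫ z, ‖Q n z.2 - z.2‖ ∂π := by
      refine dualVal_le_add hR hM hςR hf2 fun ψ hψ => ?_
      rw [his ψ hψ, hib]
      have := abs_le.1 (hd2 ψ hψ)
      linarith only [this]
    have k2 : dualVal R M (src K σ) (atomic m a) ≤ dualVal R M (src K σ) (π.map Prod.fst)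
        + R * ∫ z, ‖Q n z.1 - z.1‖ ∂π := by
      refine dualVal_le_add hR hM hςR hac fun ψ hψ => ?_
      rw [hif ψ hψ, hia]
      have := abs_le.1 (hd1 ψ hψ)
      linarith only [this]
    have k3 : dualVal R M (unif K) (atomic m b) ≤ dualVal R M (unif K) (π.map Prod.snd)
        + R * ∫ z, ‖Q n z.2 - z.2‖ ∂π := by
      refine dualVal_le_add hR hM hρR hbc fun ψ hψ => ?_
      rw [his ψ hψ, hib]
      have := abs_le.1 (hd2 ψ hψ)
      linarith only [this]
    have k4 : dualVal R M (unif K) (π.map Prod.fst) ≤ dualVal R M (unif K) (atomic m a)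
        + R * ∫ z, ‖Q n z.1 - z.1‖ ∂π := by
      refine dualVal_le_add hR hM hρR hf1 fun ψ hψ => ?_
      rw [hif ψ hψ, hia]
      have := abs_le.1 (hd1 ψ hψ)
      linarith only [this]
    linarith only [hat, k1, k2, k3, k4]
  have hlim : Tendsto (fun n => √(4 * (C + R ^ 2)) * √(∫ x, (σ x - 1) ^ 2 ∂(unif K)) *
          √(∫ z, ‖Q n z.2 - Q n z.1‖ ^ 2 ∂π)
        + 2 * R * (∫ z, ‖Q n z.1 - z.1‖ ∂π + ∫ z, ‖Q n z.2 - z.2‖ ∂π)) atTop
      (𝓝 (√(4 * (C + R ^ 2)) * √(∫ x, (σ x - 1) ^ 2 ∂(unif K)) *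
          √(∫ z, ‖z.2 - z.1‖ ^ 2 ∂π) + 2 * R * (0 + 0))) := by
    refine Tendsto.add ?_ ?_
    · exact ((Real.continuous_sqrt.tendsto _).comp hc).const_mul _
    · exact (he1.add he2).const_mul _
  have hfin := ge_of_tendsto' hlim hn
  have e : ∫ z, ‖z.2 - z.1‖ ^ 2 ∂π = ∫ z, ‖z.1 - z.2‖ ^ 2 ∂π := by
    refine integral_congr_ae (Eventually.of_forall fun z => ?_)
    simp only
    rw [norm_sub_rev]
  rw [e] at hfin
  simpa only [Nat.ofNat_nonneg, Real.sqrt_mul, tsub_le_iff_right, ge_iff_le, add_zero, mul_zero] using hfin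

end Vale.Agent.P074
end
end
end

section

section

section

open MeasureTheory Set
open scoped ENNReal NNReal RealInnerProductSpace

namespace Vale.Agent.P074

/-- Gaussian weight. -/
noncomputable def gw {d : ℕ} (θ : ℝ) (x : E d) : ℝ := Real.exp (-(θ * ‖x‖ ^ 2 / 2))

theorem gw_pos {d : ℕ} (θ : ℝ) (x : E d) : 0 < gw θ x := Real.exp_pos _

@[fun_prop]
theorem continuous_gw {d : ℕ} (θ : ℝ) : Continuous (gw θ : E d → ℝ) := by
  unfold gw
  fun_prop

theorem parallelogram_half {d : ℕ} (x y : E d) :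
    ‖x‖ ^ 2 + ‖y‖ ^ 2 = 2 * ‖(2 : ℝ)⁻¹ • (x + y)‖ ^ 2 + ‖x - y‖ ^ 2 / 2 := by
  have h1 := parallelogram_law_with_norm ℝ x y
  rw [norm_smul]
  norm_num
  linarith

theorem pl_pair_aux {d : ℕ} {θ : ℝ} (hθ : 0 < θ) {A B C : Set (E d)} (hA : IsCompact A)
    (hB : IsCompact B) (hC : IsCompact C)
    (hABC : ∀ x ∈ A, ∀ y ∈ B, (2 : ℝ)⁻¹ • (x + y) ∈ C) (F : E d → ℝ) (hF : Continuous F)
    (hFL : ∀ x ∈ A, ∀ y ∈ B, |F x - F y| ≤ ‖x - y‖) (t : ℝ) :
    (∫ x in A, gw θ x * Real.exp (t * F x)) * (∫ x in B, gw θ x * Real.exp (-(t * F x))) ≤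
      Real.exp (t ^ 2 / θ) * (∫ x in C, gw θ x) ^ 2 := by
  have toL : ∀ (S : Set (E d)) (u : E d → ℝ), IsCompact S → Continuous u → (∀ x, 0 ≤ u x) →
      ∫⁻ x, S.indicator (fun x => ENNReal.ofReal (u x)) x = ENNReal.ofReal (∫ x in S, u x) := by
    intro S u hS hu hu0
    rw [lintegral_indicator hS.measurableSet]
    rw [ofReal_integral_eq_lintegral_ofReal (hu.continuousOn.integrableOn_compact hS)
      (Filter.Eventually.of_forall hu0)]
  have key := prekopa_leindler
    (A.indicator fun x => ENNReal.ofReal (gw θ x * Real.exp (t * F x)))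
    (B.indicator fun x => ENNReal.ofReal (gw θ x * Real.exp (-(t * F x))))
    (C.indicator fun x => ENNReal.ofReal (Real.exp (t ^ 2 / (2 * θ)) * gw θ x))
    (Measurable.indicator (by (clear * - hF; fun_prop)) hA.measurableSet)
    (Measurable.indicator (by (clear * - hF; fun_prop)) hB.measurableSet)
    (Measurable.indicator (by fun_prop) hC.measurableSet)
    (by
      intro x y
      by_cases hx : x ∈ A
      · by_cases hy : y ∈ B
        · rw [indicator_of_mem hx, indicator_of_mem hy, indicator_of_mem (hABC x hx y hy),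
            ← ENNReal.ofReal_mul (mul_nonneg (gw_pos _ _).le (Real.exp_pos _).le),
            ← ENNReal.ofReal_pow (mul_nonneg (Real.exp_pos _).le (gw_pos _ _).le)]
          apply ENNReal.ofReal_le_ofReal
          unfold gw
          rw [mul_pow, ← Real.exp_nat_mul, ← Real.exp_nat_mul, ← Real.exp_add, ← Real.exp_add,
            ← Real.exp_add, ← Real.exp_add]
          apply Real.exp_le_exp.2
          have h1 := parallelogram_half x y
          have h2 := hFL x hx y hy
          have h3 : t * (F x - F y) ≤ |t| * ‖x - y‖ := by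
            calc t * (F x - F y) ≤ |t * (F x - F y)| := le_abs_self _
              _ = |t| * |F x - F y| := abs_mul _ _
              _ ≤ |t| * ‖x - y‖ := mul_le_mul_of_nonneg_left h2 (abs_nonneg _)
          have h4 : |t| * ‖x - y‖ ≤ t ^ 2 / θ + θ * ‖x - y‖ ^ 2 / 4 := by
            have h5 : 0 ≤ (θ * ‖x - y‖ / 2 - |t|) ^ 2 / θ := by (clear * - hθ; positivity)
            have h6 : (θ * ‖x - y‖ / 2 - |t|) ^ 2 / θ =
                θ * ‖x - y‖ ^ 2 / 4 - |t| * ‖x - y‖ + t ^ 2 / θ := by
              rw [← sq_abs t]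
              field_simp
              ring
            linarith only [h5, h6]
          have h7 : ((2 : ℕ) : ℝ) * (t ^ 2 / (2 * θ)) = t ^ 2 / θ := by
            field_simp
            norm_num
            ring
          rw [h7]
          push_cast
          have h8 : θ * (‖x‖ ^ 2 + ‖y‖ ^ 2) =
            θ * (2 * ‖(2 : ℝ)⁻¹ • (x + y)‖ ^ 2 + ‖x - y‖ ^ 2 / 2) := by rw [h1]
          linarith only [h3, h4, h8]
        · rw [indicator_of_notMem hy]; simp only [mul_zero, smul_add, zero_le]
      · rw [indicator_of_notMem hx]; simp only [zero_mul, smul_add, zero_le])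
  rw [toL A _ hA (by fun_prop) (fun x => mul_nonneg (gw_pos _ _).le (Real.exp_pos _).le),
    toL B _ hB (by fun_prop) (fun x => mul_nonneg (gw_pos _ _).le (Real.exp_pos _).le),
    toL C _ hC (by fun_prop) (fun x => mul_nonneg (Real.exp_pos _).le (gw_pos _ _).le),
    ← ENNReal.ofReal_mul (integral_nonneg fun x => mul_nonneg (gw_pos _ _).le (Real.exp_pos _).le),
    ← ENNReal.ofReal_pow (integral_nonneg fun x =>
      mul_nonneg (Real.exp_pos _).le (gw_pos _ _).le)] at key
  rw [ENNReal.ofReal_le_ofReal_iff (by (clear * -; positivity))] at key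
  rw [integral_const_mul, mul_pow, ← Real.exp_nat_mul] at key
  convert key using 3
  field_simp
  norm_num

theorem jensen_exp {d : ℕ} {θ : ℝ} {A : Set (E d)} (hA : IsCompact A) (F : E d → ℝ)
    (hF : Continuous F) (t : ℝ) (hZ : 0 < ∫ x in A, gw θ x) :
    (∫ x in A, gw θ x) * Real.exp (t * ((∫ x in A, gw θ x * F x) / ∫ x in A, gw θ x)) ≤
      ∫ x in A, gw θ x * Real.exp (t * F x) := by
  set Z := ∫ x in A, gw θ x with hZdef
  set m := (∫ x in A, gw θ x * F x) / Z with hm
  have i1 : IntegrableOn (fun x : E d => gw θ x * Real.exp (t * F x)) A volume :=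
    (by fun_prop : Continuous fun x : E d => gw θ x * Real.exp (t * F x)).continuousOn.integrableOn_compact hA
  have i2 : IntegrableOn (fun x : E d => gw θ x * F x) A volume :=
    (by fun_prop : Continuous fun x : E d => gw θ x * F x).continuousOn.integrableOn_compact hA
  have i3 : IntegrableOn (fun x : E d => gw θ x) A volume :=
    (by fun_prop : Continuous fun x : E d => gw θ x).continuousOn.integrableOn_compact hA
  have h1 : ∫ x in A, Real.exp (t * m) * ((1 - t * m) * gw θ x + t * (gw θ x * F x)) ≤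
      ∫ x in A, gw θ x * Real.exp (t * F x) := by
    apply integral_mono
    · exact ((i3.const_mul _).add (i2.const_mul _)).const_mul _
    · exact i1
    · intro x
      have h2 : 1 + (t * F x - t * m) ≤ Real.exp (t * F x - t * m) := by
        have := Real.add_one_le_exp (t * F x - t * m)
        linarith only [this]
      have h3 : Real.exp (t * F x) = Real.exp (t * m) * Real.exp (t * F x - t * m) := by
        rw [← Real.exp_add]; ring_nf
      simp only
      rw [h3]
      have h4 := mul_le_mul_of_nonneg_left h2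
        (mul_nonneg (gw_pos θ x).le (Real.exp_pos (t * m)).le)
      linarith
  have h5 : ∫ x in A, Real.exp (t * m) * ((1 - t * m) * gw θ x + t * (gw θ x * F x)) =
      Z * Real.exp (t * m) := by
    rw [integral_const_mul, integral_add (i3.const_mul _) (i2.const_mul _), integral_const_mul,
      integral_const_mul]
    have h6 : ∫ x in A, gw θ x * F x = m * Z := by
      rw [hm, div_mul_cancel₀ _ hZ.ne']
    rw [h6, ← hZdef]
    ring
  rw [← h5]
  exact h1

theorem pl_pair {d : ℕ} {θ : ℝ} (hθ : 0 < θ) {A B C : Set (E d)} (hA : IsCompact A)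
    (hB : IsCompact B) (hC : IsCompact C)
    (hABC : ∀ x ∈ A, ∀ y ∈ B, (2 : ℝ)⁻¹ • (x + y) ∈ C) (F : E d → ℝ) (hF : Continuous F)
    (hFL : ∀ x ∈ A, ∀ y ∈ B, |F x - F y| ≤ ‖x - y‖)
    (hZA : 0 < ∫ x in A, gw θ x) (hZB : 0 < ∫ x in B, gw θ x) :
    Real.sqrt ((∫ x in A, gw θ x) * (∫ x in B, gw θ x)) *
      (1 + θ / 8 * ((∫ x in A, gw θ x * F x) / (∫ x in A, gw θ x) -
        (∫ x in B, gw θ x * F x) / (∫ x in B, gw θ x)) ^ 2) ≤ ∫ x in C, gw θ x := by
  set ZA := ∫ x in A, gw θ x with hZAd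
  set ZB := ∫ x in B, gw θ x with hZBd
  set ZC := ∫ x in C, gw θ x with hZCd
  set D := (∫ x in A, gw θ x * F x) / ZA - (∫ x in B, gw θ x * F x) / ZB with hD
  have hZC0 : 0 ≤ ZC := integral_nonneg fun x => (gw_pos _ _).le
  have h1 := pl_pair_aux hθ hA hB hC hABC F hF hFL (θ * D / 2)
  have h2 := jensen_exp (θ := θ) hA F hF (θ * D / 2) hZA
  have h3 := jensen_exp (θ := θ) hB F hF (-(θ * D / 2)) hZB
  have h4 : (ZA * Real.exp (θ * D / 2 * ((∫ x in A, gw θ x * F x) / ZA))) *
      (ZB * Real.exp (-(θ * D / 2) * ((∫ x in B, gw θ x * F x) / ZB))) ≤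
      Real.exp ((θ * D / 2) ^ 2 / θ) * ZC ^ 2 := by
    refine le_trans (mul_le_mul h2 ?_ (by (clear * - hZB; positivity)) ?_) h1
    · simpa only [neg_mul] using h3
    · exact integral_nonneg fun x => mul_nonneg (gw_pos _ _).le (Real.exp_pos _).le
  have h5 : ZA * ZB * Real.exp (θ * D ^ 2 / 4) ≤ ZC ^ 2 := by
    have h6 : (ZA * Real.exp (θ * D / 2 * ((∫ x in A, gw θ x * F x) / ZA))) *
      (ZB * Real.exp (-(θ * D / 2) * ((∫ x in B, gw θ x * F x) / ZB))) =
      ZA * ZB * (Real.exp (θ * D ^ 2 / 4) * Real.exp (θ * D ^ 2 / 4)) := by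
      rw [← Real.exp_add]
      calc (ZA * Real.exp (θ * D / 2 * ((∫ x in A, gw θ x * F x) / ZA))) *
          (ZB * Real.exp (-(θ * D / 2) * ((∫ x in B, gw θ x * F x) / ZB)))
          = ZA * ZB * (Real.exp (θ * D / 2 * ((∫ x in A, gw θ x * F x) / ZA)) *
            Real.exp (-(θ * D / 2) * ((∫ x in B, gw θ x * F x) / ZB))) := by ring
        _ = _ := by
          rw [← Real.exp_add]
          congr 2
          rw [hD]
          ring
    have h7 : (θ * D / 2) ^ 2 / θ = θ * D ^ 2 / 4 := by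
      field_simp
      norm_num
    rw [h6, h7] at h4
    have h8 : 0 < Real.exp (θ * D ^ 2 / 4) := Real.exp_pos _
    have h9 : (ZA * ZB * Real.exp (θ * D ^ 2 / 4)) * Real.exp (θ * D ^ 2 / 4) ≤
      ZC ^ 2 * Real.exp (θ * D ^ 2 / 4) := by linarith only [h4]
    exact le_of_mul_le_mul_right h9 h8
  have h10 : Real.sqrt (ZA * ZB) * Real.exp (θ * D ^ 2 / 8) ≤ ZC := by
    apply le_of_sq_le_sq _ hZC0
    rw [mul_pow, Real.sq_sqrt (by (clear * - hZA hZB; positivity)), ← Real.exp_nat_mul]
    refine le_trans (le_of_eq ?_) h5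
    congr 2
    push_cast
    ring
  refine le_trans ?_ h10
  apply mul_le_mul_of_nonneg_left _ (Real.sqrt_nonneg _)
  have := Real.add_one_le_exp (θ * D ^ 2 / 8)
  linarith only [this]

end Vale.Agent.P074
end
end
end

section

section

section

open MeasureTheory Set
open scoped ENNReal NNReal RealInnerProductSpace

namespace Vale.Agent.P074

section Key

variable {d : ℕ} {ι : Type*} [Fintype ι] {K : Set (E d)} {y : ι → E d}

theorem sq_sqrt_sub {a b : ℝ} (ha : 0 ≤ a) (hb : 0 ≤ b) :
    (Real.sqrt a - Real.sqrt b) ^ 2 = a + b - 2 * Real.sqrt (a * b) := by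
  rw [Real.sqrt_mul ha]
  nlinarith [Real.sq_sqrt ha, Real.sq_sqrt hb]

/-- Summed Prekopa-Leindler inequality over the cells. -/
theorem sum_key {θ : ℝ} (hθ : 0 < θ) (hKc : IsCompact K) (hKconv : Convex ℝ K)
    (hy : Function.Injective y) (ψ φ : ι → ℝ) (F : ι → E d → ℝ) (hF : ∀ k, Continuous (F k))
    (hFL : ∀ k, ∀ x ∈ K, ∀ z ∈ K, |F k x - F k z| ≤ ‖x - z‖)
    (hZ : ∀ k, 0 < ∫ x in cell K y ψ k, gw θ x) (hZ' : ∀ k, 0 < ∫ x in cell K y φ k, gw θ x) :
    ∑ k, Real.sqrt ((∫ x in cell K y ψ k, gw θ x) * (∫ x in cell K y φ k, gw θ x)) *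
      ((∫ x in cell K y ψ k, gw θ x * F k x) / (∫ x in cell K y ψ k, gw θ x) -
        (∫ x in cell K y φ k, gw θ x * F k x) / (∫ x in cell K y φ k, gw θ x)) ^ 2 ≤
      4 / θ * ∑ k, (Real.sqrt (∫ x in cell K y ψ k, gw θ x) -
        Real.sqrt (∫ x in cell K y φ k, gw θ x)) ^ 2 := by
  rcases isEmpty_or_nonempty ι with hι | hι
  · simp only [Finset.univ_eq_empty, Finset.sum_empty, mul_zero, Std.le_refl]
  have hint : IntegrableOn (gw θ : E d → ℝ) K volume :=
    (continuous_gw θ).continuousOn.integrableOn_compact hKc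
  have e1 := integral_eq_sum_cell (ψ := ψ) hKc.isClosed hy hint
  have e2 := integral_eq_sum_cell (ψ := φ) hKc.isClosed hy hint
  have e3 := integral_eq_sum_cell (ψ := fun i => (ψ i + φ i) / 2) hKc.isClosed hy hint
  have hk : ∀ k, Real.sqrt ((∫ x in cell K y ψ k, gw θ x) * (∫ x in cell K y φ k, gw θ x)) *
      (1 + θ / 8 * ((∫ x in cell K y ψ k, gw θ x * F k x) / (∫ x in cell K y ψ k, gw θ x) -
        (∫ x in cell K y φ k, gw θ x * F k x) / (∫ x in cell K y φ k, gw θ x)) ^ 2) ≤
      ∫ x in cell K y (fun i => (ψ i + φ i) / 2) k, gw θ x := by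
    intro k
    exact pl_pair hθ (isCompact_cell hKc) (isCompact_cell hKc) (isCompact_cell hKc)
      (fun x hx z hz => midpoint_mem_cell hKconv hx hz) (F k) (hF k)
      (fun x hx z hz => hFL k x hx.1 z hz.1) (hZ k) (hZ' k)
  have hsum := Finset.sum_le_sum fun k (_ : k ∈ Finset.univ) => hk k
  rw [← e3] at hsum
  have hsq : ∀ k, (Real.sqrt (∫ x in cell K y ψ k, gw θ x) -
        Real.sqrt (∫ x in cell K y φ k, gw θ x)) ^ 2 =
        (∫ x in cell K y ψ k, gw θ x) + (∫ x in cell K y φ k, gw θ x) -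
        2 * Real.sqrt ((∫ x in cell K y ψ k, gw θ x) * (∫ x in cell K y φ k, gw θ x)) := by
    intro k
    exact sq_sqrt_sub (hZ k).le (hZ' k).le
  rw [Finset.sum_congr rfl fun k _ => hsq k, Finset.sum_sub_distrib, Finset.sum_add_distrib,
    ← e1, ← e2, ← Finset.mul_sum]
  have hsplit : ∀ k, Real.sqrt ((∫ x in cell K y ψ k, gw θ x) *
      (∫ x in cell K y φ k, gw θ x)) *
      (1 + θ / 8 * ((∫ x in cell K y ψ k, gw θ x * F k x) / (∫ x in cell K y ψ k, gw θ x) -
        (∫ x in cell K y φ k, gw θ x * F k x) / (∫ x in cell K y φ k, gw θ x)) ^ 2) =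
      Real.sqrt ((∫ x in cell K y ψ k, gw θ x) * (∫ x in cell K y φ k, gw θ x)) +
      θ / 8 * (Real.sqrt ((∫ x in cell K y ψ k, gw θ x) * (∫ x in cell K y φ k, gw θ x)) *
        ((∫ x in cell K y ψ k, gw θ x * F k x) / (∫ x in cell K y ψ k, gw θ x) -
        (∫ x in cell K y φ k, gw θ x * F k x) / (∫ x in cell K y φ k, gw θ x)) ^ 2) := by
    intro k
    ring
  rw [Finset.sum_congr rfl fun k _ => hsplit k, Finset.sum_add_distrib, ← Finset.mul_sum] at hsum
  set T := ∫ x in K, gw θ x
  set Q := ∑ k, Real.sqrt ((∫ x in cell K y ψ k, gw θ x) * (∫ x in cell K y φ k, gw θ x))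
  set W := ∑ k, Real.sqrt ((∫ x in cell K y ψ k, gw θ x) * (∫ x in cell K y φ k, gw θ x)) *
      ((∫ x in cell K y ψ k, gw θ x * F k x) / (∫ x in cell K y ψ k, gw θ x) -
        (∫ x in cell K y φ k, gw θ x * F k x) / (∫ x in cell K y φ k, gw θ x)) ^ 2
  have h1 : θ / 8 * W ≤ T - Q := by linarith only [hsum]
  have h2 : W = 8 / θ * (θ / 8 * W) := by (clear * - hθ; field_simp)
  rw [h2]
  calc 8 / θ * (θ / 8 * W) ≤ 8 / θ * (T - Q) := by (clear * - h1 hθ; gcongr)
    _ = 4 / θ * (T + T - 2 * Q) := by ring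

/-- Elementary inequality used to pass from weighted to uniform masses. -/
theorem sqrt_absorb {z z' v v' : ℝ} (hz : 0 < z) (hz' : 0 < z') (h : z ≤ v) (h' : z' ≤ v') :
    (Real.sqrt z - Real.sqrt z') ^ 2 ≤ 2 * (Real.sqrt v - Real.sqrt v') ^ 2 +
      1 / 2 * (Real.sqrt (z * z') * (v / z - v' / z') ^ 2) := by
  have key : ∀ a a' α α' : ℝ, 0 < a → 0 < a' → 1 ≤ α → 1 ≤ α' → a ≤ a' →
      (a - a') ^ 2 ≤ 2 * (a * α - a' * α') ^ 2 + 1 / 2 * (a * a' * (α ^ 2 - α' ^ 2) ^ 2) := by
    intro a a' α α' ha ha' hα hα' haa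
    have h1 : 0 ≤ a' - a := by linarith
    have h2 : a' - a ≤ α' * (a' - a) := by nlinarith only [hα', haa]
    have h3 : (a' - a) ^ 2 ≤ (α' * (a' - a)) ^ 2 := by
      apply pow_le_pow_left₀ h1 h2
    have h4 : α' * (a' - a) = -(a * α - a' * α') + a * (α - α') := by ring
    have h5 : (-(a * α - a' * α') + a * (α - α')) ^ 2 ≤
        2 * (a * α - a' * α') ^ 2 + 2 * (a * (α - α')) ^ 2 := by
      nlinarith only [sq_nonneg ((a * α - a' * α') + a * (α - α'))]
    have h6 : (a * (α - α')) ^ 2 ≤ a * a' * (α - α') ^ 2 := by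
      have : a * a ≤ a * a' := mul_le_mul_of_nonneg_left haa ha.le
      nlinarith only [this]
    have h7 : 4 * (α - α') ^ 2 ≤ (α ^ 2 - α' ^ 2) ^ 2 := by
      have h8 : (α ^ 2 - α' ^ 2) ^ 2 = (α - α') ^ 2 * (α + α') ^ 2 := by ring
      rw [h8]
      have h9 : 4 ≤ (α + α') ^ 2 := by nlinarith only [hα, hα']
      nlinarith only [h9]
    have h10 : a * a' * (4 * (α - α') ^ 2) ≤ a * a' * (α ^ 2 - α' ^ 2) ^ 2 :=
      mul_le_mul_of_nonneg_left h7 (by positivity)
    have h11 : (a - a') ^ 2 = (a' - a) ^ 2 := by ring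
    rw [h11]
    rw [h4] at h3
    linarith
  have hv : 0 < v := lt_of_lt_of_le hz h
  have hv' : 0 < v' := lt_of_lt_of_le hz' h'
  set a := Real.sqrt z with ha
  set a' := Real.sqrt z' with ha'
  have ha0 : 0 < a := Real.sqrt_pos.2 hz
  have ha0' : 0 < a' := Real.sqrt_pos.2 hz'
  set b := Real.sqrt v with hb
  set b' := Real.sqrt v' with hb'
  have hza : z = a ^ 2 := (Real.sq_sqrt hz.le).symm
  have hza' : z' = a' ^ 2 := (Real.sq_sqrt hz'.le).symm
  have hvb : v = b ^ 2 := (Real.sq_sqrt hv.le).symm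
  have hvb' : v' = b' ^ 2 := (Real.sq_sqrt hv'.le).symm
  have hab : a ≤ b := Real.sqrt_le_sqrt h
  have hab' : a' ≤ b' := Real.sqrt_le_sqrt h'
  have e1 : b = a * (b / a) := by (clear * - ha0; field_simp)
  have e1' : b' = a' * (b' / a') := by (clear * - ha0'; field_simp)
  have e2 : v / z = (b / a) ^ 2 := by rw [hvb, hza, div_pow]
  have e2' : v' / z' = (b' / a') ^ 2 := by rw [hvb', hza', div_pow]
  have e3 : Real.sqrt (z * z') = a * a' := by rw [Real.sqrt_mul hz.le]
  have hα : 1 ≤ b / a := (one_le_div ha0).2 hab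
  have hα' : 1 ≤ b' / a' := (one_le_div ha0').2 hab'
  rw [e2, e2', e3]
  rcases le_total a a' with h1 | h1
  · have := key a a' (b / a) (b' / a') ha0 ha0' hα hα' h1
    rwa [← e1, ← e1'] at this
  · have := key a' a (b' / a') (b / a) ha0' ha0 hα' hα h1
    rw [← e1, ← e1'] at this
    linarith

theorem exp_lip {a b c : ℝ} (ha : Real.exp a ≤ c) (hb : Real.exp b ≤ c) :
    |Real.exp a - Real.exp b| ≤ c * |a - b| := by
  have key : ∀ s t : ℝ, Real.exp t ≤ c → Real.exp t - Real.exp s ≤ c * |t - s| := by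
    intro s t ht
    rcases le_total t s with h | h
    · have h1 : Real.exp t ≤ Real.exp s := Real.exp_le_exp.2 h
      have h2 : 0 ≤ c * |t - s| := mul_nonneg (le_trans (Real.exp_pos t).le ht) (abs_nonneg _)
      linarith
    · have h1 : Real.exp s = Real.exp t * Real.exp (s - t) := by
        rw [← Real.exp_add]; ring_nf
      have h2 := Real.add_one_le_exp (s - t)
      have h3 : Real.exp t - Real.exp s ≤ Real.exp t * (t - s) := by
        rw [h1]
        nlinarith only [h2, Real.exp_pos t]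
      have h4 : |t - s| = t - s := abs_of_nonneg (by linarith only [h])
      rw [h4]
      nlinarith only [h3, ht, h]
  rw [abs_le]
  constructor
  · have := key a b hb
    rw [abs_sub_comm] at this
    linarith only [this]
  · exact key b a ha

set_option maxHeartbeats 1600000 in
/-- Bilinear form of the key inequality. -/
theorem key_bilin {R : ℝ} (hR : 0 < R) (hKc : IsCompact K) (hKconv : Convex ℝ K)
    (hKR : ∀ x ∈ K, ‖x‖ ≤ R) (hy : Function.Injective y) (ψ φ : ι → ℝ) (v v' : ι → ℝ)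
    (hv : ∀ k, v k = volume.real (cell K y ψ k)) (hv' : ∀ k, v' k = volume.real (cell K y φ k))
    (hpos : ∀ k, 0 < v k) (h1 : ∀ k, v k ≤ 2 * v' k) (h2 : ∀ k, v' k ≤ 2 * v k)
    (δ : ι → E d) :
    ∑ k, ⟪(∫ x in cell K y φ k, x) - ∫ x in cell K y ψ k, x, δ k⟫ ≤
      20 * R * (Real.sqrt (∑ k, (v' k - v k) ^ 2 / v k) *
        Real.sqrt (∑ k, v k * ‖δ k‖ ^ 2)) := by
  have hpos' : ∀ k, 0 < v' k := fun k => by linarith [hpos k, h1 k]
  set θ : ℝ := 1 / (8 * R ^ 2) with hθdef
  have hθ : 0 < θ := by positivity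
  -- the inverse weight
  set h : E d → ℝ := fun x => Real.exp (θ * ‖x‖ ^ 2 / 2) with hh
  have hhc : Continuous h := by rw [hh]; fun_prop
  have hgh : ∀ x, gw θ x * h x = 1 := by
    intro x
    simp only [hh, gw]
    rw [← Real.exp_add]
    simp only [neg_add_cancel, Real.exp_zero]
  have hexp16 : Real.exp (1 / 16) ≤ 16 / 15 := by
    have h3 := Real.one_sub_le_exp_neg (1 / 16)
    have h4 : Real.exp (1 / 16) * Real.exp (-(1 / 16)) = 1 := by
      rw [← Real.exp_add]; simp
    nlinarith only [h3, h4]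
  have hθR : ∀ x ∈ K, θ * ‖x‖ ^ 2 / 2 ≤ 1 / 16 := by
    intro x hx
    have h3 : ‖x‖ ^ 2 ≤ R ^ 2 := by
      have := hKR x hx
      (clear * - this; gcongr)
    have h4 : θ * ‖x‖ ^ 2 ≤ θ * R ^ 2 := by (clear * - h3 hR; gcongr)
    have h5 : θ * R ^ 2 = 1 / 8 := by rw [hθdef]; field_simp
    linarith only [h4, h5]
  have hh1 : ∀ x, 1 ≤ h x := by
    intro x
    simp only [hh]
    apply Real.one_le_exp
    (clear * - hR; positivity)
  have hh2 : ∀ x ∈ K, h x ≤ 16 / 15 := by
    intro x hx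
    simp only [hh]
    exact le_trans (Real.exp_le_exp.2 (hθR x hx)) hexp16
  have hg1 : ∀ x : E d, gw θ x ≤ 1 := by
    intro x
    unfold gw
    apply Real.exp_le_one_iff.2
    have : 0 ≤ θ * ‖x‖ ^ 2 / 2 := by (clear * - hR; positivity)
    linarith only [this]
  have hg2 : ∀ x ∈ K, 15 / 16 ≤ gw θ x := by
    intro x hx
    have h3 := hgh x
    have h4 := hh2 x hx
    have h5 := hh1 x
    by_contra hcon
    push Not at hcon
    have : gw θ x * h x < 15 / 16 * (16 / 15) := by
      calc gw θ x * h x < 15 / 16 * h x := by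
            apply mul_lt_mul_of_pos_right hcon (by linarith only [h5])
        _ ≤ 15 / 16 * (16 / 15) := by (clear * - h4; gcongr)
    norm_num at this
    linarith only [h3, this]
  have hhL : ∀ x ∈ K, ∀ z ∈ K, |h x - h z| ≤ 2 / (15 * R) * ‖x - z‖ := by
    intro x hx z hz
    have h3 := exp_lip (a := θ * ‖x‖ ^ 2 / 2) (b := θ * ‖z‖ ^ 2 / 2) (c := 16 / 15)
      (hh2 x hx) (hh2 z hz)
    refine le_trans h3 ?_
    have h4 : |θ * ‖x‖ ^ 2 / 2 - θ * ‖z‖ ^ 2 / 2| ≤ θ * R * ‖x - z‖ := by
      have h5 : θ * ‖x‖ ^ 2 / 2 - θ * ‖z‖ ^ 2 / 2 = θ / 2 * ((‖x‖ + ‖z‖) * (‖x‖ - ‖z‖)) := by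
        ring
      rw [h5, abs_mul, abs_mul, abs_of_pos (by positivity : (0 : ℝ) < θ / 2),
        abs_of_nonneg (by (clear * -; positivity) : 0 ≤ ‖x‖ + ‖z‖)]
      have h6 := abs_norm_sub_norm_le x z
      have h7 : ‖x‖ + ‖z‖ ≤ 2 * R := by linarith only [hKR x hx, hKR z hz]
      calc θ / 2 * ((‖x‖ + ‖z‖) * |‖x‖ - ‖z‖|) ≤ θ / 2 * (2 * R * ‖x - z‖) := by (clear * - h7 h6 hR; gcongr)
        _ = θ * R * ‖x - z‖ := by ring
    calc 16 / 15 * |θ * ‖x‖ ^ 2 / 2 - θ * ‖z‖ ^ 2 / 2| ≤ 16 / 15 * (θ * R * ‖x - z‖) := by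
          (clear * - h4; gcongr)
      _ = 2 / (15 * R) * ‖x - z‖ := by
        rw [hθdef]
        field_simp
        ring
  -- integrability
  have hint : ∀ (u : E d → ℝ), Continuous u → ∀ (χ : ι → ℝ) k,
      IntegrableOn u (cell K y χ k) volume := by
    intro u hu χ k
    exact hu.continuousOn.integrableOn_compact (isCompact_cell hKc)
  have hfin : ∀ (χ : ι → ℝ) k, volume (cell K y χ k) ≠ ∞ := fun χ k =>
    (isCompact_cell hKc).measure_lt_top.ne
  -- masses
  set Z : ι → ℝ := fun k => ∫ x in cell K y ψ k, gw θ x with hZdef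
  set Z' : ι → ℝ := fun k => ∫ x in cell K y φ k, gw θ x with hZdef'
  have hZup : ∀ k, Z k ≤ v k := by
    intro k
    rw [hv k]
    calc Z k ≤ ∫ x in cell K y ψ k, (1 : ℝ) :=
          setIntegral_mono_on (hint _ (continuous_gw θ) ψ k) (hint _ continuous_const ψ k)
            (measurableSet_cell hKc.isClosed) (fun x _ => hg1 x)
      _ = volume.real (cell K y ψ k) := by simp only [integral_const, MeasurableSet.univ, measureReal_restrict_apply, univ_inter, smul_eq_mul, mul_one]
  have hZup' : ∀ k, Z' k ≤ v' k := by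
    intro k
    rw [hv' k]
    calc Z' k ≤ ∫ x in cell K y φ k, (1 : ℝ) :=
          setIntegral_mono_on (hint _ (continuous_gw θ) φ k) (hint _ continuous_const φ k)
            (measurableSet_cell hKc.isClosed) (fun x _ => hg1 x)
      _ = volume.real (cell K y φ k) := by simp only [integral_const, MeasurableSet.univ, measureReal_restrict_apply, univ_inter, smul_eq_mul, mul_one]
  have hZlow : ∀ k, 15 / 16 * v k ≤ Z k := by
    intro k
    rw [hv k]
    calc 15 / 16 * volume.real (cell K y ψ k) = ∫ x in cell K y ψ k, (15 / 16 : ℝ) := by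
          simp only [integral_const, MeasurableSet.univ, measureReal_restrict_apply, univ_inter, smul_eq_mul, mul_comm]
      _ ≤ Z k :=
          setIntegral_mono_on (hint _ continuous_const ψ k) (hint _ (continuous_gw θ) ψ k)
            (measurableSet_cell hKc.isClosed) (fun x hx => hg2 x hx.1)
  have hZlow' : ∀ k, 15 / 16 * v' k ≤ Z' k := by
    intro k
    rw [hv' k]
    calc 15 / 16 * volume.real (cell K y φ k) = ∫ x in cell K y φ k, (15 / 16 : ℝ) := by
          simp only [integral_const, MeasurableSet.univ, measureReal_restrict_apply, univ_inter, smul_eq_mul, mul_comm]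
      _ ≤ Z' k :=
          setIntegral_mono_on (hint _ continuous_const φ k) (hint _ (continuous_gw θ) φ k)
            (measurableSet_cell hKc.isClosed) (fun x hx => hg2 x hx.1)
  have hZpos : ∀ k, 0 < Z k := fun k => by linarith only [hZlow k, hpos k]
  have hZpos' : ∀ k, 0 < Z' k := fun k => by linarith only [hZlow' k, hpos' k]
  set S := ∑ k, (Real.sqrt (Z k) - Real.sqrt (Z' k)) ^ 2 with hS
  have hS0 : 0 ≤ S := Finset.sum_nonneg fun k _ => sq_nonneg _
  set At := ∑ k, (v' k - v k) ^ 2 / v k with hAt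
  set B := ∑ k, v k * ‖δ k‖ ^ 2 with hB
  have hAt0 : 0 ≤ At := Finset.sum_nonneg fun k _ => div_nonneg (sq_nonneg _) (hpos k).le
  have hB0 : 0 ≤ B := Finset.sum_nonneg fun k _ => mul_nonneg (hpos k).le (sq_nonneg _)
  -- first application: the inverse weight
  have hSle : S ≤ 3 * At := by
    have k1 := sum_key hθ hKc hKconv hy ψ φ (fun _ x => 15 * R / 2 * h x)
      (fun _ => by fun_prop) (by
        intro k x hx z hz
        have h3 := hhL x hx z hz
        rw [← mul_sub, abs_mul, abs_of_pos (by positivity : 0 < 15 * R / 2)]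
        calc 15 * R / 2 * |h x - h z| ≤ 15 * R / 2 * (2 / (15 * R) * ‖x - z‖) := by (clear * - h3 hR; gcongr)
          _ = ‖x - z‖ := by (clear * - hR; field_simp)) hZpos hZpos'
    have e1 : ∀ k, ∫ x in cell K y ψ k, gw θ x * (15 * R / 2 * h x) = 15 * R / 2 * v k := by
      intro k
      have : ∀ x : E d, gw θ x * (15 * R / 2 * h x) = 15 * R / 2 := by
        intro x
        calc gw θ x * (15 * R / 2 * h x) = 15 * R / 2 * (gw θ x * h x) := by ring
          _ = _ := by rw [hgh]; ring
      simp only [this]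
      rw [hv k]
      simp only [mul_comm, integral_const, MeasurableSet.univ, measureReal_restrict_apply, univ_inter, smul_eq_mul]
    have e2 : ∀ k, ∫ x in cell K y φ k, gw θ x * (15 * R / 2 * h x) = 15 * R / 2 * v' k := by
      intro k
      have : ∀ x : E d, gw θ x * (15 * R / 2 * h x) = 15 * R / 2 := by
        intro x
        calc gw θ x * (15 * R / 2 * h x) = 15 * R / 2 * (gw θ x * h x) := by ring
          _ = _ := by rw [hgh]; ring
      simp only [this]
      rw [hv' k]
      simp only [mul_comm, integral_const, MeasurableSet.univ, measureReal_restrict_apply, univ_inter, smul_eq_mul]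
    simp only [e1, e2] at k1
    have k2 : ∀ k, Real.sqrt (Z k * Z' k) * (15 * R / 2 * v k / Z k - 15 * R / 2 * v' k / Z' k) ^ 2
        = 225 * R ^ 2 / 4 * (Real.sqrt (Z k * Z' k) * (v k / Z k - v' k / Z' k) ^ 2) := by
      intro k
      ring
    rw [Finset.sum_congr rfl fun k _ => k2 k, ← Finset.mul_sum] at k1
    have k3 : 4 / θ = 32 * R ^ 2 := by rw [hθdef]; field_simp; norm_num
    rw [k3] at k1
    set W := ∑ k, Real.sqrt (Z k * Z' k) * (v k / Z k - v' k / Z' k) ^ 2 with hW
    have k4 : W ≤ 128 / 225 * S := by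
      have : 225 * R ^ 2 / 4 * W ≤ 225 * R ^ 2 / 4 * (128 / 225 * S) := by
        calc 225 * R ^ 2 / 4 * W ≤ 32 * R ^ 2 * S := k1
          _ = 225 * R ^ 2 / 4 * (128 / 225 * S) := by ring
      exact le_of_mul_le_mul_left this (by positivity)
    have k5 : S ≤ 2 * ∑ k, (Real.sqrt (v k) - Real.sqrt (v' k)) ^ 2 + 1 / 2 * W := by
      rw [hS, hW, Finset.mul_sum, Finset.mul_sum, ← Finset.sum_add_distrib]
      exact Finset.sum_le_sum fun k _ => sqrt_absorb (hZpos k) (hZpos' k) (hZup k) (hZup' k)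
    have k6 : ∑ k, (Real.sqrt (v k) - Real.sqrt (v' k)) ^ 2 ≤ At := by
      rw [hAt]
      apply Finset.sum_le_sum
      intro k _
      rw [le_div_iff₀ (hpos k)]
      have h3 := Real.sq_sqrt (hpos k).le
      have h4 := Real.sq_sqrt (hpos' k).le
      have h5 := Real.sqrt_nonneg (v k)
      have h6 := Real.sqrt_nonneg (v' k)
      have h7 : (v' k - v k) ^ 2 = (Real.sqrt (v k) - Real.sqrt (v' k)) ^ 2 *
          (Real.sqrt (v k) + Real.sqrt (v' k)) ^ 2 := by
        nth_rewrite 1 [← h3, ← h4]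
        ring
      rw [h7]
      apply mul_le_mul_of_nonneg_left _ (sq_nonneg _)
      nlinarith only [h3, h5, h6]
    linarith only [hAt0, k4, k5, k6]
  -- second application
  set u : ι → E d := fun k => ‖δ k‖⁻¹ • δ k with hu
  have hun : ∀ k, ‖u k‖ ≤ 1 := by
    intro k
    simp only [hu]
    rw [norm_smul, norm_inv, norm_norm]
    exact inv_mul_le_one
  have hδu : ∀ k (x : E d), ⟪x, δ k⟫ = ‖δ k‖ * ⟪x, u k⟫ := by
    intro k x
    simp only [hu]
    rw [inner_smul_right]
    by_cases h0 : δ k = 0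
    · simp [h0]
    · have : ‖δ k‖ ≠ 0 := norm_ne_zero_iff.2 h0
      (clear * - this; field_simp)
  set F : ι → E d → ℝ := fun k x => 5 / 6 * (⟪x, u k⟫ * h x) with hFdef
  have hFc : ∀ k, Continuous (F k) := by
    intro k
    simp only [hFdef]
    fun_prop
  have hin : ∀ k (x : E d), |⟪x, u k⟫| ≤ ‖x‖ := by
    intro k x
    calc |⟪x, u k⟫| ≤ ‖x‖ * ‖u k‖ := abs_real_inner_le_norm _ _
      _ ≤ ‖x‖ * 1 := by gcongr; exact hun k
      _ = ‖x‖ := mul_one _
  have hFL : ∀ k, ∀ x ∈ K, ∀ z ∈ K, |F k x - F k z| ≤ ‖x - z‖ := by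
    intro k x hx z hz
    simp only [hFdef]
    have h3 : 5 / 6 * (⟪x, u k⟫ * h x) - 5 / 6 * (⟪z, u k⟫ * h z) =
        5 / 6 * (⟪x - z, u k⟫ * h x + ⟪z, u k⟫ * (h x - h z)) := by
      rw [inner_sub_left]; ring
    rw [h3, abs_mul, abs_of_pos (by norm_num : (0 : ℝ) < 5 / 6)]
    have h4 : |⟪x - z, u k⟫ * h x + ⟪z, u k⟫ * (h x - h z)| ≤
        ‖x - z‖ * (16 / 15) + R * (2 / (15 * R) * ‖x - z‖) := by
      refine le_trans (abs_add_le _ _) (add_le_add ?_ ?_)
      · rw [abs_mul]
        exact mul_le_mul (hin k _) (by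
          rw [abs_of_pos (by linarith only [hh1 x])]
          exact hh2 x hx) (abs_nonneg _) (norm_nonneg _)
      · rw [abs_mul]
        exact mul_le_mul (le_trans (hin k z) (hKR z hz)) (hhL x hx z hz) (abs_nonneg _) hR.le
    have h5 : R * (2 / (15 * R) * ‖x - z‖) = 2 / 15 * ‖x - z‖ := by (clear * - hR; field_simp)
    rw [h5] at h4
    linarith only [h4]
  have k1 := sum_key hθ hKc hKconv hy ψ φ F hFc hFL hZpos hZpos'
  have k3 : 4 / θ = 32 * R ^ 2 := by rw [hθdef]; field_simp; norm_num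
  rw [k3] at k1
  set I : ι → ℝ := fun k => ∫ x in cell K y ψ k, gw θ x * F k x with hI
  set I' : ι → ℝ := fun k => ∫ x in cell K y φ k, gw θ x * F k x with hI'
  set D : ι → ℝ := fun k => I k / Z k - I' k / Z' k with hD
  change ∑ k, Real.sqrt (Z k * Z' k) * D k ^ 2 ≤ 32 * R ^ 2 * S at k1
  -- moments
  have hmom : ∀ (χ : ι → ℝ) k, ⟪∫ x in cell K y χ k, x, δ k⟫ =
      6 / 5 * ‖δ k‖ * ∫ x in cell K y χ k, gw θ x * F k x := by
    intro χ k
    have hidint : IntegrableOn (fun x : E d => x) (cell K y χ k) volume :=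
      continuous_id.continuousOn.integrableOn_compact (isCompact_cell hKc)
    have h3 : ⟪∫ x in cell K y χ k, x, δ k⟫ = ∫ x in cell K y χ k, ⟪x, δ k⟫ := by
      rw [real_inner_comm, ← integral_inner hidint (δ k)]
      apply integral_congr_ae
      filter_upwards with x
      rw [real_inner_comm]
    rw [h3, ← integral_const_mul]
    apply integral_congr_ae
    filter_upwards with x
    simp only [hFdef]
    rw [hδu k x]
    have := hgh x
    calc ‖δ k‖ * ⟪x, u k⟫ = ‖δ k‖ * ⟪x, u k⟫ * (gw θ x * h x) := by rw [this, mul_one]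
      _ = _ := by ring
  have hI'bound : ∀ k, |I' k| ≤ R * Z' k := by
    intro k
    have h3 : ‖∫ x in cell K y φ k, gw θ x * F k x‖ ≤ ∫ x in cell K y φ k, R * gw θ x := by
      apply norm_integral_le_of_norm_le ((hint _ (continuous_gw θ) φ k).const_mul R)
      filter_upwards [ae_restrict_mem (measurableSet_cell hKc.isClosed)] with x hx
      rw [Real.norm_eq_abs, abs_mul, abs_of_pos (gw_pos _ _), mul_comm]
      apply mul_le_mul_of_nonneg_right _ (gw_pos _ _).le
      simp only [hFdef]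
      rw [abs_mul, abs_mul, abs_of_pos (by norm_num : (0 : ℝ) < 5 / 6),
        abs_of_pos (by linarith only [hh1 x] : 0 < h x)]
      have h4 := hin k x
      have h5 := hKR x hx.1
      have h6 := hh2 x hx.1
      have h7 : |⟪x, u k⟫| * h x ≤ R * (16 / 15) :=
        mul_le_mul (le_trans h4 h5) h6 (by linarith only [hh1 x]) hR.le
      linarith only [hR, h7]
    rw [integral_const_mul] at h3
    exact h3
  have hterm : ∀ k, ⟪(∫ x in cell K y φ k, x) - ∫ x in cell K y ψ k, x, δ k⟫ ≤
      6 / 5 * (R * (‖δ k‖ * |Z' k - Z k|) + ‖δ k‖ * Z k * |D k|) := by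
    intro k
    rw [inner_sub_left, hmom φ k, hmom ψ k]
    have h3 : 6 / 5 * ‖δ k‖ * I' k - 6 / 5 * ‖δ k‖ * I k =
        6 / 5 * (‖δ k‖ * ((Z' k - Z k) * (I' k / Z' k)) - ‖δ k‖ * Z k * D k) := by
      simp only [hD]
      have := (hZpos k).ne'
      have := (hZpos' k).ne'
      field_simp
      ring
    change 6 / 5 * ‖δ k‖ * I' k - 6 / 5 * ‖δ k‖ * I k ≤ _
    rw [h3]
    apply mul_le_mul_of_nonneg_left _ (by norm_num)
    have h4 : (Z' k - Z k) * (I' k / Z' k) ≤ |Z' k - Z k| * R := by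
      calc (Z' k - Z k) * (I' k / Z' k) ≤ |(Z' k - Z k) * (I' k / Z' k)| := le_abs_self _
        _ = |Z' k - Z k| * |I' k / Z' k| := abs_mul _ _
        _ ≤ |Z' k - Z k| * R := by
          apply mul_le_mul_of_nonneg_left _ (abs_nonneg _)
          rw [abs_div, abs_of_pos (hZpos' k), div_le_iff₀ (hZpos' k)]
          exact hI'bound k
    have h5 : -(‖δ k‖ * Z k * D k) ≤ ‖δ k‖ * Z k * |D k| := by
      have h6 := neg_abs_le (D k)
      have h7 : 0 ≤ ‖δ k‖ * Z k := mul_nonneg (norm_nonneg _) (hZpos k).le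
      nlinarith only [h6, h7]
    have h8 : ‖δ k‖ * ((Z' k - Z k) * (I' k / Z' k)) ≤ ‖δ k‖ * (|Z' k - Z k| * R) :=
      mul_le_mul_of_nonneg_left h4 (norm_nonneg _)
    nlinarith only [h5, h8]
  -- first sum
  have hsum1 : ∑ k, ‖δ k‖ * |Z' k - Z k| ≤ 5 / 2 * (Real.sqrt B * Real.sqrt S) := by
    have h3 : ∀ k, ‖δ k‖ * |Z' k - Z k| ≤
        5 / 2 * ((Real.sqrt (v k) * ‖δ k‖) * |Real.sqrt (Z k) - Real.sqrt (Z' k)|) := by
      intro k
      have a1 := Real.sq_sqrt (hZpos k).le
      have a2 := Real.sq_sqrt (hZpos' k).le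
      have a3 : Z' k - Z k = -(Real.sqrt (Z k) - Real.sqrt (Z' k)) *
          (Real.sqrt (Z k) + Real.sqrt (Z' k)) := by
        nth_rewrite 1 [← a1, ← a2]
        ring
      have a4 : Real.sqrt (Z k) + Real.sqrt (Z' k) ≤ 5 / 2 * Real.sqrt (v k) := by
        have b1 : Real.sqrt (Z k) ≤ Real.sqrt (v k) := Real.sqrt_le_sqrt (hZup k)
        have b2 : Real.sqrt (Z' k) ≤ 3 / 2 * Real.sqrt (v k) := by
          have : Z' k ≤ (3 / 2) ^ 2 * v k := by linarith only [hZup' k, h2 k, hpos k]
          calc Real.sqrt (Z' k) ≤ Real.sqrt ((3 / 2) ^ 2 * v k) := Real.sqrt_le_sqrt this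
            _ = 3 / 2 * Real.sqrt (v k) := by
              rw [Real.sqrt_mul (by positivity), Real.sqrt_sq (by norm_num)]
        linarith only [b1, b2]
      rw [a3, abs_mul, abs_neg, abs_of_nonneg (a := Real.sqrt (Z k) + Real.sqrt (Z' k))
        (by (clear * -; positivity))]
      calc ‖δ k‖ * (|Real.sqrt (Z k) - Real.sqrt (Z' k)| * (Real.sqrt (Z k) + Real.sqrt (Z' k)))
          ≤ ‖δ k‖ * (|Real.sqrt (Z k) - Real.sqrt (Z' k)| * (5 / 2 * Real.sqrt (v k))) := by
            (clear * - a4; gcongr)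
        _ = _ := by ring
    refine le_trans (Finset.sum_le_sum fun k _ => h3 k) ?_
    rw [← Finset.mul_sum]
    apply mul_le_mul_of_nonneg_left _ (by norm_num)
    refine le_trans (Real.sum_mul_le_sqrt_mul_sqrt _ _ _) (le_of_eq ?_)
    congr 2
    · apply Finset.sum_congr rfl
      intro k _
      rw [mul_pow, Real.sq_sqrt (hpos k).le]
    · apply Finset.sum_congr rfl
      intro k _
      rw [sq_abs]
  have hsum2 : ∑ k, ‖δ k‖ * Z k * |D k| ≤ 7 * R * (Real.sqrt B * Real.sqrt S) := by
    have hq : ∀ k, 0 < Real.sqrt (Z k * Z' k) := fun k =>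
      Real.sqrt_pos.2 (mul_pos (hZpos k) (hZpos' k))
    have h3 : ∀ k, ‖δ k‖ * Z k * |D k| =
        (‖δ k‖ * Z k / Real.sqrt (Real.sqrt (Z k * Z' k))) *
          (Real.sqrt (Real.sqrt (Z k * Z' k)) * |D k|) := by
      intro k
      have := (Real.sqrt_pos.2 (hq k)).ne'
      (clear * - this; field_simp)
    rw [Finset.sum_congr rfl fun k _ => h3 k]
    refine le_trans (Real.sum_mul_le_sqrt_mul_sqrt _ _ _) ?_
    have h4 : ∑ k, (‖δ k‖ * Z k / Real.sqrt (Real.sqrt (Z k * Z' k))) ^ 2 ≤ 3 / 2 * B := by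
      rw [hB, Finset.mul_sum]
      apply Finset.sum_le_sum
      intro k _
      rw [div_pow, Real.sq_sqrt (hq k).le, div_le_iff₀ (hq k)]
      have h5 : Z k ≤ 3 / 2 * Real.sqrt (Z k * Z' k) := by
        have h6 : Z k ^ 2 ≤ (3 / 2) ^ 2 * (Z k * Z' k) := by
          have h7 : Z k ≤ (3 / 2) ^ 2 * Z' k := by
            have := hZup k
            have := h1 k
            have := hZlow' k
            have := hpos' k
            (clear hKconv hy h2 δ hθ hhc hhL hfin hZdef hZdef' hZup' hZlow hZpos hZpos' S hS hS0 At hAt B hB hAt0 hB0 hSle u hu hun hδu F hFdef hFc hin hFL k3 I hI I' hI' D hD k1 hmom hI'bound hterm hsum1 hq h3; linarith)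
          nlinarith only [h7, hZpos k]
        calc Z k = Real.sqrt (Z k ^ 2) := (Real.sqrt_sq (hZpos k).le).symm
          _ ≤ Real.sqrt ((3 / 2) ^ 2 * (Z k * Z' k)) := Real.sqrt_le_sqrt h6
          _ = 3 / 2 * Real.sqrt (Z k * Z' k) := by
            rw [Real.sqrt_mul (by positivity), Real.sqrt_sq (by norm_num)]
      have h8 : Z k * Z k ≤ v k * (3 / 2 * Real.sqrt (Z k * Z' k)) :=
        mul_le_mul (hZup k) h5 (hZpos k).le (hpos k).le
      calc (‖δ k‖ * Z k) ^ 2 = ‖δ k‖ ^ 2 * (Z k * Z k) := by ring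
        _ ≤ ‖δ k‖ ^ 2 * (v k * (3 / 2 * Real.sqrt (Z k * Z' k))) := by (clear * - h8; gcongr)
        _ = _ := by ring
    have h9 : ∑ k, (Real.sqrt (Real.sqrt (Z k * Z' k)) * |D k|) ^ 2 ≤ 32 * R ^ 2 * S := by
      refine le_trans (le_of_eq ?_) k1
      apply Finset.sum_congr rfl
      intro k _
      rw [mul_pow, Real.sq_sqrt (hq k).le, sq_abs]
    calc _ ≤ Real.sqrt (3 / 2 * B) * Real.sqrt (32 * R ^ 2 * S) := by (clear * - h4 h9; gcongr)
      _ = Real.sqrt (48 * R ^ 2 * (B * S)) := by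
        rw [← Real.sqrt_mul (by (clear * - hB0; positivity))]
        congr 1
        ring
      _ ≤ Real.sqrt ((7 * R) ^ 2 * (B * S)) := by
        apply Real.sqrt_le_sqrt
        apply mul_le_mul_of_nonneg_right _ (mul_nonneg hB0 hS0)
        nlinarith only []
      _ = 7 * R * (Real.sqrt B * Real.sqrt S) := by
        rw [Real.sqrt_mul (by positivity), Real.sqrt_sq (by positivity), Real.sqrt_mul hB0]
  have htot : ∑ k, ⟪(∫ x in cell K y φ k, x) - ∫ x in cell K y ψ k, x, δ k⟫ ≤
      57 / 5 * R * (Real.sqrt B * Real.sqrt S) := by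
    refine le_trans (Finset.sum_le_sum fun k _ => hterm k) ?_
    rw [← Finset.mul_sum, Finset.sum_add_distrib, ← Finset.mul_sum]
    have h3 := mul_le_mul_of_nonneg_left hsum1 hR.le
    nlinarith only [hsum2, h3]
  have hsqrtS : Real.sqrt S ≤ 7 / 4 * Real.sqrt At := by
    calc Real.sqrt S ≤ Real.sqrt ((7 / 4) ^ 2 * At) := by
          apply Real.sqrt_le_sqrt
          linarith only [hAt0, hSle]
      _ = 7 / 4 * Real.sqrt At := by
        rw [Real.sqrt_mul (by positivity), Real.sqrt_sq (by norm_num)]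
  calc _ ≤ 57 / 5 * R * (Real.sqrt B * Real.sqrt S) := htot
    _ ≤ 57 / 5 * R * (Real.sqrt B * (7 / 4 * Real.sqrt At)) := by (clear * - hsqrtS hR; gcongr)
    _ ≤ 20 * R * (Real.sqrt At * Real.sqrt B) := by
      have h3 : 0 ≤ R * (Real.sqrt At * Real.sqrt B) := by (clear * - hR; positivity)
      nlinarith only [h3]

/-- The key inequality: variation of first moments is controlled by variation of masses. -/
theorem key_ineq {R : ℝ} (hR : 0 < R) (hKc : IsCompact K) (hKconv : Convex ℝ K)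
    (hKR : ∀ x ∈ K, ‖x‖ ≤ R) (hy : Function.Injective y) (ψ φ : ι → ℝ) (v v' : ι → ℝ)
    (hv : ∀ k, v k = volume.real (cell K y ψ k)) (hv' : ∀ k, v' k = volume.real (cell K y φ k))
    (hpos : ∀ k, 0 < v k) (h1 : ∀ k, v k ≤ 2 * v' k) (h2 : ∀ k, v' k ≤ 2 * v k) :
    ∑ k, ‖(∫ x in cell K y φ k, x) - ∫ x in cell K y ψ k, x‖ ^ 2 / v k ≤
      400 * R ^ 2 * ∑ k, (v' k - v k) ^ 2 / v k := by
  set m : ι → E d := fun k => (∫ x in cell K y φ k, x) - ∫ x in cell K y ψ k, x with hm
  have key := key_bilin hR hKc hKconv hKR hy ψ φ v v' hv hv' hpos h1 h2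
    (fun k => (v k)⁻¹ • m k)
  have e1 : ∑ k, ⟪m k, (v k)⁻¹ • m k⟫ = ∑ k, ‖m k‖ ^ 2 / v k := by
    apply Finset.sum_congr rfl
    intro k _
    rw [inner_smul_right, real_inner_self_eq_norm_sq]
    (clear * -; field_simp)
  have e2 : ∑ k, v k * ‖(v k)⁻¹ • m k‖ ^ 2 = ∑ k, ‖m k‖ ^ 2 / v k := by
    apply Finset.sum_congr rfl
    intro k _
    have := (hpos k).ne'
    rw [norm_smul, norm_inv, Real.norm_of_nonneg (hpos k).le]
    (clear * - this; field_simp)
  change ∑ k, ⟪m k, (v k)⁻¹ • m k⟫ ≤ _ at key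
  rw [e1, e2] at key
  change ∑ k, ‖m k‖ ^ 2 / v k ≤ _
  set Q := ∑ k, ‖m k‖ ^ 2 / v k
  set At := ∑ k, (v' k - v k) ^ 2 / v k with hAt
  have hQ0 : 0 ≤ Q := Finset.sum_nonneg fun k _ => div_nonneg (sq_nonneg _) (hpos k).le
  have hAt0 : 0 ≤ At := Finset.sum_nonneg fun k _ => div_nonneg (sq_nonneg _) (hpos k).le
  have h3 := Real.sq_sqrt hQ0
  have h4 := Real.sq_sqrt hAt0
  have h5 := Real.sqrt_nonneg Q
  have h6 := Real.sqrt_nonneg At
  rcases eq_or_lt_of_le h5 with h7 | h7
  · rw [← h7] at h3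
    have : Q = 0 := by rw [← h3]; norm_num
    rw [this]
    (clear * - hR hAt0; positivity)
  · have h8 : Real.sqrt Q ≤ 20 * R * Real.sqrt At := by
      have h9 : Real.sqrt Q * Real.sqrt Q ≤ (20 * R * Real.sqrt At) * Real.sqrt Q := by
        calc Real.sqrt Q * Real.sqrt Q = Q := Real.mul_self_sqrt hQ0
          _ ≤ 20 * R * (Real.sqrt At * Real.sqrt Q) := key
          _ = _ := by ring
      exact le_of_mul_le_mul_right h9 h7
    calc Q = Real.sqrt Q ^ 2 := h3.symm
      _ ≤ (20 * R * Real.sqrt At) ^ 2 := by (clear * - h7 h8; gcongr)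
      _ = 400 * R ^ 2 * Real.sqrt At ^ 2 := by ring
      _ = _ := by rw [h4]

end Key

end Vale.Agent.P074
end
end
end

section

section

section

open MeasureTheory Set Metric

namespace Vale.Agent.P074

/-- Stability of the moments of Laguerre cells of a compact convex set. -/
theorem cell_key {d : ℕ} {K : Set (E d)} (hK : IsCompact K) (hKc : Convex ℝ K) : CellKey K := by
  obtain ⟨R, hR, hKR⟩ := hK.isBounded.exists_pos_norm_le
  refine ⟨400 * R ^ 2, by positivity, ?_⟩
  intro ι _ y hy ψ ψ' hpos h1 h2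
  exact key_ineq hR hK hKc hKR hy ψ ψ' _ _ (fun _ => rfl) (fun _ => rfl) hpos h1 h2

end Vale.Agent.P074
end
end
end

section

section

section

open MeasureTheory Set Metric
open scoped ENNReal NNReal

namespace Vale.Agent.P074

/-- The main inequality. -/
theorem main_ineq {d : ℕ} {K : Set (E d)} (hK : IsCompact K) (hKc : Convex ℝ K)
    (hKi : (interior K).Nonempty) {R M : ℝ} (hR : 0 ≤ R) (hM : 0 ≤ M)
    (hKR : K ⊆ closedBall 0 R) : MainIneq K R M :=
  main_ineq_of hK hKi hR hM hKR
    (fun _ _ _ lam _ hac hlK y hy m hm hsum =>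
      exists_weights hK lam hac hlK y hy m (fun k => (hm k).le) hsum)
    (cell_key hK hKc)

end Vale.Agent.P074
end
end
end

section

section

section

open MeasureTheory Set Metric
open scoped ENNReal NNReal

namespace Vale.Agent.P074

theorem ae_mem_of_optimal {d : ℕ} {ρ μ : Measure (E d)} {M : ℝ} {T : E d → E d}
    (hT : IsOptimalMap ρ μ T) (hμ : μ (closedBall 0 M)ᶜ = 0) :
    ∀ᵐ x ∂ρ, T x ∈ closedBall (0 : E d) M := by
  have h1 : ∀ᵐ y ∂μ, y ∈ closedBall (0 : E d) M := hμ
  rw [← hT.2.1] at h1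
  exact ae_of_ae_map hT.1.aemeasurable h1

/-- The exponent `1/3` is admissible. -/
theorem admissible_third (d : ℕ) : Admissible d (1 / 3) := by
  intro K Y hK hKc hKi hY _
  obtain ⟨R, hR, hKR⟩ := hK.isBounded.exists_pos_norm_le
  obtain ⟨M, hM, hYM⟩ := hY.isBounded.exists_pos_norm_le
  have hKR' : K ⊆ closedBall 0 R := fun x hx => by simpa only [mem_closedBall, dist_zero_right] using hKR x hx
  have hYM' : Y ⊆ closedBall 0 M := fun x hx => by simpa only [mem_closedBall, dist_zero_right] using hYM x hx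
  have hmain := main_ineq hK hKc hKi hR.le hM.le hKR'
  obtain ⟨C, hC, hfin⟩ := final_step hK hKc hKi hR.le hM.le hKR' hmain
  apply stability_of_final hYM' (isProbabilityMeasure_unif hK hKi) hC
  intro μ ν hμ hν hμM hνM T₀ T₁ hT₀ hT₁ π hπ h1 h2
  obtain ⟨ψ₀, hψ₀, hae₀⟩ := optimalMap_potential hK hKi hR.le hM.le hKR' hμ hμM hT₀
  obtain ⟨ψ₁, hψ₁, hae₁⟩ := optimalMap_potential hK hKi hR.le hM.le hKR' hν hνM hT₁
  have h3 := hfin T₀ T₁ ψ₀ ψ₁ hT₀.1 hT₁.1 (ae_mem_of_optimal hT₀ hμM) (ae_mem_of_optimal hT₁ hνM)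
    hψ₀ hψ₁ hae₀ hae₁ π hπ (by rw [h1, hT₀.2.1]) (by rw [h2, hT₁.2.1])
  simp only [norm_sub_rev (T₀ _) (T₁ _)]
  exact h3

/-- The set of admissible exponents in dimension `d ≥ 2` has maximum `1/3`. -/
theorem isGreatest_third (d : ℕ) (hd : 2 ≤ d) :
    IsGreatest {α : ℝ | 0 < α ∧ α ≤ 1 ∧ Admissible d α} (1 / 3) := by
  refine ⟨⟨by norm_num, by norm_num, admissible_third d⟩, ?_⟩
  rintro α ⟨hα, _, h⟩
  have hball : (interior (Metric.closedBall (0 : E d) 1)).Nonempty := by
    refine ⟨0, ?_⟩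
    apply interior_mono Metric.ball_subset_closedBall
    rw [Metric.isOpen_ball.interior_eq]
    exact Metric.mem_ball_self one_pos
  obtain ⟨C, hC⟩ := h (Metric.closedBall 0 1) (Metric.closedBall 0 1)
    (isCompact_closedBall 0 1) (convex_closedBall 0 1) hball (isCompact_closedBall 0 1)
    ⟨0, Metric.mem_closedBall_self zero_le_one⟩
  have := stability_exponent_le hd (isCompact_closedBall 0 1) hball (isCompact_closedBall 0 1)
    hball (by norm_num : (0:ℝ) < 2) hα.le hC
  norm_num at this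
  linarith only [this]

end Vale.Agent.P074
end
end
end
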